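import Vale.Agent.P092.H944.Gap

/-!
P092 (helper933), [C1]: realification of complex matrices; the singular values are doubled.
-/

set_option linter.all false

namespace Vale.Agent.P092.H933

open Matrix
open Vale.Agent.P092.H944 (isSVD sv la hs kA)

/-- Realification. -/
noncomputable def rea {n : ℕ} (A : Matrix (Fin n) (Fin n) ℂ) :
    Matrix (Fin (n + n)) (Fin (n + n)) ℝ :=
  (fromBlocks (A.map Complex.re) (-(A.map Complex.im)) (A.map Complex.im)
    (A.map Complex.re)).submatrix finSumFinEquiv.symm finSumFinEquiv.symm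

/-- The complex structure in blocks. -/
def Jb (n : ℕ) : Matrix (Fin n ⊕ Fin n) (Fin n ⊕ Fin n) ℝ :=
  fromBlocks 0 (-(1 : Matrix (Fin n) (Fin n) ℝ)) (1 : Matrix (Fin n) (Fin n) ℝ) 0

/-- The complex structure. -/
def Jc (n : ℕ) : Matrix (Fin (n + n)) (Fin (n + n)) ℝ :=
  (Jb n).submatrix finSumFinEquiv.symm finSumFinEquiv.symm

theorem rea_mul {n : ℕ} (A B : Matrix (Fin n) (Fin n) ℂ) : rea (A * B) = rea A * rea B := by
  unfold rea
  rw [Matrix.submatrix_mul_equiv, fromBlocks_multiply]
  have e1 : (A * B).map Complex.re =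
      A.map Complex.re * B.map Complex.re + -(A.map Complex.im) * B.map Complex.im := by
    ext i j
    simp [Matrix.mul_apply, Matrix.add_apply, Finset.sum_sub_distrib, sub_eq_add_neg,
      Finset.sum_neg_distrib, Finset.sum_add_distrib]
  have e2 : (A * B).map Complex.im =
      A.map Complex.im * B.map Complex.re + A.map Complex.re * B.map Complex.im := by
    ext i j
    simp [Matrix.mul_apply, Matrix.add_apply, Finset.sum_add_distrib, add_comm]
  congr 2
  · rw [e2, Matrix.mul_neg, Matrix.neg_mul, neg_add, add_comm]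
  · rw [e1, add_comm, Matrix.mul_neg, Matrix.neg_mul]

theorem Jb_sq (n : ℕ) : Jb n * Jb n = -1 := by
  rw [Jb, fromBlocks_multiply, ← fromBlocks_one, fromBlocks_neg]
  simp

theorem Jb_tr (n : ℕ) : (Jb n)ᵀ = -Jb n := by
  rw [Jb, fromBlocks_transpose, fromBlocks_neg]
  simp

theorem Jc_sq (n : ℕ) : Jc n * Jc n = -1 := by
  unfold Jc
  rw [Matrix.submatrix_mul_equiv, Jb_sq, submatrix_neg, Pi.neg_apply]
  simp [Matrix.submatrix_one_equiv]

theorem Jc_tr (n : ℕ) : (Jc n)ᵀ = -Jc n := by
  unfold Jc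
  rw [transpose_submatrix, Jb_tr, submatrix_neg]
  rfl

theorem Jc_comm {n : ℕ} (A : Matrix (Fin n) (Fin n) ℂ) : Jc n * rea A = rea A * Jc n := by
  unfold Jc rea
  rw [Matrix.submatrix_mul_equiv, Matrix.submatrix_mul_equiv, Jb, fromBlocks_multiply,
    fromBlocks_multiply]
  congr 1
  simp

/-- Singular values of a matrix commuting with the complex structure come in pairs. -/
theorem gap_even {N : ℕ} {g J : Matrix (Fin N) (Fin N) ℝ} (hg : g.det ≠ 0) (hJ2 : J * J = -1)
    (hJt : Jᵀ = -J) (hc : J * g = g * J) {l : ℕ} (hl : Even l) : H944.gap l g = 0 := by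
  unfold H944.gap
  split_ifs with hlN
  swap
  · rfl
  have hS := isSVD hg
  by_contra hne
  have hlN' : l < N := by omega
  have hlt : sv g ⟨l + 1, hlN⟩ < sv g ⟨l, hlN'⟩ := by
    have hle : sv g ⟨l + 1, hlN⟩ ≤ sv g ⟨l, hlN'⟩ := hS.anti (Fin.le_def.2 (Nat.le_succ l))
    rcases lt_or_eq_of_le hle with h | h
    · exact h
    · exfalso
      apply hne
      rw [la, dif_pos hlN', la, dif_pos hlN, h, sub_self, mul_zero]
  have hc2 : J * gᵀ = gᵀ * J := by
    have := congrArg transpose hc
    rw [transpose_mul, transpose_mul, hJt] at this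
    simp only [Matrix.mul_neg, Matrix.neg_mul, neg_inj] at this
    exact this.symm
  obtain ⟨T, hT⟩ : ∃ T, T = (kA g)ᵀ * J * kA g := ⟨_, rfl⟩
  have hgg : g * gᵀ = kA g * diagonal (fun i => sv g i ^ 2) * (kA g)ᵀ := by
    have e := hS.eq
    have e1 : g * gᵀ = (kA g * diagonal (sv g) * H944.kB g) *
        (kA g * diagonal (sv g) * H944.kB g)ᵀ := by rw [← e]
    rw [e1, transpose_mul, transpose_mul, diagonal_transpose]
    calc kA g * diagonal (sv g) * H944.kB g * ((H944.kB g)ᵀ * (diagonal (sv g) * (kA g)ᵀ)) =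
        kA g * (diagonal (sv g) * (H944.kB g * (H944.kB g)ᵀ) * diagonal (sv g)) * (kA g)ᵀ := by
          simp only [Matrix.mul_assoc]
      _ = _ := by
          rw [hS.o2', Matrix.mul_one, diagonal_mul_diagonal]
          simp only [sq]
  have hcomm : T * diagonal (fun i => sv g i ^ 2) = diagonal (fun i => sv g i ^ 2) * T := by
    have e1 : J * (g * gᵀ) = (g * gᵀ) * J := by
      rw [← Matrix.mul_assoc, hc, Matrix.mul_assoc, hc2, ← Matrix.mul_assoc]
    rw [hgg] at e1
    have e2 := congrArg (fun M => (kA g)ᵀ * M * kA g) e1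
    calc T * diagonal (fun i => sv g i ^ 2)
        = (kA g)ᵀ * (J * (kA g * diagonal (fun i => sv g i ^ 2) * (kA g)ᵀ)) * kA g := by
          rw [hT]
          calc _ = (kA g)ᵀ * J * kA g * diagonal (fun i => sv g i ^ 2) * ((kA g)ᵀ * kA g) := by
                rw [hS.o1, Matrix.mul_one]
            _ = _ := by simp only [Matrix.mul_assoc]
      _ = _ := e2
      _ = diagonal (fun i => sv g i ^ 2) * T := by
          rw [hT]
          calc _ = ((kA g)ᵀ * kA g) * diagonal (fun i => sv g i ^ 2) * ((kA g)ᵀ * J * kA g) := by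
                simp only [Matrix.mul_assoc]
            _ = _ := by rw [hS.o1, Matrix.one_mul]
  have hT2 : T * T = -1 := by
    rw [hT]
    calc _ = (kA g)ᵀ * (J * (kA g * (kA g)ᵀ) * J) * kA g := by simp only [Matrix.mul_assoc]
      _ = _ := by
          rw [hS.o1', Matrix.mul_one, hJ2, Matrix.mul_neg, Matrix.mul_one, Matrix.neg_mul, hS.o1]
  have hz : ∀ i j : Fin N, (i : ℕ) ≤ l → l < (j : ℕ) → T i j = 0 := by
    intro i j hi hj
    have e := congrFun (congrFun hcomm i) j
    rw [mul_diagonal, diagonal_mul] at e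
    have h1 : sv g ⟨l, hlN'⟩ ≤ sv g i := hS.anti (Fin.le_def.2 hi)
    have h2 : sv g j ≤ sv g ⟨l + 1, hlN⟩ := hS.anti (Fin.le_def.2 hj)
    have h3 := hS.pos j
    have h4 : sv g j < sv g i := by linarith
    have h5 : sv g j ^ 2 - sv g i ^ 2 ≠ 0 := by nlinarith
    have h6 : T i j * (sv g j ^ 2 - sv g i ^ 2) = 0 := by linarith
    exact (mul_eq_zero.1 h6).resolve_right h5
  -- the odd block
  have hle : l + 1 ≤ N := by omega
  obtain ⟨B, hB⟩ : ∃ B, B = T.submatrix (Fin.castLE hle) (Fin.castLE hle) := ⟨_, rfl⟩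
  have hB2 : B * B = -1 := by
    ext i j
    have e := congrFun (congrFun hT2 (Fin.castLE hle i)) (Fin.castLE hle j)
    rw [Matrix.mul_apply] at e
    rw [hB, Matrix.mul_apply]
    have e3 : ∑ x, T.submatrix (Fin.castLE hle) (Fin.castLE hle) i x *
        T.submatrix (Fin.castLE hle) (Fin.castLE hle) x j =
        ∑ x, T (Fin.castLE hle i) x * T x (Fin.castLE hle j) := by
      refine Fintype.sum_of_injective (Fin.castLE hle) (Fin.castLE_injective hle) _ _
        (fun x hx => ?_) fun x => rfl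
      have hxl : l < (x : ℕ) := by
        by_contra hc'
        exact hx ⟨⟨x, by omega⟩, Fin.ext rfl⟩
      rw [hz _ _ (by rw [Fin.val_castLE]; have := i.2; omega) hxl, zero_mul]
    rw [e3, e]
    simp only [Matrix.neg_apply, Matrix.one_apply]
    congr 1
    by_cases hij : i = j
    · subst hij; simp
    · rw [if_neg hij, if_neg fun h => hij (Fin.castLE_injective hle h)]
  have hdet := congrArg Matrix.det hB2
  rw [det_mul, det_neg, det_one, Fintype.card_fin, mul_one, hl.add_one.neg_one_pow] at hdet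
  nlinarith [mul_self_nonneg B.det]

/-- The determinant of a realification. -/
theorem det_rea {n : ℕ} (A : Matrix (Fin n) (Fin n) ℂ) :
    ((rea A).det : ℂ) = A.det * (starRingEnd ℂ) A.det := by
  obtain ⟨X, hX⟩ : ∃ X : Matrix (Fin n) (Fin n) ℂ, X = (A.map Complex.re).map (algebraMap ℝ ℂ) :=
    ⟨_, rfl⟩
  obtain ⟨Y, hY⟩ : ∃ Y : Matrix (Fin n) (Fin n) ℂ, Y = (A.map Complex.im).map (algebraMap ℝ ℂ) :=
    ⟨_, rfl⟩
  have hA : A = X + Complex.I • Y := by
    ext i j
    rw [hX, hY]
    simp only [Matrix.add_apply, Matrix.smul_apply, map_apply, smul_eq_mul, Complex.coe_algebraMap]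
    rw [mul_comm]
    exact (Complex.re_add_im _).symm
  have hA' : A.map (starRingEnd ℂ) = X - Complex.I • Y := by
    ext i j
    rw [hX, hY]
    simp only [Matrix.sub_apply, Matrix.smul_apply, map_apply, smul_eq_mul, Complex.coe_algebraMap]
    apply Complex.ext <;> simp
  have e1 : ((rea A).det : ℂ) = (fromBlocks X (-Y) Y X).det := by
    rw [rea, det_submatrix_equiv_self]
    have := RingHom.map_det (algebraMap ℝ ℂ) (fromBlocks (A.map Complex.re) (-(A.map Complex.im))
      (A.map Complex.im) (A.map Complex.re))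
    rw [Complex.coe_algebraMap] at this
    rw [this]
    congr 1
    rw [RingHom.mapMatrix_apply, fromBlocks_map, hX, hY]
    congr 1
    ext i j
    simp
  have e2 : fromBlocks (1 : Matrix (Fin n) (Fin n) ℂ) (Complex.I • (1 : Matrix (Fin n) (Fin n) ℂ))
      0 1 * fromBlocks X (-Y) Y X *
      fromBlocks (1 : Matrix (Fin n) (Fin n) ℂ) (-(Complex.I • (1 : Matrix (Fin n) (Fin n) ℂ)))
      0 1 = fromBlocks A 0 Y (A.map (starRingEnd ℂ)) := by
    rw [fromBlocks_multiply, fromBlocks_multiply, hA', hA]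
    congr 1
    · simp
    · simp only [Matrix.one_mul, Matrix.smul_mul, Matrix.mul_neg, Matrix.mul_smul,
        Matrix.mul_one, smul_add, smul_smul, Complex.I_mul_I]
      ext i j
      simp only [Matrix.add_apply, Matrix.neg_apply, Matrix.smul_apply, smul_eq_mul,
        Matrix.zero_apply]
      ring
    · simp
    · simp only [Matrix.one_mul, Matrix.zero_mul, zero_add, Matrix.mul_neg, Matrix.mul_smul,
        Matrix.mul_one]
      ext i j
      simp only [Matrix.add_apply, Matrix.neg_apply, Matrix.smul_apply, smul_eq_mul,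
        Matrix.sub_apply, Matrix.zero_apply]
      ring
  have e3 := congrArg Matrix.det e2
  rw [det_mul, det_mul, det_fromBlocks_zero₂₁, det_fromBlocks_zero₂₁, det_fromBlocks_zero₁₂,
    det_one, one_mul, one_mul, mul_one] at e3
  rw [e1, e3]
  congr 1
  exact (RingHom.map_det (starRingEnd ℂ) A).symm

end Vale.Agent.P092.H933
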