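import Vale.Agent.P092.H933.PGap

/-!
P092 (helper933), [LOC]: covering numbers of balls over a locally compact field, and the packing
estimate for maps to `GL_n` of a non-archimedean local field, multiplicative up to scalars.
-/

set_option linter.all false

namespace Vale.Agent.P092.H933

open Matrix Metric

/-- Colourings of the unit ball at scale `‖π‖ ^ j`. -/
theorem cover_unit {k E : Type*} [NormedField k] [NormedAddCommGroup E] [NormedSpace k E]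
    [ProperSpace E] {π : k} (h0 : 0 < ‖π‖) :
    ∃ M : ℕ, 0 < M ∧ ∀ j : ℕ, ∃ c : E → ℕ, (∀ x, c x < M ^ j) ∧
      ∀ x y, ‖x‖ ≤ 1 → ‖y‖ ≤ 1 → c x = c y → ‖x - y‖ ≤ 2 * ‖π‖ ^ j := by
  have hπ : π ≠ 0 := norm_pos_iff.1 h0
  obtain ⟨s, hs, hcov⟩ := (isCompact_closedBall (0 : E) 1).elim_finite_subcover_image
    (b := (Set.univ : Set E)) (c := fun z => ball z ‖π‖) (fun z _ => isOpen_ball)
    (fun x _ => Set.mem_biUnion (Set.mem_univ x) (mem_ball_self h0))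
  obtain ⟨hsf, hcov⟩ := hcov
  -- enumerate the centres
  obtain ⟨M, z, hz⟩ : ∃ (M : ℕ) (z : ℕ → E), ∀ x : E, ‖x‖ ≤ 1 → ∃ i < M + 1, ‖x - z i‖ ≤ ‖π‖ := by
    obtain ⟨M, f, hf⟩ : ∃ (M : ℕ) (f : ℕ → E), ∀ z ∈ s, ∃ i < M, f i = z := by
      obtain ⟨l, hl⟩ : ∃ l : List E, ∀ z ∈ s, z ∈ l :=
        ⟨hsf.toFinset.toList, fun z hz => by simpa using hz⟩
      refine ⟨l.length, fun i => l.getD i 0, fun z hz => ?_⟩
      obtain ⟨i, hi, h⟩ := List.getElem_of_mem (hl z hz)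
      exact ⟨i, hi, by dsimp only; rw [List.getD_eq_getElem _ _ hi, h]⟩
    refine ⟨M, f, fun x hx => ?_⟩
    obtain ⟨w, hw, hxw⟩ := Set.mem_iUnion₂.1 (hcov (mem_closedBall_zero_iff.2 hx))
    obtain ⟨i, hi, rfl⟩ := hf w hw
    exact ⟨i, Nat.lt_succ_of_lt hi, (mem_ball_iff_norm.1 hxw).le⟩
  have hch : ∀ x : E, ∃ i, i < M + 1 ∧ (‖x‖ ≤ 1 → ‖x - z i‖ ≤ ‖π‖) := by
    intro x
    by_cases hx : ‖x‖ ≤ 1
    · obtain ⟨i, hi, h⟩ := hz x hx
      exact ⟨i, hi, fun _ => h⟩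
    · exact ⟨0, Nat.succ_pos _, fun h => absurd h hx⟩
  choose ix hix hix2 using hch
  refine ⟨M + 1, Nat.succ_pos _, fun j => ?_⟩
  induction j with
  | zero =>
    refine ⟨fun _ => 0, fun x => by simp, fun x y hx hy _ => ?_⟩
    rw [pow_zero, mul_one]
    calc ‖x - y‖ ≤ ‖x‖ + ‖y‖ := norm_sub_le _ _
      _ ≤ 2 := by linarith
  | succ j ih =>
    obtain ⟨c, hc, hc2⟩ := ih
    have hMj : 0 < (M + 1) ^ j := pow_pos (Nat.succ_pos _) _
    refine ⟨fun x => ix x * (M + 1) ^ j + c (π⁻¹ • (x - z (ix x))), fun x => ?_,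
      fun x y hx hy h => ?_⟩
    · have h1 := hix x
      have h2 := hc (π⁻¹ • (x - z (ix x)))
      calc ix x * (M + 1) ^ j + c (π⁻¹ • (x - z (ix x)))
          < ix x * (M + 1) ^ j + (M + 1) ^ j := by omega
        _ = (ix x + 1) * (M + 1) ^ j := by ring
        _ ≤ (M + 1) * (M + 1) ^ j := Nat.mul_le_mul_right _ h1
        _ = _ := by ring
    · dsimp only at h
      have e1 : ix x = ix y := by
        have h1 := congrArg (fun a => a / (M + 1) ^ j) h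
        rw [Nat.mul_comm, Nat.mul_add_div hMj, Nat.div_eq_of_lt (hc _), Nat.mul_comm,
          Nat.mul_add_div hMj, Nat.div_eq_of_lt (hc _)] at h1
        simpa using h1
      have e2 : c (π⁻¹ • (x - z (ix x))) = c (π⁻¹ • (y - z (ix y))) := by
        rw [e1] at h ⊢
        omega
      have hb : ∀ v : E, ‖v‖ ≤ 1 → ‖π⁻¹ • (v - z (ix v))‖ ≤ 1 := by
        intro v hv
        rw [norm_smul, norm_inv, inv_mul_eq_div]
        exact (div_le_one h0).2 (hix2 v hv)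
      have h3 := hc2 _ _ (hb x hx) (hb y hy) e2
      rw [e1, ← smul_sub, sub_sub_sub_cancel_right, norm_smul, norm_inv, inv_mul_eq_div,
        div_le_iff₀ h0] at h3
      calc ‖x - y‖ ≤ 2 * ‖π‖ ^ j * ‖π‖ := h3
        _ = _ := by ring

/-- Colourings of balls: polynomially many colours. -/
theorem cover_ball (k E : Type*) [NontriviallyNormedField k] [NormedAddCommGroup E]
    [NormedSpace k E] [ProperSpace E] :
    ∃ (N : ℕ) (C : ℝ), 0 < C ∧ ∀ Q ρ : ℝ, 0 < ρ → ρ ≤ Q → ∃ c : E → ℕ,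
      (∀ x, (c x : ℝ) ≤ C * (Q / ρ) ^ N) ∧
      ∀ x y, ‖x‖ ≤ Q → ‖y‖ ≤ Q → c x = c y → ‖x - y‖ ≤ ρ := by
  obtain ⟨π, h0, h1⟩ := NormedField.exists_norm_lt_one k
  obtain ⟨M, hM, hcov⟩ := cover_unit (E := E) h0
  obtain ⟨y, hy⟩ : ∃ y, y = ‖π‖⁻¹ := ⟨_, rfl⟩
  have hy1 : 1 < y := by rw [hy]; exact (one_lt_inv₀ h0).2 h1
  have hy0 : 0 < y := by linarith
  obtain ⟨N, hN⟩ : ∃ N : ℕ, (M : ℝ) ≤ y ^ N := by
    obtain ⟨N, hN⟩ := pow_unbounded_of_one_lt (M : ℝ) hy1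
    exact ⟨N, hN.le⟩
  refine ⟨N, (2 * y ^ 2) ^ N, by positivity, fun Q ρ hρ hQ => ?_⟩
  have hQ0 : 0 < Q := by linarith
  have hx1 : 1 ≤ 2 * y * (Q / ρ) := by
    have : 1 ≤ Q / ρ := (one_le_div hρ).2 hQ
    nlinarith
  obtain ⟨a, ha1, ha2⟩ := exists_nat_pow_near hx1 hy1
  obtain ⟨e, he1, he2⟩ := exists_mem_Ioc_zpow hQ0 hy1
  obtain ⟨c, hc, hc2⟩ := hcov (a + 1)
  refine ⟨fun x => c (π ^ (e + 1) • x), fun x => ?_, fun x x' hx hx' h => ?_⟩
  · calc ((c (π ^ (e + 1) • x) : ℕ) : ℝ) ≤ (M : ℝ) ^ (a + 1) := by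
          exact_mod_cast (hc _).le
      _ ≤ (y ^ N) ^ (a + 1) := pow_le_pow_left₀ (Nat.cast_nonneg _) hN _
      _ = (y * y ^ a) ^ N := by rw [← pow_mul, mul_comm N, pow_mul, pow_succ']
      _ ≤ (y * (2 * y * (Q / ρ))) ^ N :=
          pow_le_pow_left₀ (by positivity) (mul_le_mul_of_nonneg_left ha1 hy0.le) _
      _ = _ := by rw [← mul_pow]; congr 1; ring
  · have hn : ‖π ^ (e + 1)‖ = (y ^ (e + 1))⁻¹ := by
      rw [norm_zpow, hy, _root_.inv_zpow, inv_inv]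
    have hye : 0 < y ^ (e + 1) := zpow_pos hy0 _
    have hb : ∀ v : E, ‖v‖ ≤ Q → ‖π ^ (e + 1) • v‖ ≤ 1 := by
      intro v hv
      rw [norm_smul, hn, inv_mul_eq_div]
      exact (div_le_one hye).2 (hv.trans he2)
    have h3 := hc2 _ _ (hb x hx) (hb x' hx') h
    rw [← smul_sub, norm_smul, hn, inv_mul_eq_div, div_le_iff₀ hye] at h3
    have h4 : y ^ (e + 1) ≤ y * Q := by
      rw [zpow_add_one₀ hy0.ne', mul_comm]
      exact mul_le_mul_of_nonneg_left he1.le hy0.le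
    have h5 : ‖π‖ ^ (a + 1) = (y ^ (a + 1))⁻¹ := by rw [hy, inv_pow, inv_inv]
    calc ‖x - x'‖ ≤ 2 * ‖π‖ ^ (a + 1) * y ^ (e + 1) := h3
      _ ≤ 2 * (y ^ (a + 1))⁻¹ * (y * Q) := by
          rw [h5]
          exact mul_le_mul_of_nonneg_left h4 (by positivity)
      _ = (2 * y * (Q / ρ)) * (y ^ (a + 1))⁻¹ * ρ := by field_simp
      _ ≤ 1 * ρ := by
          refine mul_le_mul_of_nonneg_right ?_ hρ.le
          rw [mul_inv_le_iff₀ (by positivity), one_mul]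
          exact ha2.le
      _ = ρ := one_mul _

section

variable {k : Type} [NontriviallyNormedField k] [IsUltrametricDist k] {n : ℕ}

/-- A map to invertible matrices, multiplicative up to scalars. -/
structure PEmb {k : Type} [NormedField k] {n : ℕ} {Γ : Type} [Group Γ]
    (m : Γ → Matrix (Fin n) (Fin n) k) : Prop where
  mul : ∀ g h, ∃ c : k, c ≠ 0 ∧ m (g * h) = c • (m g * m h)
  det : ∀ g, (m g).det ≠ 0

/-- The normalised size. -/
noncomputable def sz {k : Type} [NormedField k] {n : ℕ} (A : Matrix (Fin n) (Fin n) k) : ℝ :=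
  nr A / nu A

omit [IsUltrametricDist k] in
theorem sz_smul (hn : 0 < n) {c : k} (hc : c ≠ 0) (A : Matrix (Fin n) (Fin n) k) :
    sz (c • A) = sz A := by
  have : ‖c‖ ≠ 0 := norm_ne_zero_iff.2 hc
  have e1 : nr (c • A) = ‖c‖ * nr A := by
    unfold nr
    rw [← norm_smul]
    rfl
  have e2 : nu (c • A) = ‖c‖ * nu A := by
    unfold nu
    rw [det_smul, norm_mul, Real.mul_rpow (norm_nonneg _) (norm_nonneg _), norm_pow,
      Fintype.card_fin, Real.pow_rpow_inv_natCast (norm_nonneg _) hn.ne']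
  rw [sz, sz, e1, e2]
  field_simp

theorem nr_inv_le {A : Matrix (Fin n) (Fin n) k} {q : ℝ} (hq : 1 ≤ q) (hA : nr A ≤ q)
    (hd : 1 ≤ ‖A.det‖) : nr A⁻¹ ≤ q ^ n := by
  refine nr_le (by positivity) fun i j => ?_
  rw [Matrix.inv_def, Matrix.smul_apply, smul_eq_mul, norm_mul, Ring.inverse_eq_inv', norm_inv]
  have h1 : ‖A.adjugate i j‖ ≤ q ^ n := by
    rw [Matrix.adjugate_apply]
    refine (norm_det_le_pow _).trans (pow_le_pow_left₀ (nr_nonneg _) ?_ _)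
    refine nr_le (by linarith) fun a b => ?_
    rw [Matrix.updateRow_apply]
    split_ifs with h
    · by_cases hb : b = i
      · subst hb; simpa using hq
      · rw [Pi.single_eq_of_ne hb, norm_zero]; linarith
    · exact (entry_le_nr A a b).trans hA
  calc ‖A.det‖⁻¹ * ‖A.adjugate i j‖ ≤ 1 * q ^ n :=
        mul_le_mul (inv_le_one_of_one_le₀ hd) h1 (norm_nonneg _) zero_le_one
    _ = _ := one_mul _

/-- **The packing estimate.** -/
theorem pack [ProperSpace k] {Γ : Type} [Group Γ] {m : Γ → Matrix (Fin n) (Fin n) k}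
    (hn : 0 < n) (h : PEmb m) : ∃ (N : ℕ) (C C0 : ℝ), ∀ R : ℝ, 1 ≤ R → ∃ c : Γ → ℕ,
    (∀ b, sz (m b) ≤ R → (c b : ℝ) ≤ C * R ^ N) ∧
    ∀ b b', sz (m b) ≤ R → sz (m b') ≤ R → c b = c b' → sz (m (b⁻¹ * b')) ≤ C0 := by
  obtain ⟨π, h0, h1⟩ := NormedField.exists_norm_lt_one k
  obtain ⟨y, hy⟩ : ∃ y, y = ‖π‖⁻¹ := ⟨_, rfl⟩
  have hπ : π ≠ 0 := norm_pos_iff.1 h0
  have hy1 : 1 < y := by rw [hy]; exact (one_lt_inv₀ h0).2 h1
  have hy0 : 0 < y := by linarith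
  obtain ⟨N, C, hC, hcov⟩ := cover_ball k (Fin n × Fin n → k)
  -- normalised representatives
  have hrep : ∀ b, ∃ A : Matrix (Fin n) (Fin n) k, (∃ c : k, c ≠ 0 ∧ A = c • m b) ∧
      1 ≤ nu A ∧ nu A < y := by
    intro b
    obtain ⟨e, he1, he2⟩ := exists_mem_Ico_zpow (nu_pos (h.det b)) hy1
    refine ⟨π ^ e • m b, ⟨π ^ e, zpow_ne_zero _ hπ, rfl⟩, ?_, ?_⟩
    · rw [nu_smul hn, norm_zpow, show ‖π‖ = y⁻¹ by rw [hy, inv_inv], _root_.inv_zpow,
        inv_mul_eq_div, one_le_div (zpow_pos hy0 _)]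
      exact he1
    · rw [nu_smul hn, norm_zpow, show ‖π‖ = y⁻¹ by rw [hy, inv_inv], _root_.inv_zpow,
        inv_mul_eq_div, div_lt_iff₀ (zpow_pos hy0 _), ← zpow_one_add₀ hy0.ne', add_comm]
      exact he2
  choose A hA hA1 hA2 using hrep
  have hAd : ∀ b, (A b).det ≠ 0 := fun b => by
    obtain ⟨c, hc, e⟩ := hA b
    rw [e]
    exact smul_det_ne hc (h.det b)
  have hsz : ∀ b, sz (A b) = sz (m b) := fun b => by
    obtain ⟨c, hc, e⟩ := hA b
    rw [e, sz_smul hn hc]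
  refine ⟨(n + 1) * N, C * y ^ ((n + 1) * N), y, fun R hR => ?_⟩
  have hq1 : 1 ≤ y * R := by nlinarith
  have hq0 : 0 < y * R := by linarith
  obtain ⟨c, hc1, hc2⟩ := hcov (y * R) ((y * R) ^ n)⁻¹ (by positivity) (by
    rw [inv_le_iff_one_le_mul₀ (by positivity)]
    exact one_le_mul_of_one_le_of_one_le hq1 (one_le_pow₀ hq1))
  refine ⟨fun b => c fun p => A b p.1 p.2, fun b _ => ?_, fun b b' hb hb' hcc => ?_⟩
  · calc ((c fun p => A b p.1 p.2 : ℕ) : ℝ) ≤ C * (y * R / ((y * R) ^ n)⁻¹) ^ N := hc1 _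
      _ = C * ((y * R) ^ (n + 1)) ^ N := by
          rw [div_inv_eq_mul, pow_succ']
      _ = _ := by rw [← pow_mul, mul_pow]; ring
  · -- bounds of the representatives
    have hbd : ∀ b, sz (m b) ≤ R → nr (A b) ≤ y * R := by
      intro b hb
      have : nr (A b) = sz (A b) * nu (A b) := by
        rw [sz, div_mul_cancel₀ _ (nu_pos (hAd b)).ne']
      rw [this, hsz, mul_comm]
      exact mul_le_mul (hA2 b).le hb (div_nonneg (nr_nonneg _) (nu_pos (h.det b)).le) hy0.le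
    have h2 : nr (A b' - A b) ≤ ((y * R) ^ n)⁻¹ := by
      have := hc2 (fun p => A b' p.1 p.2) (fun p => A b p.1 p.2) (hbd b' hb') (hbd b hb) hcc.symm
      exact this
    have hd : 1 ≤ ‖(A b).det‖ := by
      rw [← nu_pow hn]
      exact one_le_pow₀ (hA1 b)
    have h3 : nr (A b)⁻¹ ≤ (y * R) ^ n := nr_inv_le hq1 (hbd b hb) hd
    have h4 : (A b)⁻¹ * A b' = 1 + (A b)⁻¹ * (A b' - A b) := by
      rw [Matrix.mul_sub, inv_mul_self (hAd b), add_sub_cancel]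
    have h5 : nr ((A b)⁻¹ * A b') ≤ 1 := by
      rw [h4]
      refine nr_le zero_le_one fun i j => ?_
      rw [Matrix.add_apply]
      refine (IsUltrametricDist.norm_add_le_max _ _).trans (max_le (InK.one.le i j) ?_)
      refine (entry_le_nr _ i j).trans ((nr_mul_le _ _).trans ?_)
      calc nr (A b)⁻¹ * nr (A b' - A b) ≤ (y * R) ^ n * ((y * R) ^ n)⁻¹ :=
            mul_le_mul h3 h2 (nr_nonneg _) (by positivity)
        _ = 1 := mul_inv_cancel₀ (by positivity)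
    have h6 : nu ((A b)⁻¹ * A b') = nu (A b') / nu (A b) := by
      have : nu (A b) * nu ((A b)⁻¹ * A b') = nu (A b') := by
        rw [← nu_mul, ← Matrix.mul_assoc, mul_inv_self (hAd b), Matrix.one_mul]
      rw [← this, mul_div_cancel_left₀ _ (nu_pos (hAd b)).ne']
    have h7 : sz ((A b)⁻¹ * A b') ≤ y := by
      rw [sz, h6, div_le_iff₀ (div_pos (nu_pos (hAd b')) (nu_pos (hAd b)))]
      refine h5.trans ?_
      rw [mul_div_assoc', one_le_div (nu_pos (hAd b))]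
      calc nu (A b) ≤ y := (hA2 b).le
        _ = y * 1 := (mul_one _).symm
        _ ≤ y * nu (A b') := mul_le_mul_of_nonneg_left (hA1 b') hy0.le
    -- back to the group
    obtain ⟨c1, hc1', e1⟩ := h.mul b (b⁻¹ * b')
    rw [mul_inv_cancel_left] at e1
    obtain ⟨c2, hc2', e2⟩ := hA b
    obtain ⟨c3, hc3', e3⟩ := hA b'
    have e4 : (A b)⁻¹ * A b' = (c2⁻¹ * c3 * c1) • m (b⁻¹ * b') := by
      rw [e2, e3, e1, inv_smul_eq hc2' (h.det b), Matrix.smul_mul, Matrix.mul_smul,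
        Matrix.mul_smul, ← Matrix.mul_assoc, inv_mul_self (h.det b), Matrix.one_mul,
        smul_smul, smul_smul, mul_assoc]
    rw [e4, sz_smul hn (mul_ne_zero (mul_ne_zero (inv_ne_zero hc2') hc3') hc1')] at h7
    exact h7

end

end Vale.Agent.P092.H933
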