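import Vale.Agent.P092.H761.RankDefs

/-!
P092 (helper933), [LOC]: the gauges of a group at one place (a real, complex or non-archimedean
matrix representation), and a literal interface for products over several places.
-/

set_option linter.all false

namespace Vale.Agent.P092.H933

open Real

/-- The gauges of a group at one place: `f θ t g b` (left family), `f0 θ t g b` (right family),
`w b` the size of `b`. -/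
structure Place {Γ J : Type} [Group Γ] (gap : J → Γ → ℝ) (w : Γ → ℝ)
    (f f0 : Finset J → (J → ℝ) → Γ → Γ → ℝ) (A : ℝ) : Prop where
  wpos : ∀ b, 0 < w b
  quasi : ∀ s t : Γ, ∃ C : ℝ, ∀ j g, |gap j (s * g * t) - gap j g| ≤ C
  gw : ∀ R : ℝ, ∃ R' : ℝ, ∀ g, (∀ j, gap j g ≤ R) → w g ≤ R'
  lo : ∀ θ t g, ∃ c : ℝ, 0 < c ∧ ∀ b, c * w b ≤ f θ t g b
  lo0 : ∀ θ t g, ∃ c : ℝ, 0 < c ∧ ∀ b, c * w b ≤ f0 θ t g b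
  bd : ∀ θ (R T : ℝ), ∃ c : ℝ, 0 < c ∧ ∃ C : ℝ, ∀ g, (∀ j, j ∉ θ → gap j g ≤ R) →
    ∀ t : J → ℝ, (∀ j ∈ θ, 0 ≤ t j ∧ t j ≤ T) → ∀ b, c * w b ≤ f θ t g b ∧ f θ t g b ≤ C * w b
  bd0 : ∀ θ (T : ℝ), ∃ c : ℝ, 0 < c ∧ ∃ C : ℝ, ∀ g, ∀ t : J → ℝ,
    (∀ j ∈ θ, 0 ≤ t j ∧ t j ≤ T) → ∀ b, c * w b ≤ f0 θ t g b ∧ f0 θ t g b ≤ C * w b
  lip : ∀ θ t d g b, f θ (t + d) g b ≤ exp (A * ∑ j ∈ θ, |d j|) * f θ t g b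
  left : ∀ θ (s : Γ), ∃ C : ℝ, ∀ ρ : ℝ, 0 < ρ → ∃ L : ℝ, ∀ T : ℝ, ∃ D : ℝ, ∀ g,
    (∀ j ∈ θ, D ≤ gap j g) → ∃ (p : ℝ) (σ : J → ℝ), |p| ≤ C ∧ (∀ j, |σ j| ≤ C) ∧
      ∀ t : J → ℝ, (∀ j ∈ θ, L ≤ t j ∧ t j ≤ T) → ∀ b,
        |exp p * f θ (t + σ) (s * g) (s * b) - f θ t g b| ≤ ρ * f θ t g b
  right : ∀ θ (u : Γ) (T η : ℝ), 0 < η → ∃ D : ℝ, ∀ g, (∀ j ∈ θ, D ≤ gap j g) →
    ∀ t : J → ℝ, (∀ j ∈ θ, 0 ≤ t j ∧ t j ≤ T) → ∀ b,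
      |f0 θ t (g * u) b - f0 θ t g b| ≤ η * f0 θ t g b
  ov : ∀ θ (R : ℝ), ∃ C : ℝ, 1 ≤ C ∧ ∀ g, (∀ j, j ∉ θ → gap j g ≤ R) → ∀ t b,
    f θ t g b ≤ C * f0 θ t g b ∧ f0 θ t g b ≤ C * f θ t g b
  pack : ∃ (N : ℕ) (C C0 : ℝ), ∀ R : ℝ, 1 ≤ R → ∃ c : Γ → ℕ,
    (∀ b, w b ≤ R → (c b : ℝ) ≤ C * R ^ N) ∧
    ∀ b b', w b ≤ R → w b' ≤ R → c b = c b' → w (b⁻¹ * b') ≤ C0

/-- **[LOC-P]** literal statement: a group with finitely many places and finite balls satisfies the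
geometric statement for every set of gaps. -/
def GeoPlaces : Prop :=
  ∀ (Γ V : Type) [Group Γ] [DecidableEq Γ] [Fintype V] [DecidableEq V] [Nonempty V]
    (J : V → Type) [∀ v, Fintype (J v)] [∀ v, DecidableEq (J v)]
    (gap : ∀ v, J v → Γ → ℝ) (w : V → Γ → ℝ) (f f0 : ∀ v, Finset (J v) → (J v → ℝ) → Γ → Γ → ℝ)
    (A : V → ℝ) (_ : ∀ v, Place (gap v) (w v) (f v) (f0 v) (A v))
    (_ : ∀ R : ℝ, {g : Γ | ∀ v, w v g ≤ R}.Finite),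
    (∀ s t : Γ, ∃ C : ℝ, ∀ (j : Σ v, J v) g, |gap j.1 j.2 (s * g * t) - gap j.1 j.2 g| ≤ C) ∧
    (∀ R : ℝ, {g : Γ | ∀ j : Σ v, J v, gap j.1 j.2 g ≤ R}.Finite) ∧
    ∀ θ : Finset (Σ v, J v), H761.Geo (fun j : Σ v, J v => gap j.1 j.2) θ

end Vale.Agent.P092.H933
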