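import Vale.Agent.P092.H933.PGauge
import Vale.Agent.P092.H933.Pack
import Vale.Agent.P092.H933.Place

/-!
P092 (helper933), [LOC]: a map to `GL_n` of a non-archimedean local field, multiplicative up to
scalars, is a place.
-/

set_option linter.all false

namespace Vale.Agent.P092.H933

open Matrix

section

variable {k : Type} [NontriviallyNormedField k] [IsUltrametricDist k] {n : ℕ}

theorem gf_congr {θ : Finset ℕ} {t t' : ℕ → ℝ} (h : ∀ l ∈ θ, t l = t' l)
    (A b : Matrix (Fin n) (Fin n) k) : gf θ t A b = gf θ t' A b := by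
  have e : uu θ t A = uu θ t' A := by
    funext l
    unfold uu
    split_ifs with hl
    · exact h l hl
    · rfl
  unfold gf
  rw [e]

theorem gf_smul (θ : Finset ℕ) (t : ℕ → ℝ) (A : Matrix (Fin n) (Fin n) k) (c : k)
    (b : Matrix (Fin n) (Fin n) k) : gf θ t A (c • b) = ‖c‖ * gf θ t A b := by
  unfold gf
  rw [Matrix.mul_smul, gau_smul]

theorem gf_nonneg (θ : Finset ℕ) (t : ℕ → ℝ) (A b : Matrix (Fin n) (Fin n) k) :
    0 ≤ gf θ t A b := gau_nonneg _ _

theorem g0_nonneg (θ : Finset ℕ) (t : ℕ → ℝ) (A b : Matrix (Fin n) (Fin n) k) :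
    0 ≤ g0 θ t A b := gau_nonneg _ _

/-- Right multiplication by a scalar does not change the gap. -/
theorem gap_smul (hn : 0 < n) {c : k} (hc : c ≠ 0) {A : Matrix (Fin n) (Fin n) k}
    (hA : A.det ≠ 0) (j : ℕ) : gap j (c • A) = gap j A := by
  have h1 : (1 : Matrix (Fin n) (Fin n) k).det ≠ 0 := by rw [det_one]; exact one_ne_zero
  have h := abs_gap_left (S := c • (1 : Matrix (Fin n) (Fin n) k)) (smul_det_ne hc h1) hA hn j
  have h2 : cn (c • (1 : Matrix (Fin n) (Fin n) k)) = 0 := by
    rw [cn_smul hc h1, cn, inv_one, nr_one hn, mul_one, Real.log_one]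
  rw [h2, Matrix.smul_mul, Matrix.one_mul] at h
  linarith [abs_nonpos_iff.1 h]

variable {Γ : Type} [Group Γ] {m : Γ → Matrix (Fin n) (Fin n) k}

theorem PEmb.gap_left (h : PEmb m) (hn : 0 < n) (s g : Γ) (j : ℕ) :
    |gap j (m (s * g)) - gap j (m g)| ≤ cn (m s) := by
  obtain ⟨c, hc, e⟩ := h.mul s g
  rw [e, gap_smul hn hc (mul_det_ne (h.det s) (h.det g))]
  exact abs_gap_left (h.det s) (h.det g) hn j

theorem PEmb.gap_right (h : PEmb m) (hn : 0 < n) (g t : Γ) (j : ℕ) :
    |gap j (m (g * t)) - gap j (m g)| ≤ cn (m t) := by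
  obtain ⟨c, hc, e⟩ := h.mul g t
  rw [e, gap_smul hn hc (mul_det_ne (h.det g) (h.det t))]
  exact abs_gap_right (h.det g) (h.det t) hn j

/-- **Non-archimedean places.** `e` lists the gaps which may be unbounded. -/
theorem place [ProperSpace k] (hn : 0 < n) (h : PEmb m) {J : Type} [Fintype J] [DecidableEq J]
    (e : J ↪ ℕ) {R0 : ℝ}
    (h0 : ∀ l, l + 1 < n → (∀ j, e j ≠ l) → ∀ g, gap l (m g) ≤ R0) :
    Place (fun j g => gap (e j) (m g)) (fun b => sz (m b))
      (fun θ t g b => gf (θ.map e) (Function.extend e t 0) (m g) (m b) / nu (m b))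
      (fun θ t g b => g0 (θ.map e) (Function.extend e t 0) (m g) (m b) / nu (m b)) 1 := by
  have hnu : ∀ b, 0 < nu (m b) := fun b => nu_pos (h.det b)
  have hext : ∀ (t : J → ℝ) (j : J), Function.extend e t 0 (e j) = t j := fun t j =>
    e.injective.extend_apply t 0 j
  have hout : ∀ (θ : Finset J) R (g : Γ), (∀ j, j ∉ θ → gap (e j) (m g) ≤ R) →
      ∀ l, l ∉ θ.map e → l + 1 < n → gap l (m g) ≤ max R R0 := by
    intro θ R g hR l hl hln
    by_cases hj : ∃ j, e j = l
    · obtain ⟨j, rfl⟩ := hj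
      have hjθ : j ∉ θ := fun hjm => hl (Finset.mem_map_of_mem e hjm)
      exact (hR j hjθ).trans (le_max_left _ _)
    · push Not at hj
      exact (h0 l hln hj g).trans (le_max_right _ _)
  have hmap : ∀ {θ : Finset J} {P : ℕ → Prop}, (∀ j ∈ θ, P (e j)) → ∀ l ∈ θ.map e, P l := by
    intro θ P hP l hl
    obtain ⟨j, hj, rfl⟩ := Finset.mem_map.mp hl
    exact hP j hj
  refine
    { wpos := fun b => div_pos (nr_pos (h.det b) hn) (hnu b)
      quasi := fun s t => ⟨cn (m s) + cn (m t), fun j g => ?_⟩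
      gw := fun R => ⟨Real.exp (n * |max R R0|), fun g hg => ?_⟩
      lo := fun θ t g => ?_
      lo0 := fun θ t g => ?_
      bd := fun θ R T => ?_
      bd0 := fun θ T => ?_
      lip := fun θ t d g b => ?_
      left := fun θ s => ?_
      right := fun θ u T η hη => ?_
      ov := fun θ R => ?_
      pack := pack hn h }
  · have e1 := h.gap_left hn s g (e j)
    have e2 := h.gap_right hn (s * g) t (e j)
    rw [abs_le] at e1 e2 ⊢
    constructor <;> linarith [e1.1, e1.2, e2.1, e2.2]
  · refine nr_div_nu_le hn (h.det g) fun l hl => ?_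
    have := hout ∅ R g (fun j _ => hg j) l (by simp) hl
    exact this
  · obtain ⟨c, hc, hl⟩ := gf_lo (θ.map e) (Function.extend e t 0) (m g)
    refine ⟨c, hc, fun b => ?_⟩
    rw [sz, mul_div_assoc', div_le_div_iff_of_pos_right (hnu b)]
    exact hl _
  · obtain ⟨c, hc, hl⟩ := g0_lo (θ.map e) (Function.extend e t 0) (m g)
    refine ⟨c, hc, fun b => ?_⟩
    rw [sz, mul_div_assoc', div_le_div_iff_of_pos_right (hnu b)]
    exact hl _
  · refine ⟨1, one_pos, Real.exp (n * (|T| + |max R R0|)), fun g hg t ht b => ?_⟩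
    have := gf_bd (θ := θ.map e) (t := Function.extend e t 0) (h.det g) (hout θ R g hg)
      (hmap fun j hj => by rw [hext]; exact (ht j hj).1)
      (hmap fun j hj => by rw [hext]; exact (ht j hj).2) (m b)
    rw [sz, mul_div_assoc', mul_div_assoc', div_le_div_iff_of_pos_right (hnu b),
      div_le_div_iff_of_pos_right (hnu b), one_mul]
    exact this
  · refine ⟨1, one_pos, Real.exp (n * |T|), fun g t ht b => ?_⟩
    have := g0_bd (θ := θ.map e) (t := Function.extend e t 0) (m g)
      (hmap fun j hj => by rw [hext]; exact (ht j hj).1)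
      (hmap fun j hj => by rw [hext]; exact (ht j hj).2) (m b)
    rw [sz, mul_div_assoc', mul_div_assoc', div_le_div_iff_of_pos_right (hnu b),
      div_le_div_iff_of_pos_right (hnu b), one_mul]
    exact this
  · have e1 := gf_lip (θ.map e) (Function.extend e t 0) (Function.extend e d 0) (m g) (m b)
    have e2 : gf (θ.map e) (Function.extend e (t + d) 0) (m g) (m b) =
        gf (θ.map e) (fun j => Function.extend e t 0 j + Function.extend e d 0 j) (m g) (m b) :=
      gf_congr (hmap fun j hj => by rw [hext, hext, hext]; rfl) _ _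
    have e3 : ∑ l ∈ θ.map e, |Function.extend e d 0 l| = ∑ j ∈ θ, |d j| := by
      rw [Finset.sum_map]
      exact Finset.sum_congr rfl fun j _ => by rw [hext]
    rw [mul_div_assoc', div_le_div_iff_of_pos_right (hnu b), e2, one_mul, ← e3]
    exact e1
  · -- left equivariance
    refine ⟨2 * cn (m s), fun ρ hρ => ⟨2 * cn (m s), fun T => ⟨T, fun g hg => ?_⟩⟩⟩
    have hs0 := cn_nonneg (h.det s) hn
    obtain ⟨c1, hc1, e1⟩ := h.mul s g
    obtain ⟨S, hS⟩ : ∃ S, S = c1 • m s := ⟨_, rfl⟩
    have hSd : S.det ≠ 0 := by rw [hS]; exact smul_det_ne hc1 (h.det s)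
    have hcS : cn S = cn (m s) := by rw [hS, cn_smul hc1 (h.det s)]
    have e2 : m (s * g) = S * m g := by rw [e1, hS, Matrix.smul_mul]
    have hnuS : 0 < nu S := nu_pos hSd
    refine ⟨la (m g) 0 - la (m (s * g)) 0 + Real.log (nu S),
      fun j => gap (e j) (m (s * g)) - gap (e j) (m g), ?_, fun j => ?_, fun t ht b => ?_⟩
    · have a1 := la_left_le hSd (h.det g) hn
      have a2 := la_left_ge hSd (h.det g) hn
      have a3 := log_nu_le hn hSd
      have a4 := log_nu_ge hn hSd
      rw [e2, ← hcS, cn_eq hSd hn, abs_le]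
      have a5 : 0 ≤ Real.log (nr S) + Real.log (nr S⁻¹) := by
        rw [← cn_eq hSd hn, hcS]; exact hs0
      constructor <;> linarith
    · exact (h.gap_left hn s g (e j)).trans (by linarith)
    · obtain ⟨c2, hc2, e3⟩ := h.mul s b
      have e4 : m (s * b) = (c2 * c1⁻¹) • (S * m b) := by
        rw [e3, hS, Matrix.smul_mul, smul_smul, mul_assoc, inv_mul_cancel₀ hc1, mul_one]
      have e5 : gf (θ.map e) (Function.extend e (t + fun j => gap (e j) (m (s * g)) -
          gap (e j) (m g)) 0) (m (s * g)) (m (s * b)) =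
          ‖c2 * c1⁻¹‖ * (Real.exp (la (m (s * g)) 0 - la (m g) 0) *
          gf (θ.map e) (Function.extend e t 0) (m g) (m b)) := by
        rw [e4, gf_smul]
        congr 1
        have := gf_left (θ := θ.map e) (t := Function.extend e t 0) hn hSd (h.det g)
          (hmap fun j hj _ => by rw [hext, hcS]; exact (ht j hj).1)
          (hmap fun j hj _ => by rw [hext]; exact (ht j hj).2.trans (hg j hj)) (m b)
        rw [← e2] at this
        rw [← this]
        exact gf_congr (hmap fun j hj => by rw [hext, hext]; rfl) _ _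
      have e6 : nu (m (s * b)) = ‖c2 * c1⁻¹‖ * (nu S * nu (m b)) := by
        rw [e4, nu_smul hn, nu_mul]
      have hcc : ‖c2 * c1⁻¹‖ ≠ 0 :=
        norm_ne_zero_iff.2 (mul_ne_zero hc2 (inv_ne_zero hc1))
      have e7 : Real.exp (la (m g) 0 - la (m (s * g)) 0 + Real.log (nu S)) *
          (gf (θ.map e) (Function.extend e (t + fun j => gap (e j) (m (s * g)) -
          gap (e j) (m g)) 0) (m (s * g)) (m (s * b)) / nu (m (s * b))) =
          gf (θ.map e) (Function.extend e t 0) (m g) (m b) / nu (m b) := by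
        rw [e5, e6, Real.exp_add, Real.exp_log hnuS]
        have e8 : Real.exp (la (m g) 0 - la (m (s * g)) 0) *
            Real.exp (la (m (s * g)) 0 - la (m g) 0) = 1 := by
          rw [← Real.exp_add, ← Real.exp_zero]; congr 1; ring
        have h9 := (hnu b).ne'
        have h10 := hnuS.ne'
        generalize ‖c2 * c1⁻¹‖ = N at hcc ⊢
        calc _ = (Real.exp (la (m g) 0 - la (m (s * g)) 0) *
            Real.exp (la (m (s * g)) 0 - la (m g) 0)) *
            (gf (θ.map e) (Function.extend e t 0) (m g) (m b) / nu (m b)) := by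
              field_simp
          _ = _ := by rw [e8, one_mul]
      rw [e7, sub_self, abs_zero]
      exact mul_nonneg hρ.le (div_nonneg (gf_nonneg _ _ _ _) (hnu b).le)
  · -- right invariance
    refine ⟨T + 2 * cn (m u), fun g hg t ht b => ?_⟩
    obtain ⟨c1, hc1, e1⟩ := h.mul g u
    have e2 : m (g * u) = m g * (c1 • m u) := by rw [e1, Matrix.mul_smul]
    have hSd : (c1 • m u).det ≠ 0 := smul_det_ne hc1 (h.det u)
    have e3 := g0_right (θ := θ.map e) (t := Function.extend e t 0) hn (h.det g) hSd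
      (hmap fun j hj _ => by rw [hext]; exact (ht j hj).1)
      (hmap fun j hj _ => by
        rw [hext, cn_smul hc1 (h.det u)]
        linarith [(ht j hj).2, hg j hj]) (m b)
    rw [e2, e3, sub_self, abs_zero]
    exact mul_nonneg hη.le (div_nonneg (g0_nonneg _ _ _ _) (hnu b).le)
  · refine ⟨Real.exp (n * |max R R0|), Real.one_le_exp (by positivity), fun g hg t b => ?_⟩
    have := gf_g0 (θ := θ.map e) (t := Function.extend e t 0) (h.det g) (hout θ R g hg) (m b)
    rw [mul_div_assoc', mul_div_assoc', div_le_div_iff_of_pos_right (hnu b),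
      div_le_div_iff_of_pos_right (hnu b)]
    refine ⟨this.2, this.1.trans ?_⟩
    exact le_mul_of_one_le_left (gf_nonneg _ _ _ _) (Real.one_le_exp (by positivity))

end

end Vale.Agent.P092.H933
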