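import Vale.Agent.P092.H515.Places
import Vale.Agent.P092.H933.PInst
import Vale.Agent.P092.H933.Cplx

/-!
P092 (helper933), [LOC]: the gauges of a homomorphism to `SL_n` of a local field.
-/

set_option linter.all false

namespace Vale.Agent.P092.H933

open Matrix
open Vale.Agent.P092.H515 (GSys EmbW place_gsys geo_pi gaps_pi gsys_all)

/-- The norm of `k` is the one of `ℝ`, of `ℂ`, or is non-archimedean. -/
inductive LocK (k : Type) [NontriviallyNormedField k] : Prop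
  | real (φ : k ≃+* ℝ) (h : ∀ x, ‖φ x‖ = ‖x‖) : LocK k
  | cplx (φ : k ≃+* ℂ) (h : ∀ x, ‖φ x‖ = ‖x‖) : LocK k
  | ultra (h : IsUltrametricDist k) : LocK k

theorem entry_sq_le_hs {n : ℕ} (A : Matrix (Fin n) (Fin n) ℝ) (i j : Fin n) :
    A i j ^ 2 ≤ H944.hs A := by
  unfold H944.hs
  exact (Finset.single_le_sum (f := fun j => A i j ^ 2) (fun _ _ => sq_nonneg _)
    (Finset.mem_univ j)).trans (Finset.single_le_sum (f := fun i => ∑ j, A i j ^ 2)
    (fun _ _ => Finset.sum_nonneg fun _ _ => sq_nonneg _) (Finset.mem_univ i))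

theorem abs_entry_le {n : ℕ} {A : Matrix (Fin n) (Fin n) ℝ} {R : ℝ} (h : H944.hs A ≤ R)
    (i j : Fin n) : |A i j| ≤ |R| + 1 := by
  have h1 := (entry_sq_le_hs A i j).trans h
  have h4 := le_abs_self R
  have h5 : |A i j| ^ 2 ≤ |R| := by rw [sq_abs]; linarith
  by_contra hc
  push Not at hc
  nlinarith [abs_nonneg R, abs_nonneg (A i j)]

section

variable {Γ : Type} [Group Γ] {k : Type} [NontriviallyNormedField k]

/-- The embedding of the odd indices. -/
def oddEmb (n : ℕ) : Fin (n - 1) ↪ ℕ :=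
  ⟨fun j => 2 * (j : ℕ) + 1, fun a b h => Fin.ext (by dsimp only at h; omega)⟩

theorem embW_rea {n : ℕ} (ρ : Γ →* SpecialLinearGroup (Fin n) ℂ) :
    EmbW fun g => rea (ρ g : Matrix (Fin n) (Fin n) ℂ) where
  mul g h := Or.inl (by
    rw [map_mul]
    exact (congrArg rea (Matrix.SpecialLinearGroup.coe_mul (ρ g) (ρ h))).trans (rea_mul _ _))
  det g := by
    have h := det_rea (ρ g : Matrix (Fin n) (Fin n) ℂ)
    rw [(ρ g).det_coe, map_one, mul_one] at h
    have h1 : (rea (ρ g : Matrix (Fin n) (Fin n) ℂ)).det = 1 := by exact_mod_cast h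
    rw [h1, one_pow]

theorem gsys_cplx {n : ℕ} (hn : 0 < n) (ρ : Γ →* SpecialLinearGroup (Fin n) ℂ) :
    GSys (fun (j : Fin (n - 1)) g => H944.gap (oddEmb n j) (rea (ρ g : Matrix (Fin n) (Fin n) ℂ)))
      (fun b => H944.hs (rea (ρ b : Matrix (Fin n) (Fin n) ℂ))) := by
  refine (embW_rea ρ).gsys (by omega) (oddEmb n) (R0 := 0) fun l hl hj g => ?_
  have hev : Even l := by
    by_contra hc
    rw [Nat.not_even_iff_odd] at hc
    obtain ⟨j, rfl⟩ := hc
    exact hj ⟨j, by omega⟩ rfl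
  exact (gap_even ((embW_rea ρ).ne g) (Jc_sq n) (Jc_tr n) (Jc_comm _) hev).le

theorem re_im_rea {n : ℕ} (A : Matrix (Fin n) (Fin n) ℂ) (i j : Fin n) :
    rea A (finSumFinEquiv (Sum.inl i)) (finSumFinEquiv (Sum.inl j)) = (A i j).re ∧
    rea A (finSumFinEquiv (Sum.inr i)) (finSumFinEquiv (Sum.inl j)) = (A i j).im := by
  unfold rea
  simp only [submatrix_apply, Equiv.symm_apply_apply]
  exact ⟨rfl, rfl⟩

/-- **The gauges of a homomorphism to `SL_n` of a local field.** -/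
theorem gsys_loc [ProperSpace k] (hk : LocK k) {n : ℕ} (hn : 0 < n)
    (ρ : Γ →* SpecialLinearGroup (Fin n) k) :
    ∃ (gap : Fin (n - 1) → Γ → ℝ) (w : Γ → ℝ), GSys gap w ∧
      ∀ R : ℝ, ∃ R' : ℝ, ∀ g, w g ≤ R → ∀ i j, ‖(ρ g : Matrix (Fin n) (Fin n) k) i j‖ ≤ R' := by
  rcases hk with ⟨φ, h⟩ | ⟨φ, h⟩ | h
  · -- real
    have hE : EmbW fun g => ((ρ g : Matrix (Fin n) (Fin n) k)).map φ := by
      refine ⟨fun a b => Or.inl ?_, fun g => ?_⟩
      · rw [map_mul]
        exact (congrArg (fun M : Matrix (Fin n) (Fin n) k => M.map φ)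
          (Matrix.SpecialLinearGroup.coe_mul (ρ a) (ρ b))).trans Matrix.map_mul
      · have := RingHom.map_det (φ : k →+* ℝ) (ρ g : Matrix (Fin n) (Fin n) k)
        rw [(ρ g).det_coe, map_one] at this
        have e : ((ρ g : Matrix (Fin n) (Fin n) k).map φ).det = 1 := this.symm
        rw [e, one_pow]
    refine ⟨_, _, gsys_all hn hE, fun R => ⟨|R| + 1, fun g hg i j => ?_⟩⟩
    rw [← h]
    exact abs_entry_le hg i j
  · -- complex
    obtain ⟨ρ', hρ'⟩ : ∃ ρ' : Γ →* SpecialLinearGroup (Fin n) ℂ,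
        ρ' = (SpecialLinearGroup.map (φ : k →+* ℂ)).comp ρ := ⟨_, rfl⟩
    refine ⟨_, _, gsys_cplx hn ρ', fun R => ⟨(|R| + 1) + (|R| + 1), fun g hg i j => ?_⟩⟩
    have e : φ ((ρ g : Matrix (Fin n) (Fin n) k) i j) = (ρ' g : Matrix (Fin n) (Fin n) ℂ) i j := by
      rw [hρ']
      rfl
    rw [← h, e]
    have h1 := abs_entry_le hg (finSumFinEquiv (Sum.inl i)) (finSumFinEquiv (Sum.inl j))
    have h2 := abs_entry_le hg (finSumFinEquiv (Sum.inr i)) (finSumFinEquiv (Sum.inl j))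
    rw [(re_im_rea _ i j).1] at h1
    rw [(re_im_rea _ i j).2] at h2
    exact (Complex.norm_le_abs_re_add_abs_im _).trans (add_le_add h1 h2)
  · -- non-archimedean
    have hE : PEmb fun g => (ρ g : Matrix (Fin n) (Fin n) k) := by
      refine ⟨fun a b => ⟨1, one_ne_zero, ?_⟩, fun g => ?_⟩
      · rw [map_mul, one_smul]
        exact Matrix.SpecialLinearGroup.coe_mul (ρ a) (ρ b)
      · rw [(ρ g).det_coe]; exact one_ne_zero
    have hP := place hn hE (H515.finEmb n) (R0 := 0) fun l hl hj =>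
      absurd rfl (hj ⟨l, by omega⟩)
    refine ⟨_, _, place_gsys hP, fun R => ⟨R, fun g hg i j => ?_⟩⟩
    refine (entry_le_nr _ i j).trans ?_
    have e : sz (ρ g : Matrix (Fin n) (Fin n) k) = nr (ρ g : Matrix (Fin n) (Fin n) k) := by
      unfold sz nu
      rw [(ρ g).det_coe, norm_one, Real.one_rpow, div_one]
    rw [← e]
    exact hg

end

end Vale.Agent.P092.H933
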