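import Mathlib

/-!
P092 (helper933), [LOC]: matrices over a non-archimedean normed field: the Cartan decomposition
`A = κ a κ'` with `κ, κ'` integral with integral inverse, and the comparison of the diagonal parts
of `A`, `S * A` and `A * T`.
-/

set_option linter.all false

namespace Vale.Agent.P092.H933

open Matrix

section ultra

variable {k : Type*} [NormedField k] [IsUltrametricDist k] {n : ℕ}

/-- Entrywise bound of a product. -/
theorem mul_entry_le {m₁ m₂ m₃ : Type*} [Fintype m₂] {A : Matrix m₁ m₂ k} {B : Matrix m₂ m₃ k}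
    {c : ℝ} (hc : 0 ≤ c) {i : m₁} {j : m₃} (h : ∀ l, ‖A i l‖ * ‖B l j‖ ≤ c) :
    ‖(A * B) i j‖ ≤ c := by
  rw [Matrix.mul_apply]
  exact IsUltrametricDist.norm_sum_le_of_forall_le_of_nonneg hc fun l _ => by
    rw [norm_mul]; exact h l

theorem mul_entry_le' {m₁ m₂ m₃ : Type*} [Fintype m₂] {A : Matrix m₁ m₂ k} {B : Matrix m₂ m₃ k}
    {a b : ℝ} (ha : 0 ≤ a) (hb : 0 ≤ b) (hA : ∀ i j, ‖A i j‖ ≤ a) (hB : ∀ i j, ‖B i j‖ ≤ b)
    (i : m₁) (j : m₃) : ‖(A * B) i j‖ ≤ a * b :=
  mul_entry_le (mul_nonneg ha hb) fun l => mul_le_mul (hA i l) (hB l j) (norm_nonneg _) ha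

/-- Integral with integral inverse. -/
structure InK (κ κi : Matrix (Fin n) (Fin n) k) : Prop where
  le : ∀ i j, ‖κ i j‖ ≤ 1
  lei : ∀ i j, ‖κi i j‖ ≤ 1
  mul : κ * κi = 1
  mul' : κi * κ = 1

theorem InK.one : InK (1 : Matrix (Fin n) (Fin n) k) 1 where
  le i j := by
    by_cases h : i = j
    · subst h; simp
    · simp [Matrix.one_apply_ne h]
  lei i j := by
    by_cases h : i = j
    · subst h; simp
    · simp [Matrix.one_apply_ne h]
  mul := mul_one 1
  mul' := mul_one 1

theorem InK.symm {κ κi : Matrix (Fin n) (Fin n) k} (h : InK κ κi) : InK κi κ :=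
  ⟨h.lei, h.le, h.mul', h.mul⟩

theorem InK.mulK {κ κi κ' κi' : Matrix (Fin n) (Fin n) k} (h : InK κ κi) (h' : InK κ' κi') :
    InK (κ * κ') (κi' * κi) where
  le i j := by simpa using mul_entry_le' zero_le_one zero_le_one h.le h'.le i j
  lei i j := by simpa using mul_entry_le' zero_le_one zero_le_one h'.lei h.lei i j
  mul := by
    rw [Matrix.mul_assoc, ← Matrix.mul_assoc κ' κi' κi, h'.mul, Matrix.one_mul, h.mul]
  mul' := by
    rw [Matrix.mul_assoc, ← Matrix.mul_assoc κi κ κ', h.mul', Matrix.one_mul, h'.mul']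

theorem norm_det_le_one {κ : Matrix (Fin n) (Fin n) k} (h : ∀ i j, ‖κ i j‖ ≤ 1) :
    ‖κ.det‖ ≤ 1 := by
  rw [Matrix.det_apply]
  refine IsUltrametricDist.norm_sum_le_of_forall_le_of_nonneg zero_le_one fun σ _ => ?_
  rw [Units.smul_def, zsmul_eq_mul, norm_mul, norm_prod]
  have h1 : ‖((Equiv.Perm.sign σ : ℤ) : k)‖ = 1 := by
    rcases Int.units_eq_one_or (Equiv.Perm.sign σ) with h | h <;> rw [h] <;> simp
  rw [h1, one_mul]
  exact Finset.prod_le_one (fun i _ => norm_nonneg _) fun i _ => h _ _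

theorem InK.norm_det {κ κi : Matrix (Fin n) (Fin n) k} (h : InK κ κi) : ‖κ.det‖ = 1 := by
  have e : ‖κ.det‖ * ‖κi.det‖ = 1 := by
    rw [← norm_mul, ← Matrix.det_mul, h.mul, Matrix.det_one, norm_one]
  have h1 := norm_det_le_one h.le
  have h2 := norm_det_le_one h.lei
  refine le_antisymm h1 ?_
  by_contra hc
  push Not at hc
  have : ‖κ.det‖ * ‖κi.det‖ < 1 := by
    calc ‖κ.det‖ * ‖κi.det‖ ≤ ‖κ.det‖ * 1 := mul_le_mul_of_nonneg_left h2 (norm_nonneg _)
      _ < 1 := by rwa [mul_one]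
  linarith

/-- A permutation through the entries of norm one. -/
theorem InK.exists_perm {κ κi : Matrix (Fin n) (Fin n) k} (h : InK κ κi) :
    ∃ σ : Equiv.Perm (Fin n), ∀ i, ‖κ (σ i) i‖ = 1 := by
  obtain ⟨σ, -, hσ⟩ := IsUltrametricDist.exists_norm_finsetSum_le
    (Finset.univ : Finset (Equiv.Perm (Fin n)))
    (fun σ => Equiv.Perm.sign σ • ∏ i, κ (σ i) i)
  rw [← Matrix.det_apply, h.norm_det] at hσ
  refine ⟨σ, fun i => le_antisymm (h.le _ _) ?_⟩
  rw [Units.smul_def, zsmul_eq_mul, norm_mul, norm_prod] at hσ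
  have h1 : ‖((Equiv.Perm.sign σ : ℤ) : k)‖ = 1 := by
    rcases Int.units_eq_one_or (Equiv.Perm.sign σ) with h | h <;> rw [h] <;> simp
  rw [h1, one_mul] at hσ
  refine hσ.trans ?_
  rw [← Finset.mul_prod_erase Finset.univ (fun i => ‖κ (σ i) i‖) (Finset.mem_univ i)]
  calc ‖κ (σ i) i‖ * ∏ j ∈ Finset.univ.erase i, ‖κ (σ j) j‖ ≤ ‖κ (σ i) i‖ * 1 := by
        refine mul_le_mul_of_nonneg_left ?_ (norm_nonneg _)
        exact Finset.prod_le_one (fun i _ => norm_nonneg _) fun i _ => h.le _ _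
    _ = _ := mul_one _

/-- Sorting. -/
theorem sort_le {x y : Fin n → ℝ} (hx : Antitone x) (hy : Antitone y) {C : ℝ} (hC : 0 ≤ C)
    (σ : Equiv.Perm (Fin n)) (h : ∀ i, x (σ i) ≤ C * y i) (i : Fin n) : x i ≤ C * y i := by
  obtain ⟨l, hl, hl'⟩ : ∃ l, i ≤ l ∧ σ l ≤ i := by
    by_contra hc
    push Not at hc
    have h1 : (Finset.Ici i).card ≤ (Finset.Ioi i).card := by
      refine Finset.card_le_card_of_injOn σ (fun l hl => ?_) σ.injective.injOn
      exact Finset.mem_coe.2 (Finset.mem_Ioi.2 (hc l (Finset.mem_Ici.1 (Finset.mem_coe.1 hl))))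
    rw [Fin.card_Ici, Fin.card_Ioi] at h1
    have := i.2
    omega
  calc x i ≤ x (σ l) := hx hl'
    _ ≤ C * y l := h l
    _ ≤ C * y i := mul_le_mul_of_nonneg_left (hy hl) hC

/-- The Cartan decomposition of a matrix. -/
structure Car (A : Matrix (Fin n) (Fin n) k) where
  u : Matrix (Fin n) (Fin n) k
  ui : Matrix (Fin n) (Fin n) k
  v : Matrix (Fin n) (Fin n) k
  vi : Matrix (Fin n) (Fin n) k
  a : Fin n → k
  hu : InK u ui
  hv : InK v vi
  anti : Antitone fun i => ‖a i‖
  eq : A = u * diagonal a * v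

/-- Permuting rows and columns. -/
theorem InK.perm_left {κ κi : Matrix (Fin n) (Fin n) k} (h : InK κ κi) (σ : Equiv.Perm (Fin n)) :
    InK (κ.submatrix σ id) (κi.submatrix id σ) where
  le i j := h.le _ _
  lei i j := h.lei _ _
  mul := by
    rw [show (id : Fin n → Fin n) = (Equiv.refl (Fin n) : Fin n → Fin n) from rfl,
      Matrix.submatrix_mul_equiv, h.mul, Matrix.submatrix_one_equiv]
  mul' := by
    rw [Matrix.submatrix_mul_equiv, h.mul']
    exact Matrix.submatrix_one_equiv (Equiv.refl _)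

theorem submatrix_diag (κ κ' : Matrix (Fin n) (Fin n) k) (a : Fin n → k)
    (σ τ : Equiv.Perm (Fin n)) :
    (κ * diagonal a * κ').submatrix σ τ =
      κ.submatrix σ id * diagonal a * κ'.submatrix id τ := by
  ext i j
  simp only [Matrix.submatrix_apply, Matrix.mul_apply, id]

theorem car_aux (n : ℕ) : ∀ A : Matrix (Fin n) (Fin n) k, Nonempty (Car A) := by
  induction n with
  | zero =>
    intro A
    exact ⟨⟨1, 1, 1, 1, fun _ => 0, InK.one, InK.one, fun i => i.elim0,
      Subsingleton.elim _ _⟩⟩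
  | succ n ih =>
    intro A
    -- the largest entry
    obtain ⟨p, -, hp⟩ := Finset.exists_max_image
      (Finset.univ : Finset (Fin (n + 1) × Fin (n + 1))) (fun p => ‖A p.1 p.2‖)
      Finset.univ_nonempty
    -- reduce to the case where it sits at `(0, 0)`
    suffices H : ∀ A' : Matrix (Fin (n + 1)) (Fin (n + 1)) k,
        (∀ i j, ‖A' i j‖ ≤ ‖A' 0 0‖) → Nonempty (Car A') by
      obtain ⟨c⟩ := H (A.submatrix (Equiv.swap 0 p.1) (Equiv.swap 0 p.2)) (fun i j => by
        simp only [Matrix.submatrix_apply, Equiv.swap_apply_left]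
        exact hp (_, _) (Finset.mem_univ _))
      have e : A = (A.submatrix (Equiv.swap 0 p.1) (Equiv.swap 0 p.2)).submatrix
          (Equiv.swap 0 p.1) (Equiv.swap 0 p.2) := by
        ext i j
        simp
      have hv := (InK.perm_left c.hv.symm (Equiv.swap 0 p.2)).symm
      refine ⟨⟨c.u.submatrix (Equiv.swap 0 p.1) id, c.ui.submatrix id (Equiv.swap 0 p.1),
        c.v.submatrix id (Equiv.swap 0 p.2), c.vi.submatrix (Equiv.swap 0 p.2) id, c.a,
        InK.perm_left c.hu _, ?_, c.anti, ?_⟩⟩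
      · exact hv
      · exact e.trans ((congrArg (fun M => M.submatrix (Equiv.swap 0 p.1) (Equiv.swap 0 p.2))
          c.eq).trans (submatrix_diag _ _ _ _ _))
    intro A' hA
    by_cases h0 : A' 0 0 = 0
    · -- zero matrix
      have hz : A' = 0 := by
        ext i j
        have := hA i j
        rw [h0, norm_zero] at this
        simpa using this
      refine ⟨⟨1, 1, 1, 1, fun _ => 0, InK.one, InK.one, fun i j _ => le_rfl, ?_⟩⟩
      rw [hz]
      ext i j
      simp
    obtain ⟨c, hc⟩ : ∃ c, c = A' 0 0 := ⟨_, rfl⟩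
    have hc0 : c ≠ 0 := by rwa [hc]
    have hcn : 0 < ‖c‖ := norm_pos_iff.2 hc0
    have hA1 : ∀ i j, ‖A' i j‖ ≤ ‖c‖ := by rw [hc]; exact hA
    have hq : ∀ i j, ‖A' i j / c‖ ≤ 1 := fun i j => by
      rw [norm_div]; exact (div_le_one hcn).2 (hA1 i j)
    obtain ⟨B, hB⟩ : ∃ B : Matrix (Fin n) (Fin n) k,
      B = Matrix.of fun i j => A' i.succ j.succ - (A' i.succ 0 / c) * A' 0 j.succ := ⟨_, rfl⟩
    have hBle : ∀ i j, ‖B i j‖ ≤ ‖c‖ := by
      intro i j
      rw [hB, Matrix.of_apply]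
      rw [sub_eq_add_neg]
      refine (IsUltrametricDist.norm_add_le_max _ _).trans (max_le (hA1 _ _) ?_)
      rw [norm_neg, norm_mul]
      calc ‖A' i.succ 0 / c‖ * ‖A' 0 j.succ‖ ≤ 1 * ‖c‖ :=
            mul_le_mul (hq _ _) (hA1 _ _) (norm_nonneg _) zero_le_one
        _ = ‖c‖ := one_mul _
    obtain ⟨d⟩ := ih B
    -- the entries of the diagonal part
    have hdiag : diagonal d.a = d.ui * B * d.vi := by
      calc diagonal d.a = (d.ui * d.u) * diagonal d.a * (d.v * d.vi) := by
            rw [d.hu.mul', d.hv.mul, Matrix.one_mul, Matrix.mul_one]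
        _ = d.ui * (d.u * diagonal d.a * d.v) * d.vi := by
            simp only [Matrix.mul_assoc]
        _ = _ := by rw [← d.eq]
    have hda : ∀ i, ‖d.a i‖ ≤ ‖c‖ := by
      intro i
      have h1 : ∀ i j, ‖(d.ui * B) i j‖ ≤ 1 * ‖c‖ :=
        mul_entry_le' zero_le_one (norm_nonneg _) d.hu.lei hBle
      have h2 := mul_entry_le' (by positivity) zero_le_one h1 d.hv.lei i i
      rw [← hdiag, Matrix.diagonal_apply_eq, one_mul, mul_one] at h2
      exact h2
    -- blocks
    have hu1 : ∀ i, ‖∑ l, d.ui i l * (A' l.succ 0 / c)‖ ≤ 1 := fun i =>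
      IsUltrametricDist.norm_sum_le_of_forall_le_of_nonneg zero_le_one fun l _ => by
        rw [norm_mul]
        exact mul_le_one₀ (d.hu.lei _ _) (norm_nonneg _) (hq _ _)
    have hv1 : ∀ j, ‖∑ l, (A' 0 l.succ / c) * d.vi l j‖ ≤ 1 := fun j =>
      IsUltrametricDist.norm_sum_le_of_forall_le_of_nonneg zero_le_one fun l _ => by
        rw [norm_mul]
        exact mul_le_one₀ (hq _ _) (norm_nonneg _) (d.hv.lei _ _)
    have eu : ∀ i j, ∑ l, d.u i l * d.ui l j = if i = j then 1 else 0 := fun i j => by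
      rw [← Matrix.mul_apply, d.hu.mul, Matrix.one_apply]
    have eu' : ∀ i j, ∑ l, d.ui i l * d.u l j = if i = j then 1 else 0 := fun i j => by
      rw [← Matrix.mul_apply, d.hu.mul', Matrix.one_apply]
    have ev : ∀ i j, ∑ l, d.v i l * d.vi l j = if i = j then 1 else 0 := fun i j => by
      rw [← Matrix.mul_apply, d.hv.mul, Matrix.one_apply]
    have ev' : ∀ i j, ∑ l, d.vi i l * d.v l j = if i = j then 1 else 0 := fun i j => by
      rw [← Matrix.mul_apply, d.hv.mul', Matrix.one_apply]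
    have e1 : ∀ i, ∑ x, d.u i x * ∑ l, d.ui x l * (A' l.succ 0 / c) = A' i.succ 0 / c := by
      intro i
      calc ∑ x, d.u i x * ∑ l, d.ui x l * (A' l.succ 0 / c)
          = ∑ x, ∑ l, (d.u i x * d.ui x l) * (A' l.succ 0 / c) := by
            refine Finset.sum_congr rfl fun x _ => ?_
            rw [Finset.mul_sum]
            exact Finset.sum_congr rfl fun l _ => by ring
        _ = ∑ l, (∑ x, d.u i x * d.ui x l) * (A' l.succ 0 / c) := by
            rw [Finset.sum_comm]
            exact Finset.sum_congr rfl fun l _ => by rw [Finset.sum_mul]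
        _ = _ := by simp [eu]
    have e2 : ∀ j, ∑ x, (∑ l, (A' 0 l.succ / c) * d.vi l x) * d.v x j = A' 0 j.succ / c := by
      intro j
      calc ∑ x, (∑ l, (A' 0 l.succ / c) * d.vi l x) * d.v x j
          = ∑ x, ∑ l, (A' 0 l.succ / c) * (d.vi l x * d.v x j) := by
            refine Finset.sum_congr rfl fun x _ => ?_
            rw [Finset.sum_mul]
            exact Finset.sum_congr rfl fun l _ => by ring
        _ = ∑ l, (A' 0 l.succ / c) * (∑ x, d.vi l x * d.v x j) := by
            rw [Finset.sum_comm]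
            exact Finset.sum_congr rfl fun l _ => by rw [Finset.mul_sum]
        _ = _ := by simp [ev']
    obtain ⟨U, hU⟩ : ∃ U : Matrix (Fin (n + 1)) (Fin (n + 1)) k, U = Matrix.of
      (Fin.cons (Fin.cons 1 fun _ => 0) fun i => Fin.cons (A' i.succ 0 / c) (d.u i)) := ⟨_, rfl⟩
    obtain ⟨Ui, hUi⟩ : ∃ U : Matrix (Fin (n + 1)) (Fin (n + 1)) k, U = Matrix.of
      (Fin.cons (Fin.cons 1 fun _ => 0) fun i =>
        Fin.cons (-∑ l, d.ui i l * (A' l.succ 0 / c)) (d.ui i)) := ⟨_, rfl⟩
    obtain ⟨V, hV⟩ : ∃ U : Matrix (Fin (n + 1)) (Fin (n + 1)) k, U = Matrix.of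
      (Fin.cons (Fin.cons 1 fun j => A' 0 j.succ / c) fun i => Fin.cons 0 (d.v i)) := ⟨_, rfl⟩
    obtain ⟨Vi, hVi⟩ : ∃ U : Matrix (Fin (n + 1)) (Fin (n + 1)) k, U = Matrix.of
      (Fin.cons (Fin.cons 1 fun j => -∑ l, (A' 0 l.succ / c) * d.vi l j) fun i =>
        Fin.cons 0 (d.vi i)) := ⟨_, rfl⟩
    have U00 : U 0 0 = 1 := by rw [hU]; rfl
    have U0s : ∀ j : Fin n, U 0 j.succ = 0 := fun j => by rw [hU]; rfl
    have Us0 : ∀ i : Fin n, U i.succ 0 = A' i.succ 0 / c := fun i => by rw [hU]; rfl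
    have Uss : ∀ i j : Fin n, U i.succ j.succ = d.u i j := fun i j => by rw [hU]; rfl
    have Ui00 : Ui 0 0 = 1 := by rw [hUi]; rfl
    have Ui0s : ∀ j : Fin n, Ui 0 j.succ = 0 := fun j => by rw [hUi]; rfl
    have Uis0 : ∀ i : Fin n, Ui i.succ 0 = -∑ l, d.ui i l * (A' l.succ 0 / c) := fun i => by
      rw [hUi]; rfl
    have Uiss : ∀ i j : Fin n, Ui i.succ j.succ = d.ui i j := fun i j => by rw [hUi]; rfl
    have V00 : V 0 0 = 1 := by rw [hV]; rfl
    have V0s : ∀ j : Fin n, V 0 j.succ = A' 0 j.succ / c := fun j => by rw [hV]; rfl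
    have Vs0 : ∀ i : Fin n, V i.succ 0 = 0 := fun i => by rw [hV]; rfl
    have Vss : ∀ i j : Fin n, V i.succ j.succ = d.v i j := fun i j => by rw [hV]; rfl
    have Vi00 : Vi 0 0 = 1 := by rw [hVi]; rfl
    have Vi0s : ∀ j : Fin n, Vi 0 j.succ = -∑ l, (A' 0 l.succ / c) * d.vi l j := fun j => by
      rw [hVi]; rfl
    have Vis0 : ∀ i : Fin n, Vi i.succ 0 = 0 := fun i => by rw [hVi]; rfl
    have Viss : ∀ i j : Fin n, Vi i.succ j.succ = d.vi i j := fun i j => by rw [hVi]; rfl
    have hUK : InK U Ui := by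
      refine ⟨fun i j => ?_, fun i j => ?_, ?_, ?_⟩
      · refine Fin.cases ?_ (fun i => ?_) i <;> refine Fin.cases ?_ (fun j => ?_) j
        · rw [U00]; simp
        · rw [U0s]; simp
        · rw [Us0]; exact hq _ _
        · rw [Uss]; exact d.hu.le _ _
      · refine Fin.cases ?_ (fun i => ?_) i <;> refine Fin.cases ?_ (fun j => ?_) j
        · rw [Ui00]; simp
        · rw [Ui0s]; simp
        · rw [Uis0, norm_neg]; exact hu1 _
        · rw [Uiss]; exact d.hu.lei _ _
      · ext i j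
        rw [Matrix.mul_apply, Fin.sum_univ_succ]
        refine Fin.cases ?_ (fun i => ?_) i <;> refine Fin.cases ?_ (fun j => ?_) j
        · simp [U00, Ui00, U0s]
        · simp [U00, Ui0s, U0s, Matrix.one_apply, (Fin.succ_ne_zero j).symm]
        · simp only [Us0, Ui00, Uss, Uis0, mul_one, mul_neg, Finset.sum_neg_distrib, e1]
          simp [Matrix.one_apply, Fin.succ_ne_zero]
        · simp only [Us0, Ui0s, Uss, Uiss, mul_zero, zero_add, eu]
          simp [Matrix.one_apply]
      · ext i j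
        rw [Matrix.mul_apply, Fin.sum_univ_succ]
        refine Fin.cases ?_ (fun i => ?_) i <;> refine Fin.cases ?_ (fun j => ?_) j
        · simp [U00, Ui00, Ui0s]
        · simp [Ui00, Ui0s, U0s, Matrix.one_apply, (Fin.succ_ne_zero j).symm]
        · simp only [Uis0, U00, Uiss, Us0, mul_one]
          simp [Matrix.one_apply, Fin.succ_ne_zero]
        · simp only [Uis0, U0s, Uss, Uiss, mul_zero, zero_add, eu']
          simp [Matrix.one_apply]
    have hVK : InK V Vi := by
      refine ⟨fun i j => ?_, fun i j => ?_, ?_, ?_⟩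
      · refine Fin.cases ?_ (fun i => ?_) i <;> refine Fin.cases ?_ (fun j => ?_) j
        · rw [V00]; simp
        · rw [V0s]; exact hq _ _
        · rw [Vs0]; simp
        · rw [Vss]; exact d.hv.le _ _
      · refine Fin.cases ?_ (fun i => ?_) i <;> refine Fin.cases ?_ (fun j => ?_) j
        · rw [Vi00]; simp
        · rw [Vi0s, norm_neg]; exact hv1 _
        · rw [Vis0]; simp
        · rw [Viss]; exact d.hv.lei _ _
      · ext i j
        rw [Matrix.mul_apply, Fin.sum_univ_succ]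
        refine Fin.cases ?_ (fun i => ?_) i <;> refine Fin.cases ?_ (fun j => ?_) j
        · simp [V00, Vi00, Vis0]
        · simp only [V00, Vi0s, V0s, Viss, one_mul]
          simp [Matrix.one_apply, (Fin.succ_ne_zero j).symm]
        · simp [Vs0, Vi00, Vss, Vis0, Matrix.one_apply, Fin.succ_ne_zero]
        · simp only [Vs0, Vi0s, Vss, Viss, zero_mul, zero_add, ev]
          simp [Matrix.one_apply]
      · ext i j
        rw [Matrix.mul_apply, Fin.sum_univ_succ]
        refine Fin.cases ?_ (fun i => ?_) i <;> refine Fin.cases ?_ (fun j => ?_) j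
        · simp [V00, Vi00, Vs0]
        · simp only [Vi00, Vi0s, V0s, Vss, one_mul, neg_mul, Finset.sum_neg_distrib, e2]
          simp [Matrix.one_apply, (Fin.succ_ne_zero j).symm]
        · simp [Vis0, V00, Viss, Vs0, Matrix.one_apply, Fin.succ_ne_zero]
        · simp only [Vis0, V0s, Vss, Viss, zero_mul, zero_add, ev']
          simp [Matrix.one_apply]
    refine ⟨⟨U, Ui, V, Vi, Fin.cons c d.a, hUK, hVK, ?_, ?_⟩⟩
    · intro i j hij
      dsimp only
      revert hij
      refine Fin.cases ?_ (fun i => ?_) i <;> refine Fin.cases ?_ (fun j => ?_) j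
      · intro _; exact le_rfl
      · intro _; simpa using hda j
      · intro h; exact absurd h (by simp)
      · intro h
        simpa using d.anti (Fin.succ_le_succ_iff.1 h)
    · have hBe : ∀ i j, ∑ x, d.u i x * d.a x * d.v x j = B i j := by
        intro i j
        refine Eq.trans ?_ (congrFun (congrFun d.eq i) j).symm
        rw [Matrix.mul_apply]
        refine Finset.sum_congr rfl fun x _ => ?_
        rw [Matrix.mul_diagonal]
      ext i j
      rw [Matrix.mul_apply, Fin.sum_univ_succ]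
      simp only [Matrix.mul_diagonal]
      refine Fin.cases ?_ (fun i => ?_) i <;> refine Fin.cases ?_ (fun j => ?_) j
      · simp [U00, V00, Vs0, hc]
      · simp [U00, U0s, V0s]
        field_simp
      · simp [Us0, V00, Vs0]
        field_simp
      · simp only [Us0, V0s, Uss, Vss, Fin.cons_zero, Fin.cons_succ, hBe]
        rw [hB, Matrix.of_apply]
        field_simp
        ring

/-- **Cartan decomposition.** -/
noncomputable def car (A : Matrix (Fin n) (Fin n) k) : Car A := Classical.choice (car_aux n A)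

end ultra

end Vale.Agent.P092.H933
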