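import Vale.Agent.P092.H899.Simple

/-!
P092 (helper933), [HM1]: Mautner phenomenon for `SL_n` over a nontrivially normed field, in the
form of length functions continuous at `1`.
-/

set_option linter.all false

namespace Vale.Agent.P092.H933

open Matrix Matrix.SpecialLinearGroup Filter Topology

variable {n : Type*} [Fintype n] [DecidableEq n] {k : Type*} [NontriviallyNormedField k]

theorem tendsto_transvection {α : Type*} {l : Filter α} {p q : n} (hpq : p ≠ q) {t : α → k}
    (ht : Tendsto t l (𝓝 0)) :
    Tendsto (fun x => (transvection hpq (t x) : SpecialLinearGroup n k)) l (𝓝 1) := by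
  have h1 : (1 : SpecialLinearGroup n k) = (transvection hpq (0 : k) : SpecialLinearGroup n k) := by
    rw [transvection_coeff_zero]
  rw [h1]
  have h2 : Continuous fun c : k => (transvection hpq c : SpecialLinearGroup n k).1 := by
    simp only [transvection_coe]
    refine continuous_const.add ?_
    refine continuous_pi fun a => continuous_pi fun b => ?_
    simp only [Matrix.single_apply]
    split_ifs
    · exact continuous_id
    · exact continuous_const
  have h3 : Continuous fun c : k => (transvection hpq c : SpecialLinearGroup n k) :=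
    continuous_induced_rng.2 h2
  exact (h3.tendsto 0).comp ht

/-- The weight of the diagonal element. -/
def wt {i j : n} (a : k) (p : n) : k := if p = i then a else if p = j then a⁻¹ else 1

theorem conj_diag2n {i j : n} (hij : i ≠ j) (a : k) (ha : a ≠ 0) {p q : n} (hpq : p ≠ q) (t : k) :
    diag2n hij a ha * transvection hpq t * (diag2n hij a ha)⁻¹ =
      transvection hpq (wt (i := i) (j := j) a p * t * (wt (i := i) (j := j) a q)⁻¹) := by
  rw [mul_inv_eq_iff_eq_mul]
  refine Subtype.ext ?_
  rw [Matrix.SpecialLinearGroup.coe_mul, Matrix.SpecialLinearGroup.coe_mul]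
  show (diag2n hij a ha).1 * (transvection hpq t : SpecialLinearGroup n k).1 =
    (transvection hpq (_ : k) : SpecialLinearGroup n k).1 * (diag2n hij a ha).1
  rw [transvection_coe, transvection_coe, diag2n_coe]
  have hq : wt (i := i) (j := j) a q ≠ 0 := by
    unfold wt; split_ifs
    · exact ha
    · exact inv_ne_zero ha
    · exact one_ne_zero
  rw [Matrix.mul_add, Matrix.add_mul, Matrix.mul_one, Matrix.one_mul]
  congr 1
  ext x y
  rw [Matrix.diagonal_mul, Matrix.mul_diagonal]
  simp only [Matrix.single_apply]
  by_cases h : p = x ∧ q = y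
  · obtain ⟨rfl, rfl⟩ := h
    simp only [and_self, if_true]
    have e1 : ∀ z : n, (if z = i then a else if z = j then a⁻¹ else 1) = wt (i := i) (j := j) a z :=
      fun z => rfl
    simp only [e1]
    rw [mul_assoc, mul_assoc, inv_mul_cancel₀ hq, mul_one]
  · simp [h]

/-- A length function which is continuous at `1`. -/
structure Len {G : Type*} [Group G] [TopologicalSpace G] (f : G → ℝ) : Prop where
  one : f 1 = 0
  inv : ∀ g, f g⁻¹ = f g
  mul : ∀ g h, f (g * h) ≤ f g + f h
  cont : Tendsto f (𝓝 1) (𝓝 0)

namespace Len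

variable {G : Type*} [Group G] [TopologicalSpace G] {f : G → ℝ}

theorem nonneg (hf : Len f) (g : G) : 0 ≤ f g := by
  have := hf.mul g g⁻¹
  rw [mul_inv_cancel, hf.one, hf.inv] at this
  linarith

def ker (hf : Len f) : Subgroup G where
  carrier := {g | f g = 0}
  mul_mem' {a b} ha hb := le_antisymm ((hf.mul a b).trans (by
    rw [show f a = 0 from ha, show f b = 0 from hb]; norm_num)) (hf.nonneg _)
  one_mem' := hf.one
  inv_mem' {a} ha := by
    show f a⁻¹ = 0
    rw [hf.inv]; exact ha

theorem mem_ker (hf : Len f) {g : G} : g ∈ hf.ker ↔ f g = 0 := Iff.rfl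

theorem conj (hf : Len f) {d : G} (hd : d ∈ hf.ker) (g : G) : f (d * g * d⁻¹) = f g := by
  have hd0 : f d = 0 := hd
  have key : ∀ (d : G), f d = 0 → ∀ g, f (d * g * d⁻¹) ≤ f g := by
    intro d hd g
    have h1 := hf.mul (d * g) d⁻¹
    have h2 := hf.mul d g
    rw [hf.inv, hd] at h1
    rw [hd] at h2
    linarith
  refine le_antisymm (key d hd0 g) ?_
  have := key d⁻¹ (by rw [hf.inv]; exact hd0) (d * g * d⁻¹)
  have e : d⁻¹ * (d * g * d⁻¹) * d⁻¹⁻¹ = g := by group
  rwa [e] at this

/-- Contraction. -/
theorem mem_of_contract (hf : Len f) {d : ℕ → G} (hd : ∀ N, d N ∈ hf.ker) {g : G}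
    (h : Tendsto (fun N => d N * g * (d N)⁻¹) atTop (𝓝 1)) : g ∈ hf.ker := by
  have h1 : Tendsto (fun N => f (d N * g * (d N)⁻¹)) atTop (𝓝 0) := hf.cont.comp h
  have h2 : (fun N => f (d N * g * (d N)⁻¹)) = fun _ => f g := funext fun N => hf.conj (hd N) g
  rw [h2] at h1
  exact tendsto_nhds_unique tendsto_const_nhds h1

theorem comap (hf : Len f) {H : Type*} [Group H] [TopologicalSpace H] (φ : H →* G)
    (hφ : ContinuousAt φ 1) : Len (fun h => f (φ h)) where
  one := by rw [map_one, hf.one]
  inv g := by rw [map_inv, hf.inv]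
  mul g h := by rw [map_mul]; exact hf.mul _ _
  cont := by
    have : Tendsto φ (𝓝 1) (𝓝 1) := by simpa [ContinuousAt] using hφ
    exact hf.cont.comp this

end Len

theorem Len.ofAction {G X : Type*} [Group G] [TopologicalSpace G] [PseudoMetricSpace X]
    (ρ : G → X → X) (hmul : ∀ g h x, ρ (g * h) x = ρ g (ρ h x)) (x : X) (h1 : ρ 1 x = x)
    (hiso : ∀ g x y, dist (ρ g x) (ρ g y) = dist x y) (hc : Tendsto (fun g => ρ g x) (𝓝 1) (𝓝 x)) :
    Len (fun g => dist (ρ g x) x) where
  one := by rw [h1, dist_self]
  inv g := by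
    have := hiso g (ρ g⁻¹ x) x
    rw [← hmul, mul_inv_cancel, h1] at this
    rw [← this, dist_comm]
  mul g h := by
    rw [hmul]
    refine (dist_triangle _ (ρ g x) _).trans ?_
    rw [hiso]; linarith
  cont := by
    have := hc.dist (tendsto_const_nhds (x := x))
    rwa [dist_self] at this

/-- **Mautner for `SL_n(k)`**: a length function, continuous at `1`, vanishing on one root
subgroup vanishes identically. -/
theorem Len.eq_top {f : SpecialLinearGroup n k → ℝ} (hf : Len f) {i j : n} (hij : i ≠ j)
    (h : ∀ s : k, transvection hij s ∈ hf.ker) : hf.ker = ⊤ := by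
  haveI : Nontrivial n := ⟨i, j, hij⟩
  obtain ⟨c, hc0, hc1⟩ := NormedField.exists_norm_lt_one k
  have hcne : c ≠ 0 := norm_pos_iff.1 hc0
  have hcN : Tendsto (fun N : ℕ => c ^ N) atTop (𝓝 0) := tendsto_pow_atTop_nhds_zero_of_norm_lt_one hc1
  -- the diagonal elements
  have hd : ∀ (a : k) (ha : a ≠ 0), diag2n hij a ha ∈ hf.ker := by
    intro a ha
    have key : ∀ N : ℕ, f (diag2n hij a ha) ≤
        f (transvection hij.symm (c ^ N)) + f (transvection hij.symm (-(c ^ N * a))) := by
      intro N
      have hcN0 : c ^ N ≠ 0 := pow_ne_zero _ hcne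
      have e := H899.diag2n_eq hij ((a - 1) / c ^ N) (c ^ N) a ha (by field_simp)
      rw [e]
      have m1 := hf.mul (transvection hij ((a - 1) / c ^ N) * transvection hij.symm (c ^ N) *
        transvection hij (-(((a - 1) / c ^ N) / a))) (transvection hij.symm (-(c ^ N * a)))
      have m2 := hf.mul (transvection hij ((a - 1) / c ^ N) * transvection hij.symm (c ^ N))
        (transvection hij (-(((a - 1) / c ^ N) / a)))
      have m3 := hf.mul (transvection hij ((a - 1) / c ^ N)) (transvection hij.symm (c ^ N))
      have z1 : f (transvection hij ((a - 1) / c ^ N)) = 0 := h _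
      have z2 : f (transvection hij (-(((a - 1) / c ^ N) / a))) = 0 := h _
      linarith
    have t1 : Tendsto (fun N : ℕ => f (transvection hij.symm (c ^ N))) atTop (𝓝 0) :=
      hf.cont.comp (tendsto_transvection hij.symm hcN)
    have t2 : Tendsto (fun N : ℕ => f (transvection hij.symm (-(c ^ N * a)))) atTop (𝓝 0) := by
      refine hf.cont.comp (tendsto_transvection hij.symm ?_)
      have := (hcN.mul_const a).neg
      rwa [zero_mul, neg_zero] at this
    have t3 := t1.add t2
    rw [add_zero] at t3
    exact le_antisymm (ge_of_tendsto' t3 key) (hf.nonneg _)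
  -- contraction of the root groups
  have hcontr : ∀ (p q : n) (hpq : p ≠ q) (t : k) (a : ℕ → k) (ha : ∀ N, a N ≠ 0),
      Tendsto (fun N => wt (i := i) (j := j) (a N) p * t * (wt (i := i) (j := j) (a N) q)⁻¹) atTop (𝓝 0) →
      transvection hpq t ∈ hf.ker := by
    intro p q hpq t a ha hT
    refine hf.mem_of_contract (d := fun N => diag2n hij (a N) (ha N)) (fun N => hd _ _) ?_
    simp only [conj_diag2n]
    exact tendsto_transvection hpq hT
  have hinvne : ∀ N : ℕ, (c ^ N)⁻¹ ≠ 0 := fun N => inv_ne_zero (pow_ne_zero _ hcne)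
  have hpne : ∀ N : ℕ, c ^ N ≠ 0 := fun N => pow_ne_zero _ hcne
  have lim0 : ∀ t : k, Tendsto (fun N : ℕ => c ^ N * t) atTop (𝓝 0) := by
    intro t; have := hcN.mul_const t; rwa [zero_mul] at this
  have lim1 : ∀ t : k, Tendsto (fun N : ℕ => c ^ N * t * c ^ N) atTop (𝓝 0) := by
    intro t; have := (lim0 t).mul hcN; rwa [zero_mul] at this
  have lim2 : ∀ t : k, Tendsto (fun N : ℕ => t * c ^ N) atTop (𝓝 0) := by
    intro t; have := hcN.const_mul t; rwa [mul_zero] at this
  -- all root groups meeting `{i, j}`
  have hmeet : ∀ (p q : n) (hpq : p ≠ q) (t : k), (p = i ∨ p = j ∨ q = i ∨ q = j) →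
      transvection hpq t ∈ hf.ker := by
    intro p q hpq t hm
    by_cases hpi : p = i
    · subst hpi
      by_cases hqj : q = j
      · subst hqj; exact h t
      · refine hcontr p q hpq t (fun N => c ^ N) hpne ?_
        simp only [wt, ↓reduceIte, hpq.symm, hqj, inv_one, mul_one]
        exact lim0 t
    · by_cases hpj : p = j
      · subst hpj
        by_cases hqi : q = i
        · subst hqi
          refine hcontr p q hpq t (fun N => (c ^ N)⁻¹) hinvne ?_
          simp only [wt, ↓reduceIte, hpq, hpq.symm, inv_inv]
          exact lim1 t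
        · refine hcontr p q hpq t (fun N => (c ^ N)⁻¹) hinvne ?_
          simp only [wt, ↓reduceIte, hpi, hpq.symm, hqi, inv_inv, inv_one, mul_one]
          exact lim0 t
      · by_cases hqi : q = i
        · subst hqi
          refine hcontr p q hpq t (fun N => (c ^ N)⁻¹) hinvne ?_
          simp only [wt, ↓reduceIte, hpi, hpj, inv_inv, one_mul]
          exact lim2 t
        · by_cases hqj : q = j
          · subst hqj
            refine hcontr p q hpq t (fun N => c ^ N) hpne ?_
            simp only [wt, ↓reduceIte, hpi, hpj, hqi, inv_inv, one_mul]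
            exact lim2 t
          · exact absurd hm (by tauto)
  refine H899.eq_top_of_e _ fun p q hpq t => ?_
  by_cases hm : p = i ∨ p = j ∨ q = i ∨ q = j
  · exact hmeet p q hpq t hm
  · push Not at hm
    have h1 : p ≠ i := hm.1
    have h2 : i ≠ q := hm.2.2.1.symm
    have e : transvection hpq t = transvection h1 t * transvection h2 (1 : k) *
        (transvection h1 t)⁻¹ * (transvection h2 (1 : k))⁻¹ := by
      rw [transvection_inv, transvection_inv]
      refine Subtype.ext ?_
      simp only [Matrix.SpecialLinearGroup.coe_mul]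
      show (transvection hpq t).1 = (transvection h1 t).1 * (transvection h2 (1 : k)).1 *
        (transvection h1 (-t)).1 * (transvection h2 (-1 : k)).1
      simp only [transvection_coe, add_mul, mul_add, one_mul, mul_one, single_mul_single_same,
        single_mul_single_of_ne _ _ _ _ hpq.symm, single_mul_single_of_ne _ _ _ _ h1.symm,
        single_mul_single_of_ne _ _ _ _ h2.symm, mul_neg, neg_mul, add_zero, zero_add, mul_zero,
        zero_mul, neg_zero, neg_neg]
      have s1 : ∀ (x y : n) (z : k), single x y (-z) = -single x y z := fun x y z => by rw [← single_neg]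
      simp only [s1]
      abel
    rw [e]
    exact hf.ker.mul_mem (hf.ker.mul_mem (hf.ker.mul_mem (hmeet p i h1 t (by simp))
      (hmeet i q h2 1 (by simp))) (hf.ker.inv_mem (hmeet p i h1 t (by simp))))
      (hf.ker.inv_mem (hmeet i q h2 1 (by simp)))

end Vale.Agent.P092.H933
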