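import Vale.Agent.P092.H933.HM3

/-!
P092 (helper933): the Howe–Moore property of `SL_N(k)` and its quotients, in the letters of
`PA/Fac.lean` (helper899).
-/

set_option linter.all false

namespace Vale.Agent.P092.H933

open Matrix Filter Topology

open scoped InnerProductSpace

/-- The Howe–Moore property (literally `PA.HM` of helper899's `PA/Fac.lean`). -/
def HoweMoore (G : Type) [Group G] [TopologicalSpace G] : Prop :=
  ∀ (E : Type) [NormedAddCommGroup E] [InnerProductSpace ℂ E] [CompleteSpace E]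
    (π : G →* (E →L[ℂ] E)), (∀ g ξ, ‖π g ξ‖ = ‖ξ‖) → (∀ ξ, Continuous fun g => π g ξ) →
    (∀ ξ, (∀ g, π g ξ = ξ) → ξ = 0) →
    ∀ ξ η, Tendsto (fun g => ⟪π g ξ, η⟫_ℂ) (cocompact G) (𝓝 0)

theorem hm_sl {N : ℕ} {k : Type} [NontriviallyNormedField k] [ProperSpace k] (hk : LocK k)
    (hN : 2 ≤ N) : HoweMoore (SpecialLinearGroup (Fin N) k) := by
  intro X _ _ _ π hiso hc hfix ξ η
  have hσ : URep π := ⟨hiso, fun ξ => by
    have := (hc ξ).tendsto 1
    rwa [map_one] at this⟩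
  exact HM.main hk hN hσ hfix ξ η

theorem hm_of_surj {G G' : Type} [Group G] [TopologicalSpace G] [Group G'] [TopologicalSpace G']
    (h : HoweMoore G) (φ : G →* G') (hφ : Continuous φ) (hs : Function.Surjective φ) :
    HoweMoore G' := by
  intro X _ _ _ π hiso hc hfix ξ η
  have h1 := h X (π.comp φ) (fun g ξ => hiso _ ξ) (fun ξ => (hc ξ).comp hφ)
    (fun ξ hξ => hfix ξ fun g => by
      obtain ⟨g, rfl⟩ := hs g
      exact hξ g) ξ η
  rw [Metric.tendsto_nhds] at h1 ⊢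
  intro ε hε
  obtain ⟨K, hK, hKs⟩ := mem_cocompact.1 (h1 ε hε)
  refine mem_cocompact.2 ⟨φ '' K, hK.image hφ, fun y hy => ?_⟩
  obtain ⟨g, rfl⟩ := hs y
  exact hKs fun hg => hy ⟨g, hg, rfl⟩

end Vale.Agent.P092.H933
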