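import Vale.Agent.P092.H933.HM3

/-!
P092 (helper933), [HM4]: Howe–Moore for `SL_N(k)`: projection form and product forms.
-/

set_option linter.all false

namespace Vale.Agent.P092.H933

open Matrix Filter Topology

open scoped InnerProductSpace

/-- The closed subspace of fixed vectors. -/
def fixedSub {G : Type*} [Group G] {𝓗 : Type*} [NormedAddCommGroup 𝓗] [InnerProductSpace ℂ 𝓗]
    (σ : G →* (𝓗 →L[ℂ] 𝓗)) : Submodule ℂ 𝓗 where
  carrier := {ξ | ∀ g, σ g ξ = ξ}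
  add_mem' {a b} ha hb g := by rw [map_add, ha g, hb g]
  zero_mem' g := map_zero _
  smul_mem' c a ha g := by rw [map_smul, ha g]

theorem mem_fixedSub {G : Type*} [Group G] {𝓗 : Type*} [NormedAddCommGroup 𝓗]
    [InnerProductSpace ℂ 𝓗] {σ : G →* (𝓗 →L[ℂ] 𝓗)} {ξ : 𝓗} :
    ξ ∈ fixedSub σ ↔ ∀ g, σ g ξ = ξ := Iff.rfl

theorem isClosed_fixedSub {G : Type*} [Group G] {𝓗 : Type*} [NormedAddCommGroup 𝓗]
    [InnerProductSpace ℂ 𝓗] (σ : G →* (𝓗 →L[ℂ] 𝓗)) : IsClosed (fixedSub σ : Set 𝓗) := by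
  have : (fixedSub σ : Set 𝓗) = ⋂ g, {ξ | σ g ξ = ξ} := by
    ext ξ
    rw [Set.mem_iInter]
    exact Iff.rfl
  rw [this]
  exact isClosed_iInter fun g => isClosed_eq (σ g).continuous continuous_id

instance {G : Type*} [Group G] {𝓗 : Type*} [NormedAddCommGroup 𝓗] [InnerProductSpace ℂ 𝓗]
    [CompleteSpace 𝓗] (σ : G →* (𝓗 →L[ℂ] 𝓗)) : CompleteSpace (fixedSub σ) :=
  (isClosed_fixedSub σ).completeSpace_coe

section SL

variable {N : ℕ} {k : Type} [NontriviallyNormedField k] [ProperSpace k]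
  {𝓗 : Type*} [NormedAddCommGroup 𝓗] [InnerProductSpace ℂ 𝓗] [CompleteSpace 𝓗]

/-- **Howe–Moore, projection form**: `⟪σ (b i) (x i), y i⟫ → ⟪P ξ, η⟫` with `P` the projection onto
the fixed vectors, if `b i → ∞`, `x i → ξ`, `y i → η`. -/
theorem HM.tendsto_proj {σ : SpecialLinearGroup (Fin N) k →* (𝓗 →L[ℂ] 𝓗)} (hk : LocK k)
    (hN : 2 ≤ N) (hσ : URep σ) {ι : Type*} {l : Filter ι}
    {b : ι → SpecialLinearGroup (Fin N) k} (hb : Tendsto b l (cocompact _))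
    {x y : ι → 𝓗} {ξ η : 𝓗} (hx : Tendsto x l (𝓝 ξ)) (hy : Tendsto y l (𝓝 η)) :
    Tendsto (fun i => ⟪σ (b i) (x i), y i⟫_ℂ) l
      (𝓝 ⟪(fixedSub σ).starProjection ξ, η⟫_ℂ) := by
  rw [tendsto_iff_ultrafilter]
  intro U hU
  obtain ⟨ζ, hζ⟩ := exists_wlim U (fun i => σ (b i) ξ) (C := ‖ξ‖) (fun i => by rw [hσ.iso])
  have hfix : ζ ∈ fixedSub σ := fun s => HM.fixed hk hN hσ U (hb.mono_left hU)
    (tendsto_const_nhds (x := ξ)) hζ s
  have hP : ζ = (fixedSub σ).starProjection ξ := by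
    have hmem : (fixedSub σ).starProjection ξ ∈ fixedSub σ := Submodule.starProjection_apply_mem _ _
    rw [← sub_eq_zero, ← inner_self_eq_zero (𝕜 := ℂ)]
    have hd : ζ - (fixedSub σ).starProjection ξ ∈ fixedSub σ := Submodule.sub_mem _ hfix hmem
    have h1 : ⟪ζ, ζ - (fixedSub σ).starProjection ξ⟫_ℂ =
        ⟪ξ, ζ - (fixedSub σ).starProjection ξ⟫_ℂ := by
      refine tendsto_nhds_unique (hζ _) (tendsto_const_nhds.congr fun i => ?_)
      rw [hσ.inner_left, hd]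
    rw [inner_sub_left, h1, ← inner_sub_left]
    exact Submodule.starProjection_inner_eq_zero ξ _ hd
  rw [← hP]
  refine wlim_perturb (A' := fun i => σ (b i) ξ) (C := ‖ξ‖) ?_
    (fun i => by rw [hσ.iso]) (hy.mono_left hU) (hζ η)
  rw [tendsto_zero_iff_norm_tendsto_zero]
  refine (tendsto_iff_norm_sub_tendsto_zero.1 (hx.mono_left hU)).congr fun i => ?_
  rw [← map_sub, hσ.iso]

variable {G : Type*} [Group G] [TopologicalSpace G] [IsTopologicalGroup G]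

/-- Product form: `σ` a representation of `G × SL_N(k)`, `a i → a` in `G` and `b i → ∞`: every weak
limit of `σ (a i, b i) (x i)`, `x i → ξ`, is fixed by `SL_N(k)`. -/
theorem HM.fixed_prod {σ : G × SpecialLinearGroup (Fin N) k →* (𝓗 →L[ℂ] 𝓗)} (hk : LocK k)
    (hN : 2 ≤ N) (hσ : URep σ) {ι : Type*} (U : Ultrafilter ι) {a : ι → G} {a₀ : G}
    (ha : Tendsto a U (𝓝 a₀)) {b : ι → SpecialLinearGroup (Fin N) k}
    (hb : Tendsto b U (cocompact _)) {x : ι → 𝓗} {ξ : 𝓗} (hx : Tendsto x U (𝓝 ξ)) {ζ : 𝓗}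
    (hζ : ∀ η, Tendsto (fun i => ⟪σ (a i, b i) (x i), η⟫_ℂ) U (𝓝 ⟪ζ, η⟫_ℂ)) (s) :
    σ (1, s) ζ = ζ := by
  have hr : URep (σ.comp (MonoidHom.inr G (SpecialLinearGroup (Fin N) k))) :=
    hσ.comp _ (Continuous.prodMk continuous_const continuous_id).continuousAt
  have hl : URep (σ.comp (MonoidHom.inl G (SpecialLinearGroup (Fin N) k))) :=
    hσ.comp _ (Continuous.prodMk continuous_id continuous_const).continuousAt
  refine HM.fixed hk hN hr U hb (x := fun i => σ (a i, 1) (x i)) (ξ := σ (a₀, 1) ξ)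
    (hl.tendsto ha hx) (fun η => (hζ η).congr fun i => ?_) s
  show ⟪σ (a i, b i) (x i), η⟫_ℂ = ⟪σ (1, b i) (σ (a i, 1) (x i)), η⟫_ℂ
  rw [← URep.mul_apply]
  simp

theorem HM.fixed_prod' {σ : SpecialLinearGroup (Fin N) k × G →* (𝓗 →L[ℂ] 𝓗)} (hk : LocK k)
    (hN : 2 ≤ N) (hσ : URep σ) {ι : Type*} (U : Ultrafilter ι) {a : ι → G} {a₀ : G}
    (ha : Tendsto a U (𝓝 a₀)) {b : ι → SpecialLinearGroup (Fin N) k}
    (hb : Tendsto b U (cocompact _)) {x : ι → 𝓗} {ξ : 𝓗} (hx : Tendsto x U (𝓝 ξ)) {ζ : 𝓗}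
    (hζ : ∀ η, Tendsto (fun i => ⟪σ (b i, a i) (x i), η⟫_ℂ) U (𝓝 ⟪ζ, η⟫_ℂ)) (s) :
    σ (s, 1) ζ = ζ := by
  have hs : URep (σ.comp (MulEquiv.prodComm (M := G)
      (N := SpecialLinearGroup (Fin N) k)).toMonoidHom) :=
    hσ.comp _ (continuous_swap).continuousAt
  exact HM.fixed_prod hk hN hs U ha hb hx hζ s

/-- Product form, filters: `σ (a i, b i) ξ` tends weakly to `σ (a₀, 1) P ξ`. -/
theorem HM.tendsto_proj_prod {σ : G × SpecialLinearGroup (Fin N) k →* (𝓗 →L[ℂ] 𝓗)}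
    (hk : LocK k) (hN : 2 ≤ N) (hσ : URep σ) {ι : Type*} {l : Filter ι} {a : ι → G} {a₀ : G}
    (ha : Tendsto a l (𝓝 a₀)) {b : ι → SpecialLinearGroup (Fin N) k}
    (hb : Tendsto b l (cocompact _)) {x y : ι → 𝓗} {ξ η : 𝓗} (hx : Tendsto x l (𝓝 ξ))
    (hy : Tendsto y l (𝓝 η)) :
    Tendsto (fun i => ⟪σ (a i, b i) (x i), y i⟫_ℂ) l
      (𝓝 ⟪(fixedSub (σ.comp (MonoidHom.inr G (SpecialLinearGroup (Fin N) k)))).starProjection
        (σ (a₀, 1) ξ), η⟫_ℂ) := by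
  have hr : URep (σ.comp (MonoidHom.inr G (SpecialLinearGroup (Fin N) k))) :=
    hσ.comp _ (Continuous.prodMk continuous_const continuous_id).continuousAt
  have hl : URep (σ.comp (MonoidHom.inl G (SpecialLinearGroup (Fin N) k))) :=
    hσ.comp _ (Continuous.prodMk continuous_id continuous_const).continuousAt
  refine (HM.tendsto_proj hk hN hr hb (x := fun i => σ (a i, 1) (x i)) (ξ := σ (a₀, 1) ξ)
    (hl.tendsto ha hx) hy).congr fun i => ?_
  show ⟪σ (1, b i) (σ (a i, 1) (x i)), y i⟫_ℂ = ⟪σ (a i, b i) (x i), y i⟫_ℂ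
  rw [← URep.mul_apply]
  simp

/-- Product form without fixed vectors: the coefficients vanish when the second component tends to
infinity and the first stays in a compact set. -/
theorem HM.tendsto_zero_prod {σ : G × SpecialLinearGroup (Fin N) k →* (𝓗 →L[ℂ] 𝓗)}
    (hk : LocK k) (hN : 2 ≤ N) (hσ : URep σ) (hfix : ∀ ξ, (∀ s, σ (1, s) ξ = ξ) → ξ = 0)
    {ι : Type*} {l : Filter ι} {a : ι → G} {C : Set G} (hC : IsCompact C)
    (ha : ∀ᶠ i in l, a i ∈ C) {b : ι → SpecialLinearGroup (Fin N) k}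
    (hb : Tendsto b l (cocompact _)) (ξ η : 𝓗) :
    Tendsto (fun i => ⟪σ (a i, b i) ξ, η⟫_ℂ) l (𝓝 0) := by
  have hr : URep (σ.comp (MonoidHom.inr G (SpecialLinearGroup (Fin N) k))) :=
    hσ.comp _ (Continuous.prodMk continuous_const continuous_id).continuousAt
  have hl : URep (σ.comp (MonoidHom.inl G (SpecialLinearGroup (Fin N) k))) :=
    hσ.comp _ (Continuous.prodMk continuous_id continuous_const).continuousAt
  have hK : IsCompact ((fun g : G => σ (g, 1) ξ) '' C) := by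
    refine hC.image (continuous_iff_continuousAt.2 fun g => ?_)
    exact hl.tendsto tendsto_id (tendsto_const_nhds (x := ξ))
  refine (HM.tendsto_zero hk hN hr hfix hb hK (isCompact_singleton (x := η))
    (x := fun i => σ (a i, 1) ξ) (y := fun _ => η) (ha.mono fun i hi => ⟨_, hi, rfl⟩)
    (Eventually.of_forall fun _ => rfl)).congr fun i => ?_
  show ⟪σ (1, b i) (σ (a i, 1) ξ), η⟫_ℂ = ⟪σ (a i, b i) ξ, η⟫_ℂ
  rw [← URep.mul_apply]
  simp

end SL

end Vale.Agent.P092.H933
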