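import Vale.Agent.P092.H933.HM4
import Vale.Agent.P092.H885.RelT2

/-!
P092 (helper933), [D-GAP]: uniform contraction by averages of elements which commute with a wall
element, for unitary representations of `SL_N(ℝ)`, `N ≥ 3`, on the complement of the fixed vectors.
-/

set_option linter.all false

namespace Vale.Agent.P092.H933

open Matrix Matrix.SpecialLinearGroup Filter Topology

open scoped InnerProductSpace

theorem URep.star_eq {G : Type*} [Group G] [TopologicalSpace G] {𝓗 : Type*}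
    [NormedAddCommGroup 𝓗] [InnerProductSpace ℂ 𝓗] [CompleteSpace 𝓗] {σ : G →* (𝓗 →L[ℂ] 𝓗)}
    (h : URep σ) (g : G) : star (σ g) = σ g⁻¹ := by
  rw [ContinuousLinearMap.star_eq_adjoint]
  refine ContinuousLinearMap.ext fun x => ext_inner_right ℂ fun y => ?_
  rw [ContinuousLinearMap.adjoint_inner_left, h.inner_right]

section GLGap

variable {N : ℕ}

theorem comm_trans {i j l : Fin N} (hij : i ≠ j) (hlj : l ≠ j) (hil : i ≠ l) (a b : ℝ) :
    (transvection hlj a : SpecialLinearGroup (Fin N) ℝ) * transvection hij b =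
      transvection hij b * transvection hlj a := by
  refine Subtype.ext ?_
  rw [Matrix.SpecialLinearGroup.coe_mul, Matrix.SpecialLinearGroup.coe_mul]
  show (transvection hlj a : SpecialLinearGroup (Fin N) ℝ).1 *
    (transvection hij b : SpecialLinearGroup (Fin N) ℝ).1 =
    (transvection hij b : SpecialLinearGroup (Fin N) ℝ).1 *
    (transvection hlj a : SpecialLinearGroup (Fin N) ℝ).1
  rw [transvection_coe, transvection_coe]
  simp only [Matrix.mul_add, Matrix.add_mul, Matrix.mul_one, Matrix.one_mul]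
  rw [Matrix.single_mul_single_of_ne _ _ _ _ hij.symm, Matrix.single_mul_single_of_ne _ _ _ _ hlj.symm]
  abel

theorem comm_trans' {i j l : Fin N} (hil : i ≠ l) (hlj : l ≠ j) (hij : i ≠ j) (a b : ℝ) :
    (transvection hlj a : SpecialLinearGroup (Fin N) ℝ) * transvection hil b =
      transvection hil b * transvection hij (-(a * b)) * transvection hlj a := by
  refine Subtype.ext ?_
  rw [Matrix.SpecialLinearGroup.coe_mul, Matrix.SpecialLinearGroup.coe_mul,
    Matrix.SpecialLinearGroup.coe_mul]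
  show (transvection hlj a : SpecialLinearGroup (Fin N) ℝ).1 *
    (transvection hil b : SpecialLinearGroup (Fin N) ℝ).1 =
    (transvection hil b : SpecialLinearGroup (Fin N) ℝ).1 *
    (transvection hij _ : SpecialLinearGroup (Fin N) ℝ).1 *
    (transvection hlj a : SpecialLinearGroup (Fin N) ℝ).1
  simp only [transvection_coe]
  simp only [Matrix.mul_add, Matrix.add_mul, Matrix.mul_one, Matrix.one_mul]
  rw [Matrix.single_mul_single_of_ne _ _ _ _ hij.symm, Matrix.single_mul_single_of_ne _ _ _ _ hil.symm,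
    Matrix.single_mul_single_same, Matrix.single_mul_single_of_ne _ _ _ _ hlj.symm]
  ext x y
  simp only [Matrix.add_apply, Matrix.single_apply, Matrix.zero_apply, Matrix.zero_mul]
  split_ifs <;> ring

theorem tendsto_trans_cocompact {i j : Fin N} (hij : i ≠ j) :
    Tendsto (fun n : ℕ => (transvection hij (n : ℝ) : SpecialLinearGroup (Fin N) ℝ)) atTop
      (cocompact _) := by
  have hc : Continuous fun g : SpecialLinearGroup (Fin N) ℝ => g.1 i j :=
    (continuous_apply_apply i j).comp continuous_subtype_val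
  refine Tendsto.mono_right (tendsto_comap_iff.2 ?_) (Filter.comap_cocompact_le hc)
  have h1 : ((fun g : SpecialLinearGroup (Fin N) ℝ => g.1 i j) ∘ fun n : ℕ =>
      (transvection hij (n : ℝ) : SpecialLinearGroup (Fin N) ℝ)) = fun n : ℕ => (n : ℝ) := by
    funext n
    show (transvection hij (n : ℝ) : SpecialLinearGroup (Fin N) ℝ).1 i j = n
    rw [transvection_coe]
    simp [Matrix.one_apply, hij]
  rw [h1]
  exact (tendsto_natCast_atTop_atTop (R := ℝ)).mono_right atTop_le_cocompact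

theorem trans_pow {i j : Fin N} (hij : i ≠ j) (c : ℝ) (n : ℕ) :
    (transvection hij c : SpecialLinearGroup (Fin N) ℝ) ^ n = transvection hij (n * c) := by
  induction n with
  | zero => rw [pow_zero, Nat.cast_zero, zero_mul, transvection_coeff_zero]
  | succ n ih => rw [pow_succ, ih, ← transvection_add, Nat.cast_succ, add_mul, one_mul]

variable {𝓗 : Type} [NormedAddCommGroup 𝓗] [InnerProductSpace ℂ 𝓗] [CompleteSpace 𝓗]
  {σ : SpecialLinearGroup (Fin N) ℝ →* (𝓗 →L[ℂ] 𝓗)}

/-- A vector fixed by one nontrivial transvection is fixed. -/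
theorem URep.fixed_of_trans (hσ : URep σ) (hN : 2 ≤ N) {i j : Fin N} (hij : i ≠ j) {η : 𝓗}
    (h : σ (transvection hij (1 : ℝ)) η = η) : η ∈ fixedSub σ := by
  have h1 : ∀ n : ℕ, σ (transvection hij (n : ℝ)) η = η := by
    intro n
    have e : (transvection hij (n : ℝ) : SpecialLinearGroup (Fin N) ℝ) =
        transvection hij (1 : ℝ) ^ n := by rw [trans_pow, mul_one]
    rw [e]
    induction n with
    | zero => rw [pow_zero, URep.one_apply]
    | succ n ih => rw [pow_succ, URep.mul_apply, h]; exact ih (by rw [trans_pow, mul_one])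
  have h2 := HM.tendsto_proj (LocK.real (RingEquiv.refl ℝ) fun _ => rfl) hN hσ
    (tendsto_trans_cocompact hij) (tendsto_const_nhds (x := η)) (tendsto_const_nhds (x := η))
  have h3 : ⟪(fixedSub σ).starProjection η, η⟫_ℂ = ⟪η, η⟫_ℂ := by
    refine tendsto_nhds_unique h2 (tendsto_const_nhds.congr fun n => ?_)
    rw [h1 n]
  have h4 : ⟪η - (fixedSub σ).starProjection η, η⟫_ℂ = 0 := by
    rw [inner_sub_left, h3, sub_self]
  have h5 : ⟪η - (fixedSub σ).starProjection η, (fixedSub σ).starProjection η⟫_ℂ = 0 :=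
    Submodule.starProjection_inner_eq_zero η _ (Submodule.starProjection_apply_mem _ _)
  have h6 : ⟪η - (fixedSub σ).starProjection η, η - (fixedSub σ).starProjection η⟫_ℂ = 0 := by
    rw [inner_sub_right, h4, h5, sub_zero]
  have h7 := sub_eq_zero.1 (inner_self_eq_zero.1 h6)
  rw [h7]
  exact Submodule.starProjection_apply_mem _ _

/-- **The gap**: a vector orthogonal to the fixed vectors is moved by one of the two shears in the
block `{j, l}`. -/
theorem URep.shear_gap (hσ : URep σ) {i j l : Fin N} (hij : i ≠ j) (hil : i ≠ l) (hjl : j ≠ l)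
    {v : 𝓗} (hv : ∀ η ∈ fixedSub σ, ⟪η, v⟫_ℂ = 0) {c : ℝ}
    (c1 : ‖σ (transvection hjl.symm (-3 : ℝ)) v - v‖ ≤ c)
    (c2 : ‖σ (transvection hjl (-3 : ℝ)) v - v‖ ≤ c) (hc : 12 * c < ‖v‖) : False := by
  have hN : 2 ≤ N := by
    have := i.2; have := j.2
    by_contra h
    exact hij (Fin.ext (by omega))
  have hc0 : 0 ≤ c := (norm_nonneg _).trans c1
  obtain ⟨c', hcc, hc'⟩ : ∃ c', c < c' ∧ 12 * c' < ‖v‖ :=
    ⟨(c + ‖v‖ / 12) / 2, by linarith, by linarith⟩
  have hs : ∀ n : ℕ, (1 / ((n : ℝ) + 1)) ≠ 0 := fun n => by positivity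
  let A : ℕ → SpecialLinearGroup (Fin N) ℝ := fun n =>
    diag2n hij (1 / ((n : ℝ) + 1)) (hs n) * diag2n hil (1 / ((n : ℝ) + 1)) (hs n)
  have hAU : ∀ n, A n * transvection hij (1 : ℝ) * (A n)⁻¹ =
      transvection hij ((1 / ((n : ℝ) + 1)) ^ 3) := by
    intro n
    show diag2n hij _ (hs n) * diag2n hil _ (hs n) * transvection hij (1 : ℝ) *
      (diag2n hij _ (hs n) * diag2n hil _ (hs n))⁻¹ = _
    have e : diag2n hij _ (hs n) * diag2n hil _ (hs n) * transvection hij (1 : ℝ) *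
      (diag2n hij _ (hs n) * diag2n hil _ (hs n))⁻¹ = diag2n hij _ (hs n) *
        (diag2n hil _ (hs n) * transvection hij (1 : ℝ) * (diag2n hil _ (hs n))⁻¹) *
        (diag2n hij _ (hs n))⁻¹ := by group
    rw [e, conj_diag2n, conj_diag2n]
    congr 1
    simp only [wt, if_true, hij, hij.symm, hil, hil.symm, hjl, if_false, inv_one, inv_inv, mul_one]
    ring
  have hAV : ∀ n, A n * transvection hil (1 : ℝ) * (A n)⁻¹ =
      transvection hil ((1 / ((n : ℝ) + 1)) ^ 3) := by
    intro n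
    show diag2n hij _ (hs n) * diag2n hil _ (hs n) * transvection hil (1 : ℝ) *
      (diag2n hij _ (hs n) * diag2n hil _ (hs n))⁻¹ = _
    have e : diag2n hij _ (hs n) * diag2n hil _ (hs n) * transvection hil (1 : ℝ) *
      (diag2n hij _ (hs n) * diag2n hil _ (hs n))⁻¹ = diag2n hij _ (hs n) *
        (diag2n hil _ (hs n) * transvection hil (1 : ℝ) * (diag2n hil _ (hs n))⁻¹) *
        (diag2n hij _ (hs n))⁻¹ := by group
    rw [e, conj_diag2n, conj_diag2n]
    congr 1
    simp only [wt, if_true, hij, hij.symm, hil, hil.symm, hjl.symm, if_false, inv_one, inv_inv,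
      mul_one]
    ring
  have hAW1 : ∀ n, A n * transvection hjl.symm (-3 : ℝ) * (A n)⁻¹ =
      transvection hjl.symm (-3 : ℝ) := by
    intro n
    show diag2n hij _ (hs n) * diag2n hil _ (hs n) * transvection hjl.symm (-3 : ℝ) *
      (diag2n hij _ (hs n) * diag2n hil _ (hs n))⁻¹ = _
    have e : diag2n hij _ (hs n) * diag2n hil _ (hs n) * transvection hjl.symm (-3 : ℝ) *
      (diag2n hij _ (hs n) * diag2n hil _ (hs n))⁻¹ = diag2n hij _ (hs n) *
        (diag2n hil _ (hs n) * transvection hjl.symm (-3 : ℝ) * (diag2n hil _ (hs n))⁻¹) *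
        (diag2n hij _ (hs n))⁻¹ := by group
    rw [e, conj_diag2n, conj_diag2n]
    congr 1
    have h1 := hs n
    simp only [wt, if_true, hij, hij.symm, hil, hil.symm, hjl, hjl.symm, if_false, inv_one,
      inv_inv, mul_one, one_mul]
    field_simp
  have hAW2 : ∀ n, A n * transvection hjl (-3 : ℝ) * (A n)⁻¹ = transvection hjl (-3 : ℝ) := by
    intro n
    show diag2n hij _ (hs n) * diag2n hil _ (hs n) * transvection hjl (-3 : ℝ) *
      (diag2n hij _ (hs n) * diag2n hil _ (hs n))⁻¹ = _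
    have e : diag2n hij _ (hs n) * diag2n hil _ (hs n) * transvection hjl (-3 : ℝ) *
      (diag2n hij _ (hs n) * diag2n hil _ (hs n))⁻¹ = diag2n hij _ (hs n) *
        (diag2n hil _ (hs n) * transvection hjl (-3 : ℝ) * (diag2n hil _ (hs n))⁻¹) *
        (diag2n hij _ (hs n))⁻¹ := by group
    rw [e, conj_diag2n, conj_diag2n]
    congr 1
    have h1 := hs n
    simp only [wt, if_true, hij, hij.symm, hil, hil.symm, hjl, hjl.symm, if_false, inv_one,
      inv_inv, mul_one, one_mul]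
    field_simp
  have hmove : ∀ n g, ‖σ g (σ (A n)⁻¹ v) - σ (A n)⁻¹ v‖ = ‖σ (A n * g * (A n)⁻¹) v - v‖ := by
    intro n g
    rw [← hσ.iso (A n), map_sub, ← URep.mul_apply, ← URep.mul_apply, ← URep.mul_apply,
      mul_inv_cancel, URep.one_apply]
  have htend : Tendsto (fun n : ℕ => (1 / ((n : ℝ) + 1)) ^ 3) atTop (𝓝 0) := by
    have := (tendsto_one_div_add_atTop_nhds_zero_nat (𝕜 := ℝ)).pow 3
    simpa using this
  have hU : ∀ᶠ n in atTop, ‖σ (A n * transvection hij (1 : ℝ) * (A n)⁻¹) v - v‖ ≤ c' := by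
    have h1 : Tendsto (fun n : ℕ => σ (transvection hij ((1 / ((n : ℝ) + 1)) ^ 3)) v) atTop
        (𝓝 v) := (hσ.cont v).comp (tendsto_transvection hij htend)
    have h2 := (tendsto_iff_norm_sub_tendsto_zero.1 h1).eventually
      (gt_mem_nhds (lt_of_le_of_lt hc0 hcc))
    filter_upwards [h2] with n hn
    rw [hAU n]; exact hn.le
  have hV : ∀ᶠ n in atTop, ‖σ (A n * transvection hil (1 : ℝ) * (A n)⁻¹) v - v‖ ≤ c' := by
    have h1 : Tendsto (fun n : ℕ => σ (transvection hil ((1 / ((n : ℝ) + 1)) ^ 3)) v) atTop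
        (𝓝 v) := (hσ.cont v).comp (tendsto_transvection hil htend)
    have h2 := (tendsto_iff_norm_sub_tendsto_zero.1 h1).eventually
      (gt_mem_nhds (lt_of_le_of_lt hc0 hcc))
    filter_upwards [h2] with n hn
    rw [hAV n]; exact hn.le
  obtain ⟨n, hUn, hVn⟩ := (hU.and hV).exists
  have hu1 : ∀ g, star (σ g) * σ g = 1 := fun g => by
    rw [hσ.star_eq, ← map_mul, inv_mul_cancel, map_one]
  have hu2 : ∀ g, σ g * star (σ g) = 1 := fun g => by
    rw [hσ.star_eq, ← map_mul, mul_inv_cancel, map_one]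
  refine H885.rel_gap (U := σ (transvection hij (1 : ℝ))) (V := σ (transvection hil (1 : ℝ)))
    (W1 := σ (transvection hjl.symm (-3 : ℝ))) (W2 := σ (transvection hjl (-3 : ℝ)))
    (hu1 _) (hu2 _) (hu1 _) (hu2 _) (hu2 _) (hu1 _) (hu2 _) (hu1 _) ?_ (m := 3) le_rfl ?_ ?_ ?_ ?_
    (v := σ (A n)⁻¹ v) ?_ (c := c') ?_ ?_ ?_ ?_ ?_
  · rw [← map_mul, ← map_mul]
    congr 1
    refine Subtype.ext ?_
    rw [Matrix.SpecialLinearGroup.coe_mul, Matrix.SpecialLinearGroup.coe_mul]
    show (transvection hij (1 : ℝ) : SpecialLinearGroup (Fin N) ℝ).1 *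
      (transvection hil (1 : ℝ) : SpecialLinearGroup (Fin N) ℝ).1 =
      (transvection hil (1 : ℝ) : SpecialLinearGroup (Fin N) ℝ).1 *
      (transvection hij (1 : ℝ) : SpecialLinearGroup (Fin N) ℝ).1
    rw [transvection_coe, transvection_coe]
    simp only [Matrix.mul_add, Matrix.add_mul, Matrix.mul_one, Matrix.one_mul]
    rw [Matrix.single_mul_single_of_ne _ _ _ _ hij.symm,
      Matrix.single_mul_single_of_ne _ _ _ _ hil.symm]
    abel
  · rw [← map_mul, ← map_mul, comm_trans hij hjl.symm hil]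
  · rw [← map_mul, ← map_pow, ← map_mul, ← map_mul, comm_trans' hil hjl.symm hij, trans_pow]
    norm_num
  · rw [← map_mul, ← map_mul, comm_trans hil hjl hij]
  · rw [← map_mul, ← map_pow, ← map_mul, ← map_mul, comm_trans' hij hjl hil, trans_pow]
    norm_num
  · intro η h1 _
    rw [hσ.inner_right, inv_inv]
    have h2 := hσ.fixed_of_trans hN hij h1
    rw [h2]
    exact hv η h2
  · rw [hmove]; exact hUn
  · rw [hmove]; exact hVn
  · rw [hmove, hAW1]; exact c1.trans hcc.le
  · rw [hmove, hAW2]; exact c2.trans hcc.le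
  · rw [hσ.iso]
    push_cast
    linarith

/-- the contraction constant -/
noncomputable def qgap : ℝ := (Real.sqrt (4 - 1 / 169) + 1) / 3

theorem qgap_nonneg : 0 ≤ qgap := by unfold qgap; positivity

theorem qgap_lt_one : qgap < 1 := by
  have h : Real.sqrt (4 - 1 / 169) < 2 := by
    rw [Real.sqrt_lt' (by norm_num)]; norm_num
  unfold qgap; linarith

theorem norm_add_le_of_moved {v w : 𝓗} (hw : ‖w‖ = ‖v‖) (h : ‖v‖ / 13 ≤ ‖w - v‖) :
    ‖v + w‖ ≤ Real.sqrt (4 - 1 / 169) * ‖v‖ := by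
  have h1 := parallelogram_law_with_norm ℂ v w
  have h2 : ‖v - w‖ = ‖w - v‖ := norm_sub_rev _ _
  rw [h2, hw] at h1
  have h3 : (‖v‖ / 13) * (‖v‖ / 13) ≤ ‖w - v‖ * ‖w - v‖ :=
    mul_self_le_mul_self (by positivity) h
  have h4 : ‖v + w‖ ^ 2 ≤ (Real.sqrt (4 - 1 / 169) * ‖v‖) ^ 2 := by
    rw [mul_pow, Real.sq_sqrt (by norm_num)]
    nlinarith
  exact (abs_le_of_sq_le_sq' h4 (by positivity)).2

/-- one step of the averaging -/
theorem URep.kappa_step (hσ : URep σ) {i j l : Fin N} (hij : i ≠ j) (hil : i ≠ l) (hjl : j ≠ l)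
    {v : 𝓗} (hv : ∀ η ∈ fixedSub σ, ⟪η, v⟫_ℂ = 0) :
    ‖(3 : ℝ)⁻¹ • (v + σ (transvection hjl.symm (-3 : ℝ)) v + σ (transvection hjl (-3 : ℝ)) v)‖ ≤
      qgap * ‖v‖ := by
  rcases eq_or_ne v 0 with rfl | hne
  · simp
  have hpos : 0 < ‖v‖ := norm_pos_iff.2 hne
  rw [norm_smul, Real.norm_of_nonneg (by norm_num)]
  have h1 : ‖v‖ / 13 ≤ ‖σ (transvection hjl.symm (-3 : ℝ)) v - v‖ ∨
      ‖v‖ / 13 ≤ ‖σ (transvection hjl (-3 : ℝ)) v - v‖ := by
    by_contra hcon
    push Not at hcon
    exact hσ.shear_gap hij hil hjl hv hcon.1.le hcon.2.le (by linarith)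
  have key : ‖v + σ (transvection hjl.symm (-3 : ℝ)) v + σ (transvection hjl (-3 : ℝ)) v‖ ≤
      (Real.sqrt (4 - 1 / 169) + 1) * ‖v‖ := by
    rcases h1 with h | h
    · refine (norm_add_le _ _).trans ?_
      rw [add_mul, one_mul]
      exact add_le_add (norm_add_le_of_moved (hσ.iso _ _) h) (hσ.iso _ _).le
    · have e : v + σ (transvection hjl.symm (-3 : ℝ)) v + σ (transvection hjl (-3 : ℝ)) v =
          (v + σ (transvection hjl (-3 : ℝ)) v) + σ (transvection hjl.symm (-3 : ℝ)) v := by abel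
      rw [e]
      refine (norm_add_le _ _).trans ?_
      rw [add_mul, one_mul]
      exact add_le_add (norm_add_le_of_moved (hσ.iso _ _) h) (hσ.iso _ _).le
  unfold qgap
  calc (3 : ℝ)⁻¹ * _ ≤ 3⁻¹ * ((Real.sqrt (4 - 1 / 169) + 1) * ‖v‖) := by gcongr
    _ = _ := by ring

/-- averages stay in the complement of the fixed vectors -/
theorem URep.orth (hσ : URep σ) {v : 𝓗} (hv : ∀ η ∈ fixedSub σ, ⟪η, v⟫_ℂ = 0)
    (g : SpecialLinearGroup (Fin N) ℝ) : ∀ η ∈ fixedSub σ, ⟪η, σ g v⟫_ℂ = 0 := by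
  intro η hη
  rw [hσ.inner_right, hη g⁻¹]
  exact hv η hη

theorem URep.gl_gap_aux (hσ : URep σ) {i j l : Fin N} (hij : i ≠ j) (hil : i ≠ l) (hjl : j ≠ l)
    (m : ℕ) : ∃ (ι : Type) (_ : Fintype ι) (_ : Nonempty ι) (w : ι → SpecialLinearGroup (Fin N) ℝ),
      (∀ a, w a ∈ Subgroup.closure ({transvection hjl.symm (-3 : ℝ), transvection hjl (-3 : ℝ)} :
        Set (SpecialLinearGroup (Fin N) ℝ))) ∧
      ∀ v : 𝓗, (∀ η ∈ fixedSub σ, ⟪η, v⟫_ℂ = 0) →
        ‖((Fintype.card ι : ℝ))⁻¹ • ∑ a, σ (w a) v‖ ≤ qgap ^ m * ‖v‖ := by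
  induction m with
  | zero =>
    refine ⟨Unit, inferInstance, inferInstance, fun _ => 1, fun _ => Subgroup.one_mem _, ?_⟩
    intro v _
    simp
  | succ m ih =>
    obtain ⟨ι, _, _, w, hw, hw'⟩ := ih
    let gn : Fin 3 → SpecialLinearGroup (Fin N) ℝ :=
      ![1, transvection hjl.symm (-3 : ℝ), transvection hjl (-3 : ℝ)]
    refine ⟨Fin 3 × ι, inferInstance, inferInstance, fun a => gn a.1 * w a.2, ?_, ?_⟩
    · rintro ⟨a, b⟩
      refine Subgroup.mul_mem _ ?_ (hw b)
      fin_cases a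
      · exact Subgroup.one_mem _
      · exact Subgroup.subset_closure (Or.inl rfl)
      · exact Subgroup.subset_closure (Or.inr rfl)
    · intro v hv
      set u : 𝓗 := ((Fintype.card ι : ℝ))⁻¹ • ∑ a, σ (w a) v with hu
      have hou : ∀ η ∈ fixedSub σ, ⟪η, u⟫_ℂ = 0 := by
        intro η hη
        rw [hu, ← Complex.coe_smul, inner_smul_right, inner_sum]
        rw [Finset.sum_eq_zero fun a _ => hσ.orth hv (w a) η hη, mul_zero]
      have hg : ∀ g, σ g u = ((Fintype.card ι : ℝ))⁻¹ • ∑ a, σ (g * w a) v := by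
        intro g
        rw [hu, ← Complex.coe_smul, map_smul, Complex.coe_smul, map_sum]
        simp only [URep.mul_apply]
      have e : ((Fintype.card (Fin 3 × ι) : ℝ))⁻¹ • ∑ a : Fin 3 × ι, σ (gn a.1 * w a.2) v =
          (3 : ℝ)⁻¹ • (u + σ (transvection hjl.symm (-3 : ℝ)) u +
            σ (transvection hjl (-3 : ℝ)) u) := by
        have hcard : (Fintype.card (Fin 3 × ι) : ℝ) = 3 * Fintype.card ι := by
          rw [Fintype.card_prod]; simp
        have h0 : u = ((Fintype.card ι : ℝ))⁻¹ • ∑ a, σ (1 * w a) v := by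
          simp only [one_mul]; exact hu
        rw [hg, hg, h0, hcard, mul_inv, mul_smul, Fintype.sum_prod_type, Fin.sum_univ_three]
        simp only [smul_add]
        rfl
      rw [e]
      refine (hσ.kappa_step hij hil hjl hou).trans ?_
      rw [pow_succ', mul_assoc]
      exact mul_le_mul_of_nonneg_left (hw' v hv) qgap_nonneg

/-- **[D-GAP]** For every `η > 0` there are finitely many elements, products of the two shears in
the block `{j, l}` and their inverses, whose average is an `η`-contraction on the complement of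
the fixed vectors. -/
theorem URep.gl_gap (hσ : URep σ) {i j l : Fin N} (hij : i ≠ j) (hil : i ≠ l) (hjl : j ≠ l)
    {e : ℝ} (he : 0 < e) : ∃ (p : ℕ) (_ : 0 < p) (w : Fin p → SpecialLinearGroup (Fin N) ℝ),
      (∀ a, w a ∈ Subgroup.closure ({transvection hjl.symm (-3 : ℝ), transvection hjl (-3 : ℝ)} :
        Set (SpecialLinearGroup (Fin N) ℝ))) ∧
      ∀ v : 𝓗, (∀ η ∈ fixedSub σ, ⟪η, v⟫_ℂ = 0) →
        ‖((p : ℝ))⁻¹ • ∑ a, σ (w a) v‖ ≤ e * ‖v‖ := by
  obtain ⟨m, hm⟩ := exists_pow_lt_of_lt_one he qgap_lt_one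
  obtain ⟨ι, _, _, w, hw, hw'⟩ := hσ.gl_gap_aux hij hil hjl m
  refine ⟨Fintype.card ι, Fintype.card_pos, fun a => w ((Fintype.equivFin ι).symm a),
    fun a => hw _, fun v hv => ?_⟩
  rw [Equiv.sum_comp (Fintype.equivFin ι).symm fun a => σ (w a) v]
  exact (hw' v hv).trans (mul_le_mul_of_nonneg_right hm.le (norm_nonneg _))

end GLGap

end Vale.Agent.P092.H933
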