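import Vale.Agent.P092.H933.GLInst
import Vale.Agent.P092.H933.GLGap
import Mathlib.Analysis.InnerProductSpace.MeanErgodic

/-!
P092 (helper933), [D-GL-IND] (C): the gap hypothesis of the growth lemma for the finite algebra of
the induced representation.
-/

set_option linter.all false

open scoped InnerProductSpace ENNReal
open Set Filter Topology MeasureTheory ContinuousLinearMap

namespace Vale.Agent.P092.H933

open Vale.Agent.P092.H790 Vale.Agent.P092.H85 Vale.Agent.P092.H160 Vale.Agent.P092.H103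

/-- Averages of elements commuting with `a` contract the complement of the fixed vectors. -/
def LeviGap {E : Type} [Group E] [TopologicalSpace E] (a : E) : Prop :=
  ∀ (𝓗 : Type) [NormedAddCommGroup 𝓗] [InnerProductSpace ℂ 𝓗] [CompleteSpace 𝓗]
    (σ : E →* (𝓗 →L[ℂ] 𝓗)), URep σ → ∀ e : ℝ, 0 < e →
    ∃ (p : ℕ) (_ : 0 < p) (l : Fin p → E), (∀ i, Commute (l i) a) ∧
      ∀ v : 𝓗, (∀ η ∈ fixedSub σ, ⟪η, v⟫_ℂ = 0) → ‖((p : ℂ))⁻¹ • ∑ i, σ (l i) v‖ ≤ e * ‖v‖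

theorem LeviGap.inv {E : Type} [Group E] [TopologicalSpace E] {a : E} (h : LeviGap a) :
    LeviGap a⁻¹ := by
  intro 𝓗 _ _ _ σ hσ e he
  obtain ⟨p, hp, l, hl, hl'⟩ := h 𝓗 σ hσ e he
  exact ⟨p, hp, l, fun i => (hl i).inv_right, hl'⟩

theorem LeviGap.conj {E : Type} [Group E] [TopologicalSpace E] {a : E} (h : LeviGap a) (g : E) :
    LeviGap (g * a * g⁻¹) := by
  intro 𝓗 _ _ _ σ hσ e he
  obtain ⟨p, hp, l, hl, hl'⟩ := h 𝓗 σ hσ e he
  refine ⟨p, hp, fun i => g * l i * g⁻¹, fun i => ?_, fun v hv => ?_⟩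
  · have h1 : l i * a = a * l i := hl i
    show g * l i * g⁻¹ * (g * a * g⁻¹) = g * a * g⁻¹ * (g * l i * g⁻¹)
    have e1 : g * l i * g⁻¹ * (g * a * g⁻¹) = g * (l i * a) * g⁻¹ := by group
    have e2 : g * a * g⁻¹ * (g * l i * g⁻¹) = g * (a * l i) * g⁻¹ := by group
    rw [e1, e2, h1]
  · have h2 := hl' (σ g⁻¹ v) (fun η hη => by
      rw [hσ.inner_right, hη]
      exact hv η hη)
    rw [hσ.iso] at h2
    refine le_trans (le_of_eq ?_) h2
    have e1 : ((p : ℂ))⁻¹ • ∑ i, σ (g * l i * g⁻¹) v =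
        σ g (((p : ℂ))⁻¹ • ∑ i, σ (l i) (σ g⁻¹ v)) := by
      rw [map_smul, map_sum]
      simp only [URep.mul_apply]
    rw [e1, hσ.iso]

/-- the gap for the elements of `SL_N(ℝ)` commuting with the two shears in a `2 × 2` block -/
theorem leviGap_real {N : ℕ} {i j l : Fin N} (hij : i ≠ j) (hil : i ≠ l) (hjl : j ≠ l)
    {a : Matrix.SpecialLinearGroup (Fin N) ℝ}
    (h1 : Commute (Matrix.SpecialLinearGroup.transvection hjl.symm (-3 : ℝ)) a)
    (h2 : Commute (Matrix.SpecialLinearGroup.transvection hjl (-3 : ℝ)) a) : LeviGap a := by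
  intro 𝓗 _ _ _ σ hσ e he
  obtain ⟨p, hp, w, hw, hw'⟩ := hσ.gl_gap hij hil hjl he
  refine ⟨p, hp, w, fun i => ?_, fun v hv => by
    have h4 := hw' v hv
    rw [← Complex.coe_smul] at h4
    push_cast at h4
    exact h4⟩
  have h3 : Subgroup.closure ({Matrix.SpecialLinearGroup.transvection hjl.symm (-3 : ℝ),
      Matrix.SpecialLinearGroup.transvection hjl (-3 : ℝ)} :
      Set (Matrix.SpecialLinearGroup (Fin N) ℝ)) ≤ Subgroup.centralizer {a} := by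
    rw [Subgroup.closure_le]
    rintro g (rfl | rfl)
    · exact Subgroup.mem_centralizer_singleton_iff.2 h1
    · exact Subgroup.mem_centralizer_singleton_iff.2 h2
  exact Subgroup.mem_centralizer_singleton_iff.1 (h3 (hw i))

section gen

variable {X : Type} [MeasurableSpace X] {Γ K : Type} [Group Γ] [NormedAddCommGroup K]
  [InnerProductSpace ℂ K] [CompleteSpace K] {ν : Measure X} [IsProbabilityMeasure ν]
  {ρ : Γ →* (K →L[ℂ] K)} {ω : K}

theorem bfd_dense (h : RegRep ρ ω) [Countable Γ] :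
    Dense (Submodule.span ℂ {η | ∃ g B, MeasurableSet B ∧ η = bfd ν ρ ω g B} :
      Set (Lp K 2 ν)) := by
  rw [Submodule.dense_iff_topologicalClosure_eq_top, Submodule.topologicalClosure_eq_top_iff,
    Submodule.eq_bot_iff]
  intro ξ hξ
  refine bfd_total h fun g B hB => ?_
  exact (Submodule.mem_orthogonal _ _).1 hξ _ (Submodule.subset_span ⟨g, B, hB, rfl⟩)

/-- pointwise limits of bounded sequences which converge on a total set -/
theorem exists_lim {H : Type*} [NormedAddCommGroup H] [InnerProductSpace ℂ H] [CompleteSpace H]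
    {x : ℕ → H →L[ℂ] H} {C : ℝ} (hC : ∀ n, ‖x n‖ ≤ C) {S : Set H}
    (hS : Dense (Submodule.span ℂ S : Set H))
    (hx : ∀ η ∈ S, ∃ l, Tendsto (fun n => x n η) atTop (𝓝 l)) :
    ∃ y : H →L[ℂ] H, ‖y‖ ≤ C ∧ ∀ η, Tendsto (fun n => x n η) atTop (𝓝 (y η)) := by
  have hC0 : 0 ≤ C := (norm_nonneg _).trans (hC 0)
  have hspan : ∀ η ∈ Submodule.span ℂ S, ∃ l, Tendsto (fun n => x n η) atTop (𝓝 l) := by
    intro η hη
    induction hη using Submodule.span_induction with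
    | mem η hη => exact hx η hη
    | zero => exact ⟨0, by simp⟩
    | add a b _ _ ha hb =>
      obtain ⟨l, hl⟩ := ha
      obtain ⟨l', hl'⟩ := hb
      exact ⟨l + l', by simpa using hl.add hl'⟩
    | smul c a _ ha =>
      obtain ⟨l, hl⟩ := ha
      exact ⟨c • l, by simpa using hl.const_smul c⟩
  have hall : ∀ η, ∃ l, Tendsto (fun n => x n η) atTop (𝓝 l) := by
    intro η
    refine cauchySeq_tendsto_of_complete ?_
    rw [Metric.cauchySeq_iff']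
    intro ε hε
    have hd : 0 < ε / (4 * (C + 1)) := by positivity
    obtain ⟨η', hη', hdist⟩ := Metric.mem_closure_iff.1 (hS η) _ hd
    obtain ⟨l, hl⟩ := hspan η' hη'
    obtain ⟨N, hN⟩ := Metric.cauchySeq_iff'.1 hl.cauchySeq (ε / 4) (by positivity)
    refine ⟨N, fun n hn => ?_⟩
    have h1 : ∀ m, ‖x m η - x m η'‖ ≤ ε / 4 := by
      intro m
      rw [← map_sub]
      refine ((x m).le_opNorm _).trans ?_
      rw [dist_eq_norm] at hdist
      calc ‖x m‖ * ‖η - η'‖ ≤ (C + 1) * (ε / (4 * (C + 1))) := by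
            have := hC m
            gcongr
            linarith
        _ = ε / 4 := by field_simp
    have h2 := hN n hn
    rw [dist_eq_norm] at h2 ⊢
    have h3 : x n η - x N η = (x n η - x n η') + (x n η' - x N η') - (x N η - x N η') := by abel
    rw [h3]
    have h4 := norm_sub_le ((x n η - x n η') + (x n η' - x N η')) (x N η - x N η')
    have h5 := norm_add_le (x n η - x n η') (x n η' - x N η')
    have h6 := h1 n
    have h7 := h1 N
    linarith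
  choose f hf using hall
  let y := ContinuousLinearMap.ofTendstoOfBoundedRange f x (tendsto_pi_nhds.2 hf) (by
    rw [isBounded_iff_forall_norm_le]
    exact ⟨C, by rintro _ ⟨n, rfl⟩; exact hC n⟩)
  refine ⟨y, ?_, fun η => hf η⟩
  refine ContinuousLinearMap.opNorm_le_bound _ hC0 fun η => ?_
  refine le_of_tendsto (hf η).norm (Eventually.of_forall fun n => ?_)
  exact (x n).le_of_opNorm_le (hC n) η

end gen

section inst

variable {E : Type} [Group E] [TopologicalSpace E] [IsTopologicalGroup E] [LocallyCompactSpace E]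
  [SecondCountableTopology E] [T2Space E] [MeasurableSpace E] [BorelSpace E]
  {Λ : Subgroup E} [DiscreteTopology Λ] [MeasurableSpace (E ⧸ Λ)] [BorelSpace (E ⧸ Λ)]
  {ν : Measure (E ⧸ Λ)} [IsProbabilityMeasure ν] (hν : ∀ g : E, ν.map (fun x => g • x) = ν)
  {Γ K : Type} [Group Γ] [NormedAddCommGroup K] [InnerProductSpace ℂ K] [CompleteSpace K]
  {ρ : Γ →* (K →L[ℂ] K)} {ω : K} [Countable Λ] [Countable Γ]

omit [TopologicalSpace E] [IsTopologicalGroup E] [LocallyCompactSpace E]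
  [SecondCountableTopology E] [T2Space E] [MeasurableSpace E] [BorelSpace E]
  [DiscreteTopology Λ] [BorelSpace (E ⧸ Λ)] [Countable Λ] in
theorem FinM.ap_bfd (h : RegRep ρ ω) {T : Lp K 2 ν →L[ℂ] Lp K 2 ν} (hT : T ∈ FinM ν h.adj) (g : Γ)
    {B : Set (E ⧸ Λ)} (hB : MeasurableSet B) : T (bfd ν ρ ω g B) =
      H790.ind ν K B ((ρ g).compLpL 2 ν (T (Lp.const 2 ν ω))) :=
  (Tw.mk hT.2 (fun B hB => hT.1 B hB) measurable_id measurable_id (fun _ => rfl)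
    (fun _ => rfl) : Tw ρ (fun x => x) (fun x => x) T).bfd g hB

theorem FinM.ext (h : RegRep ρ ω) {S T : Lp K 2 ν →L[ℂ] Lp K 2 ν} (hS : S ∈ FinM ν h.adj)
    (hT : T ∈ FinM ν h.adj) (he : S (Lp.const 2 ν ω) = T (Lp.const 2 ν ω)) : S = T := by
  refine ContinuousLinearMap.ext_on (bfd_dense (ν := ν) h) ?_
  rintro _ ⟨g, B, hB, rfl⟩
  rw [FinM.ap_bfd h hS g hB, FinM.ap_bfd h hT g hB, he]

/-- norm limits of bounded sequences of vectors of the finite algebra -/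
theorem FinM.lim (h : RegRep ρ ω) {x : ℕ → Lp K 2 ν →L[ℂ] Lp K 2 ν}
    (hx : ∀ n, x n ∈ FinM ν h.adj) {C : ℝ} (hC : ∀ n, ‖x n‖ ≤ C) {ζ : Lp K 2 ν}
    (hζ : Tendsto (fun n => x n (Lp.const 2 ν ω)) atTop (𝓝 ζ)) :
    ∃ y ∈ FinM ν h.adj, ‖y‖ ≤ C ∧ y (Lp.const 2 ν ω) = ζ := by
  obtain ⟨y, hy1, hy2⟩ := exists_lim hC (bfd_dense (ν := ν) h) (by
    rintro _ ⟨g, B, hB, rfl⟩
    refine ⟨H790.ind ν K B ((ρ g).compLpL 2 ν ζ), ?_⟩
    have e : ∀ n, x n (bfd ν ρ ω g B) =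
        (H790.ind ν K B * (ρ g).compLpL 2 ν) (x n (Lp.const 2 ν ω)) := fun n =>
      FinM.ap_bfd h (hx n) g hB
    simp only [e]
    exact ((H790.ind ν K B * (ρ g).compLpL 2 ν).continuous.tendsto ζ).comp hζ)
  refine ⟨y, ⟨fun A hA => ?_, fun s => ?_⟩, hy1, tendsto_nhds_unique (hy2 _) hζ⟩
  · refine ContinuousLinearMap.ext fun η => tendsto_nhds_unique (hy2 (H790.ind ν K A η)) ?_
    have e : ∀ n, x n (H790.ind ν K A η) = H790.ind ν K A (x n η) := fun n =>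
      congrArg (fun S : Lp K 2 ν →L[ℂ] Lp K 2 ν => S η) ((hx n).1 A hA)
    simp only [e]
    exact ((H790.ind ν K A).continuous.tendsto _).comp (hy2 η)
  · refine ContinuousLinearMap.ext fun η => tendsto_nhds_unique (hy2 ((ρ s).compLpL 2 ν η)) ?_
    have e : ∀ n, x n ((ρ s).compLpL 2 ν η) = (ρ s).compLpL 2 ν (x n η) := fun n =>
      congrArg (fun S : Lp K 2 ν →L[ℂ] Lp K 2 ν => S η) ((hx n).2 s)
    simp only [e]
    exact (((ρ s).compLpL 2 ν).continuous.tendsto _).comp (hy2 η)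

variable {V : Λ →* (K →L[ℂ] K)} (hVa : ∀ v, adjoint (V v) = V v⁻¹)

/-- The conjugation representation of `E` on `L²(E ⧸ Λ; K)`. -/
noncomputable def sg (h : RegRep ρ ω) (hc : ∀ v, Cmm ρ (V v)) :
    E →* (Lp K 2 ν →L[ℂ] Lp K 2 ν) :=
  irep hν (π := cjr h V hc) (fun v => cjr_adj h hVa hc v)

theorem sg_urep (h : RegRep ρ ω) (hc : ∀ v, Cmm ρ (V v)) : URep (sg hν hVa h hc) :=
  { iso := fun g ξ => Vale.Agent.P092.H885.u_norm
      (irep_crep hν (π := cjr h V hc) (fun v => cjr_adj h hVa hc v)).adj g ξ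
    cont := fun ξ => (irep_crep hν (π := cjr h V hc) (fun v => cjr_adj h hVa hc v)).cont ξ }

theorem sg_apply (h : RegRep ρ ω) (hc : ∀ v, Cmm ρ (V v)) (q : E)
    {T : Lp K 2 ν →L[ℂ] Lp K 2 ν} (hT : T ∈ FinM ν h.adj) :
    sg hν hVa h hc q (T (Lp.const 2 ν ω)) =
      (irep hν hVa q * T * irep hν hVa q⁻¹) (Lp.const 2 ν ω) := by
  have hja : ∀ v, adjoint (cjr h V hc v) = cjr h V hc v⁻¹ := fun v => cjr_adj h hVa hc v
  have c1 : ∀ {T : Lp K 2 ν →L[ℂ] Lp K 2 ν}, T ∈ FinM ν h.adj → ∀ v : Λ,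
      T * (H132.jop h (V v)).compLpL 2 ν = (H132.jop h (V v)).compLpL 2 ν * T := by
    intro T hT v
    refine H132.comm_of_slices (𝒮 := Set.range ρ) ?_ fun Y hY => ?_
    · rintro _ ⟨s, rfl⟩
      exact hT.2 s
    · exact (H132.jop_comm h (hc v) fun g => hY _ ⟨g, rfl⟩).symm
  have hjb : ∀ v : Λ, ‖H132.jop h (V v)‖ ≤ 1 := by
    intro v
    refine ContinuousLinearMap.opNorm_le_bound _ zero_le_one fun x => ?_
    rw [H132.jop_apply, H132.norm_jj, Vale.Agent.P092.H885.u_norm hVa, H132.norm_jj, one_mul]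
  have hkm : ∀ v : Λ, MeasurableSet {x : E ⧸ Λ | coc Λ q (q⁻¹ • x) = v} := by
    intro v
    exact (smul_meas Λ q⁻¹) (coc_meas Λ q v)
  obtain ⟨S, hS⟩ : ∃ S : Lp K 2 ν →L[ℂ] Lp K 2 ν,
      Fld S fun x => H132.jop h (V (coc Λ q (q⁻¹ • x))) := by
    refine ⟨_, fop_spec (C := 1) (fun y => ?_) fun x => hjb _⟩
    exact aesm_countable (F := fun v _ => H132.jop h (V v) y)
      (k := fun x : E ⧸ Λ => coc Λ q (q⁻¹ • x)) hkm fun v => aestronglyMeasurable_const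
  have h1 : ∀ {T : Lp K 2 ν →L[ℂ] Lp K 2 ν}, T ∈ FinM ν h.adj → T * S = S * T :=
    fun hT => (show Dcp _ from hT.1).fld hkm (c1 hT) hS
  have h2 : ∀ ξ : Lp K 2 ν, iro hν (cjr h V hc) q ξ = S (iro hν V q ξ) := by
    intro ξ
    refine Lp.ext ?_
    filter_upwards [iro_ae hν hja q ξ, hS (iro hν V q ξ), iro_ae hν hVa q ξ] with x a1 a2 a3
    rw [a1, a2, a3, cjr_apply']
    rfl
  have h3 : iro hν (cjr h V hc) q (Lp.const 2 ν ω) = Lp.const 2 ν ω := by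
    refine Lp.ext ?_
    filter_upwards [iro_ae hν hja q (Lp.const 2 ν ω), const_ae (ν := ν) (ω := ω),
      ae_comp (mpres hν q⁻¹) (const_ae (ν := ν) (ω := ω))] with x a1 a2 a3
    rw [a1, a2, a3, cjr_omega h hVa hc]
  set y := irep hν hVa q * T * irep hν hVa q⁻¹ with hy
  have hym : y ∈ FinM ν h.adj := conj_mem hν hVa h hc q hT
  have hyq : irep hν hVa q (T (Lp.const 2 ν ω)) = y (irep hν hVa q (Lp.const 2 ν ω)) := by
    have e1 : irep hν hVa q⁻¹ (irep hν hVa q (Lp.const 2 ν ω)) = Lp.const 2 ν ω := by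
      have : (irep hν hVa q⁻¹ * irep hν hVa q) (Lp.const 2 ν ω) = Lp.const 2 ν ω := by
        rw [← map_mul, inv_mul_cancel, map_one]; rfl
      exact this
    rw [hy]
    change _ = irep hν hVa q (T (irep hν hVa q⁻¹ (irep hν hVa q (Lp.const 2 ν ω))))
    rw [e1]
  have e2 : y (S (irep hν hVa q (Lp.const 2 ν ω))) = S (y (irep hν hVa q (Lp.const 2 ν ω))) :=
    congrArg (fun X : Lp K 2 ν →L[ℂ] Lp K 2 ν => X (irep hν hVa q (Lp.const 2 ν ω))) (h1 hym)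
  calc sg hν hVa h hc q (T (Lp.const 2 ν ω))
      = S (irep hν hVa q (T (Lp.const 2 ν ω))) := h2 _
    _ = S (y (irep hν hVa q (Lp.const 2 ν ω))) := by rw [hyq]
    _ = y (S (irep hν hVa q (Lp.const 2 ν ω))) := e2.symm
    _ = y (iro hν (cjr h V hc) q (Lp.const 2 ν ω)) := by rw [h2]; rfl
    _ = y (Lp.const 2 ν ω) := by rw [h3]

theorem norm_irep_le (q : E) : ‖irep hν hVa q‖ ≤ 1 :=
  ContinuousLinearMap.opNorm_le_bound _ zero_le_one fun ξ => by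
    rw [Vale.Agent.P092.H885.u_norm (irep_crep hν hVa).adj, one_mul]

theorem norm_conj_le (q : E) (T : Lp K 2 ν →L[ℂ] Lp K 2 ν) :
    ‖irep hν hVa q * T * irep hν hVa q⁻¹‖ ≤ ‖T‖ := by
  calc ‖irep hν hVa q * T * irep hν hVa q⁻¹‖
      ≤ ‖irep hν hVa q‖ * ‖T‖ * ‖irep hν hVa q⁻¹‖ :=
        (norm_mul_le _ _).trans (by gcongr; exact norm_mul_le _ _)
    _ ≤ 1 * ‖T‖ * 1 := by
        gcongr
        · exact norm_irep_le hν hVa q
        · exact norm_irep_le hν hVa q⁻¹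
    _ = ‖T‖ := by ring

include hVa in
/-- The vectors `x Ω - τ(x) Ω` are orthogonal to the fixed vectors. -/
theorem sg_orth (h : RegRep ρ ω) (hc : ∀ v, Cmm ρ (V v))
    (hirr : ∀ A : K →L[ℂ] K, Cmm ρ A → Cmm V A → ∃ c : ℂ, A = c • 1)
    {u : E} (hu : MooreSet E {u}) {x : Lp K 2 ν →L[ℂ] Lp K 2 ν} (hx : x ∈ FinM ν h.adj)
    {η : Lp K 2 ν} (hη : η ∈ fixedSub (sg hν hVa h hc)) :
    ⟪η, x (Lp.const 2 ν ω) - ⟪Lp.const 2 ν ω, x (Lp.const 2 ν ω)⟫_ℂ • Lp.const 2 ν ω⟫_ℂ = 0 := by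
  have hU := sg_urep hν hVa h hc
  obtain ⟨Ω, hΩ⟩ : ∃ Ω : Lp K 2 ν, Ω = Lp.const 2 ν ω := ⟨_, rfl⟩
  obtain ⟨f, hf⟩ : ∃ f : Lp K 2 ν →L[ℂ] Lp K 2 ν, f = sg hν hVa h hc u := ⟨_, rfl⟩
  have hf1 : ‖f‖ ≤ 1 := ContinuousLinearMap.opNorm_le_bound _ zero_le_one fun ξ => by
    rw [hf, hU.iso, one_mul]
  have hpow : ∀ k ξ, f^[k] ξ = sg hν hVa h hc (u ^ k) ξ := by
    intro k
    induction k with
    | zero => intro ξ; rw [pow_zero, URep.one_apply]; rfl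
    | succ k ih =>
      intro ξ
      rw [Function.iterate_succ_apply, ih, pow_succ, URep.mul_apply, hf]
  -- the means
  let y : ℕ → Lp K 2 ν →L[ℂ] Lp K 2 ν := fun n =>
    (n : ℂ)⁻¹ • ∑ k ∈ Finset.range n, irep hν hVa (u ^ k) * x * irep hν hVa (u ^ k)⁻¹
  have hym : ∀ n, y n ∈ FinM ν h.adj := fun n =>
    (FinM ν h.adj).smul_mem (sum_mem fun k _ => conj_mem hν hVa h hc _ hx) _
  have hyn : ∀ n, ‖y n‖ ≤ ‖x‖ := by
    intro n
    show ‖(n : ℂ)⁻¹ • ∑ k ∈ Finset.range n, irep hν hVa (u ^ k) * x * irep hν hVa (u ^ k)⁻¹‖ ≤ _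
    rw [norm_smul]
    rcases Nat.eq_zero_or_pos n with rfl | hn
    · simp
    · have h1 : ‖∑ k ∈ Finset.range n, irep hν hVa (u ^ k) * x * irep hν hVa (u ^ k)⁻¹‖ ≤
          n * ‖x‖ := by
        refine (norm_sum_le _ _).trans ?_
        refine (Finset.sum_le_sum fun k _ => norm_conj_le hν hVa (u ^ k) x).trans ?_
        rw [Finset.sum_const, Finset.card_range, nsmul_eq_mul]
      have h2 : ‖(n : ℂ)⁻¹‖ = (n : ℝ)⁻¹ := by rw [norm_inv, Complex.norm_natCast]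
      rw [h2]
      have hn' : (0 : ℝ) < n := by exact_mod_cast hn
      calc (n : ℝ)⁻¹ * _ ≤ (n : ℝ)⁻¹ * (n * ‖x‖) := by gcongr
        _ = ‖x‖ := by field_simp
  have hyb : ∀ n, y n Ω = birkhoffAverage ℂ f _root_.id n (x Ω) := by
    intro n
    rw [birkhoffAverage, birkhoffSum]
    show ((n : ℂ)⁻¹ • ∑ k ∈ Finset.range n, irep hν hVa (u ^ k) * x * irep hν hVa (u ^ k)⁻¹) Ω = _
    rw [smul_apply, sum_apply]
    congr 1
    refine Finset.sum_congr rfl fun k _ => ?_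
    show _ = f^[k] (x Ω)
    rw [hpow, hΩ, sg_apply hν hVa h hc _ hx]
  have hme := ContinuousLinearMap.tendsto_birkhoffAverage_orthogonalProjection f hf1 (x Ω)
  simp only [← hyb] at hme
  obtain ⟨P, hP⟩ : ∃ P : Submodule ℂ (Lp K 2 ν), P = f.eqLocus (1 : Lp K 2 ν →L[ℂ] Lp K 2 ν) :=
    ⟨_, rfl⟩
  haveI : P.HasOrthogonalProjection := by rw [hP]; infer_instance
  obtain ⟨ζ, hζ⟩ : ∃ ζ : Lp K 2 ν,
    ζ = ((f.eqLocus (1 : Lp K 2 ν →L[ℂ] Lp K 2 ν)).orthogonalProjectionOnto (x Ω) : Lp K 2 ν) :=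
    ⟨_, rfl⟩
  rw [← hζ] at hme
  have hζf : f ζ = ζ := by
    rw [hζ]
    exact ((f.eqLocus (1 : Lp K 2 ν →L[ℂ] Lp K 2 ν)).orthogonalProjectionOnto (x Ω)).2
  have hζall : ∀ g, sg hν hVa h hc g ζ = ζ := hu (Lp K 2 ν) _ hU ζ (by
    rintro q rfl
    rw [← hf]
    exact hζf)
  have horth : ∀ w, f w = w → ⟪w, x Ω - ζ⟫_ℂ = 0 := by
    intro w hw
    have h1 := Submodule.inner_orthogonalProjectionOnto_eq_of_mem_left
      (K := f.eqLocus (1 : Lp K 2 ν →L[ℂ] Lp K 2 ν)) ⟨w, hw⟩ (x Ω)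
    rw [inner_sub_right, hζ, sub_eq_zero]
    exact h1.symm
  rw [hΩ] at hme
  obtain ⟨z, hz, -, hzΩ⟩ := FinM.lim h hym hyn hme
  have hzc : ∀ g, irep hν hVa g * z * irep hν hVa g⁻¹ = z := by
    intro g
    refine FinM.ext h (conj_mem hν hVa h hc g hz) hz ?_
    rw [← sg_apply hν hVa h hc g hz, hzΩ, hζall g]
  obtain ⟨c, hc'⟩ := a1 hν h hVa hc hirr (R := {u}) hu (T := z) hz.1 hz.2 (by
    intro q _
    have h1 := hzc q
    have h2 : irep hν hVa q⁻¹ * irep hν hVa q = 1 := by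
      rw [← map_mul, inv_mul_cancel, map_one]
    have h3 : z * irep hν hVa q = irep hν hVa q * z := by
      calc z * irep hν hVa q = irep hν hVa q * z * irep hν hVa q⁻¹ * irep hν hVa q := by rw [h1]
        _ = _ := by rw [mul_assoc, h2, mul_one]
    exact h3)
  have hfix : ∀ g, sg hν hVa h hc g Ω = Ω := by
    intro g
    have h1 := sg_apply hν hVa h hc g (T := 1) (one_mem _)
    rw [mul_one, ← map_mul, mul_inv_cancel, map_one] at h1
    rw [hΩ]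
    exact h1
  have hzc' : ζ = c • Ω := by
    rw [← hzΩ, hc', hΩ]
    rfl
  have hΩf : f Ω = Ω := by rw [hf]; exact hfix u
  have hcval : c = ⟪Ω, x Ω⟫_ℂ := by
    have h1 := horth Ω hΩf
    rw [inner_sub_right, hzc', inner_smul_right, inner_self_eq_norm_sq_to_K, hΩ, norm_const h]
      at h1
    simp only [RCLike.ofReal_one, one_pow, mul_one] at h1
    rw [hΩ]
    exact (sub_eq_zero.1 h1).symm
  rw [← hΩ, ← hcval, ← hzc']
  refine horth η ?_
  rw [hf]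
  exact hη u

include hVa in
/-- **[D-GL-IND] (C)**: the gap hypothesis of `H221.Gr.GrD.growth`. -/
theorem gap_fin (h : RegRep ρ ω) (hc : ∀ v, Cmm ρ (V v))
    (hirr : ∀ A : K →L[ℂ] K, Cmm ρ A → Cmm V A → ∃ c : ℂ, A = c • 1)
    {u : E} (hu : MooreSet E {u}) {a : E} (ha : LeviGap a) (η : ℝ) (hη : 0 < η) :
    ∃ p : ℕ, 0 < p ∧ ∃ l : Fin p → E, (∀ i, Commute (l i) a) ∧
      ∀ x ∈ FinM ν h.adj, ‖x‖ ≤ 1 →
        ‖(((p : ℂ)⁻¹) • ∑ i, irep hν hVa (l i) * x * irep hν hVa (l i)⁻¹) (Lp.const 2 ν ω) -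
          ⟪Lp.const 2 ν ω, x (Lp.const 2 ν ω)⟫_ℂ • Lp.const 2 ν ω‖ ≤ η := by
  have hU := sg_urep hν hVa h hc
  obtain ⟨p, hp, l, hl, hl'⟩ := ha (Lp K 2 ν) (sg hν hVa h hc) hU (η / 2) (by positivity)
  refine ⟨p, hp, l, hl, fun x hx hx1 => ?_⟩
  obtain ⟨Ω, hΩ⟩ : ∃ Ω : Lp K 2 ν, Ω = Lp.const 2 ν ω := ⟨_, rfl⟩
  have h1 := hl' (x Ω - ⟪Ω, x Ω⟫_ℂ • Ω) (fun w hw => by
    rw [hΩ]
    exact sg_orth hν hVa h hc hirr hu hx hw)
  have hΩ1 : ‖Ω‖ = 1 := by rw [hΩ]; exact norm_const h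
  have hxΩ : ‖x Ω‖ ≤ 1 := by
    refine (x.le_opNorm _).trans ?_
    rw [hΩ1, mul_one]; exact hx1
  have h2 : ‖x Ω - ⟪Ω, x Ω⟫_ℂ • Ω‖ ≤ 2 := by
    refine (norm_sub_le _ _).trans ?_
    rw [norm_smul, hΩ1, mul_one]
    have h3 : ‖⟪Ω, x Ω⟫_ℂ‖ ≤ 1 := by
      refine (norm_inner_le_norm _ _).trans ?_
      rw [hΩ1, one_mul]; exact hxΩ
    linarith
  have hfix : ∀ g, sg hν hVa h hc g Ω = Ω := by
    intro g
    have h1 := sg_apply hν hVa h hc g (T := 1) (one_mem _)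
    rw [mul_one, ← map_mul, mul_inv_cancel, map_one] at h1
    rw [hΩ]
    exact h1
  have e : ((p : ℂ))⁻¹ • ∑ i, sg hν hVa h hc (l i) (x Ω - ⟪Ω, x Ω⟫_ℂ • Ω) =
      (((p : ℂ)⁻¹) • ∑ i, irep hν hVa (l i) * x * irep hν hVa (l i)⁻¹) Ω - ⟪Ω, x Ω⟫_ℂ • Ω := by
    rw [smul_apply, sum_apply]
    have e1 : ∀ i, sg hν hVa h hc (l i) (x Ω - ⟪Ω, x Ω⟫_ℂ • Ω) =
        (irep hν hVa (l i) * x * irep hν hVa (l i)⁻¹) Ω - ⟪Ω, x Ω⟫_ℂ • Ω := by
      intro i
      rw [map_sub, map_smul, hfix, hΩ, sg_apply hν hVa h hc _ hx]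
    simp only [e1]
    rw [Finset.sum_sub_distrib, Finset.sum_const, Finset.card_univ, Fintype.card_fin, smul_sub]
    congr 1
    have hp' : (p : ℂ) ≠ 0 := by exact_mod_cast hp.ne'
    rw [← Nat.cast_smul_eq_nsmul ℂ, smul_smul, inv_mul_cancel₀ hp', one_smul]
  rw [e] at h1
  rw [← hΩ]
  refine h1.trans ?_
  calc η / 2 * ‖x Ω - ⟪Ω, x Ω⟫_ℂ • Ω‖ ≤ η / 2 * 2 := by gcongr
    _ = η := by ring

end inst

end Vale.Agent.P092.H933
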