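import Vale.Agent.P092.H933.GLFin
import Vale.Agent.P092.H843.Gap3
import Vale.Agent.P092.H252.UGap

/-!
P092 (helper933), [D-GL] for `SL_N(k)`, `N ≥ 3`, `k` any local field: the gap of the `2 × 2` blocks,
the vectors fixed by one unbounded element, and the hypotheses of `growth_ind`.
-/

set_option linter.all false

open scoped InnerProductSpace ENNReal
open Set Filter Topology MeasureTheory ContinuousLinearMap Matrix Matrix.SpecialLinearGroup

namespace Vale.Agent.P092.H933

section blk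

variable {N : ℕ} {k : Type} [NontriviallyNormedField k]

/-- the block `SL_2` at the places `j, l` -/
def blk {j l : Fin N} (hjl : j ≠ l) : Subgroup (SpecialLinearGroup (Fin N) k) :=
  Subgroup.closure ({g | ∃ t : k, g = transvection hjl t} ∪
    {g | ∃ t : k, g = transvection hjl.symm t})

/-- finite averages of elements of the block contract the complement of the fixed vectors,
uniformly in the representation -/
def BGap (k : Type) [NontriviallyNormedField k] {j l : Fin N} (hjl : j ≠ l) : Prop :=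
  ∀ e : ℝ, 0 < e → ∃ (p : ℕ) (_ : 0 < p) (w : Fin p → SpecialLinearGroup (Fin N) k),
    (∀ a, w a ∈ blk hjl) ∧
    ∀ (𝓗 : Type) [NormedAddCommGroup 𝓗] [InnerProductSpace ℂ 𝓗] [CompleteSpace 𝓗]
      (σ : SpecialLinearGroup (Fin N) k →* (𝓗 →L[ℂ] 𝓗)), URep σ →
      ∀ v : 𝓗, (∀ η ∈ fixedSub σ, ⟪η, v⟫_ℂ = 0) →
        ‖((p : ℂ))⁻¹ • ∑ a, σ (w a) v‖ ≤ e * ‖v‖

theorem bgap_ultra (hk : IsUltrametricDist k) {i j l : Fin N} (hij : i ≠ j) (hil : i ≠ l)
    (hjl : j ≠ l) : BGap k hjl := by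
  intro e he
  obtain ⟨p, hp, w, hw, hw'⟩ := H252.gl_gap_ultra.{0} hk hij hil hjl he
  refine ⟨p, hp, w, hw, ?_⟩
  intro 𝓗 _ _ _ σ hσ v hv
  have h4 := hw' 𝓗 σ hσ v hv
  rw [← Complex.coe_smul] at h4
  push_cast at h4
  exact h4

theorem continuous_slmap {𝕜 : Type} [NontriviallyNormedField 𝕜] (ψ : 𝕜 →+* k)
    (hψ : Continuous ψ) : Continuous (SpecialLinearGroup.map (n := Fin N) ψ) := by
  refine Continuous.subtype_mk ?_ _
  refine continuous_matrix fun i j => ?_
  show Continuous fun x : SpecialLinearGroup (Fin N) 𝕜 => ψ (x.1 i j)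
  exact hψ.comp ((continuous_apply_apply i j).comp continuous_subtype_val)

theorem slmap_trans {𝕜 : Type} [NontriviallyNormedField 𝕜] (ψ : 𝕜 →+* k) {i j : Fin N}
    (hij : i ≠ j) (t : 𝕜) : SpecialLinearGroup.map ψ (transvection hij t) =
      transvection hij (ψ t) := by
  refine Subtype.ext ?_
  ext a b
  show ψ ((transvection hij t : SpecialLinearGroup (Fin N) 𝕜).1 a b) = _
  rw [transvection_coe]
  show ψ ((1 + Matrix.single i j t) a b) =
    (transvection hij (ψ t) : SpecialLinearGroup (Fin N) k).1 a b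
  rw [transvection_coe]
  simp only [Matrix.add_apply, Matrix.one_apply, Matrix.single_apply]
  split_ifs <;> simp

theorem bgap_iso {𝕜 : Type} [RCLike 𝕜] (φ : k ≃+* 𝕜) (hφ : ∀ x, ‖φ x‖ = ‖x‖) {i j l : Fin N}
    (hij : i ≠ j) (hil : i ≠ l) (hjl : j ≠ l) : BGap k hjl := by
  obtain ⟨ψ, hψ⟩ : ∃ ψ : 𝕜 →+* k, ψ = (φ.symm : 𝕜 →+* k) := ⟨_, rfl⟩
  have hψn : ∀ x, ‖ψ x‖ = ‖x‖ := by
    intro x
    rw [hψ]
    show ‖φ.symm x‖ = ‖x‖
    rw [← hφ, RingEquiv.apply_symm_apply]
  have hψc : Continuous ψ := by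
    refine (AddMonoidHomClass.isometry_of_norm (ψ : 𝕜 →+* k) hψn).continuous
  intro e he
  obtain ⟨p, hp, L, hL, hL'⟩ := H843.levi_gap (𝕜 := 𝕜) hjl hij.symm hil.symm he
  refine ⟨p, hp, fun r => SpecialLinearGroup.map ψ (L r), fun r => ?_, ?_⟩
  · have h1 : Subgroup.closure {transvection hjl (3 : 𝕜), transvection hjl.symm (3 : 𝕜)} ≤
        (blk (k := k) hjl).comap (SpecialLinearGroup.map (n := Fin N) ψ) := by
      rw [Subgroup.closure_le]
      rintro g (rfl | rfl)
      · show SpecialLinearGroup.map ψ _ ∈ blk hjl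
        rw [slmap_trans]
        exact Subgroup.subset_closure (Or.inl ⟨_, rfl⟩)
      · show SpecialLinearGroup.map ψ _ ∈ blk hjl
        rw [slmap_trans]
        exact Subgroup.subset_closure (Or.inr ⟨_, rfl⟩)
    exact h1 (hL r)
  · intro 𝓗 _ _ _ σ hσ v hv
    have hc : URep (σ.comp (SpecialLinearGroup.map (n := Fin N) ψ)) :=
      hσ.comp _ (continuous_slmap ψ hψc).continuousAt
    refine hL' (σ.comp (SpecialLinearGroup.map (n := Fin N) ψ)) ⟨hc.iso, hc.cont⟩ v
      fun w hw => hv w fun g => ?_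
    have h2 := hw (SpecialLinearGroup.map (φ : k →+* 𝕜) g)
    have h3 : SpecialLinearGroup.map ψ (SpecialLinearGroup.map (φ : k →+* 𝕜) g) = g := by
      refine Subtype.ext ?_
      ext a b
      show ψ (φ (g.1 a b)) = g.1 a b
      rw [hψ]
      exact φ.symm_apply_apply _
    rw [← h3]
    exact h2

/-- **The gap of the blocks, every local field.** -/
theorem bgap_all (hk : LocK k) {i j l : Fin N} (hij : i ≠ j) (hil : i ≠ l) (hjl : j ≠ l) :
    BGap k hjl := by
  rcases hk with ⟨φ, h⟩ | ⟨φ, h⟩ | h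
  · exact bgap_iso φ h hij hil hjl
  · exact bgap_iso φ h hij hil hjl
  · exact bgap_ultra h hij hil hjl

/-- the gap for the elements of `SL_N(k)` commuting with a `2 × 2` block -/
theorem leviGap_all (hk : LocK k) {i j l : Fin N} (hij : i ≠ j) (hil : i ≠ l) (hjl : j ≠ l)
    {a : SpecialLinearGroup (Fin N) k} (h1 : ∀ t : k, Commute (transvection hjl t) a)
    (h2 : ∀ t : k, Commute (transvection hjl.symm t) a) : LeviGap a := by
  intro 𝓗 _ _ _ σ hσ e he
  obtain ⟨p, hp, w, hw, hw'⟩ := bgap_all hk hij hil hjl e he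
  refine ⟨p, hp, w, fun i => ?_, hw' 𝓗 σ hσ⟩
  have h3 : blk (k := k) hjl ≤ Subgroup.centralizer {a} := by
    unfold blk
    rw [Subgroup.closure_le]
    rintro g (⟨t, rfl⟩ | ⟨t, rfl⟩)
    · exact Subgroup.mem_centralizer_singleton_iff.2 (h1 t)
    · exact Subgroup.mem_centralizer_singleton_iff.2 (h2 t)
  exact Subgroup.mem_centralizer_singleton_iff.1 (h3 (hw i))

/-- a diagonal matrix with two equal entries commutes with the block -/
theorem comm_trans_diag {j l : Fin N} (hjl : j ≠ l) {a : SpecialLinearGroup (Fin N) k}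
    {d : Fin N → k} (ha : a.1 = Matrix.diagonal d) (hd : d j = d l) (t : k) :
    Commute (transvection hjl t) a := by
  refine Subtype.ext ?_
  change (1 + Matrix.single j l t) * a.1 = a.1 * (1 + Matrix.single j l t)
  rw [ha, mul_add, add_mul, mul_one, one_mul]
  congr 1
  ext x y
  rw [Matrix.diagonal_mul, Matrix.mul_diagonal, Matrix.single_apply]
  split_ifs with h1
  · obtain ⟨rfl, rfl⟩ := h1
    rw [hd, mul_comm]
  · simp

/-- **Walls**: a diagonal matrix of size `N ≥ 3` with two equal entries has the gap. -/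
theorem leviGap_diag (hk : LocK k) (hN : 3 ≤ N) {j l : Fin N} (hjl : j ≠ l)
    {a : SpecialLinearGroup (Fin N) k} {d : Fin N → k} (ha : a.1 = Matrix.diagonal d)
    (hd : d j = d l) : LeviGap a := by
  obtain ⟨i, hij, hil⟩ : ∃ i : Fin N, i ≠ j ∧ i ≠ l := by
    by_contra hcon
    push Not at hcon
    have h1 : (Finset.univ : Finset (Fin N)) ⊆ {j, l} := by
      intro i _
      rcases eq_or_ne i j with h | h
      · simp [h]
      · simp [hcon i h]
    have h2 := (Finset.card_le_card h1).trans Finset.card_le_two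
    rw [Finset.card_univ, Fintype.card_fin] at h2
    omega
  exact leviGap_all hk hij hil hjl (comm_trans_diag hjl ha hd)
    (comm_trans_diag hjl.symm ha hd.symm)

end blk

section moore

variable {N : ℕ} {k : Type} [NontriviallyNormedField k] [ProperSpace k]

/-- a vector fixed by an element whose powers tend to infinity is fixed -/
theorem URep.fixed_of_pow {𝓗 : Type} [NormedAddCommGroup 𝓗] [InnerProductSpace ℂ 𝓗]
    [CompleteSpace 𝓗] {σ : SpecialLinearGroup (Fin N) k →* (𝓗 →L[ℂ] 𝓗)} (hk : LocK k)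
    (hσ : URep σ) (hN : 2 ≤ N) {u : SpecialLinearGroup (Fin N) k}
    (hu : Tendsto (fun n : ℕ => u ^ n) atTop (cocompact _)) {η : 𝓗} (h : σ u η = η) :
    η ∈ fixedSub σ := by
  have h1 : ∀ n : ℕ, σ (u ^ n) η = η := by
    intro n
    induction n with
    | zero => rw [pow_zero, URep.one_apply]
    | succ n ih => rw [pow_succ, URep.mul_apply, h]; exact ih
  have h2 := HM.tendsto_proj hk hN hσ hu (tendsto_const_nhds (x := η))
    (tendsto_const_nhds (x := η))
  have h3 : ⟪(fixedSub σ).starProjection η, η⟫_ℂ = ⟪η, η⟫_ℂ := by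
    refine tendsto_nhds_unique h2 (tendsto_const_nhds.congr fun n => ?_)
    rw [h1 n]
  have h4 : ⟪η - (fixedSub σ).starProjection η, η⟫_ℂ = 0 := by
    rw [inner_sub_left, h3, sub_self]
  have h5 : ⟪η - (fixedSub σ).starProjection η, (fixedSub σ).starProjection η⟫_ℂ = 0 :=
    Submodule.starProjection_inner_eq_zero η _ (Submodule.starProjection_apply_mem _ _)
  have h6 : ⟪η - (fixedSub σ).starProjection η, η - (fixedSub σ).starProjection η⟫_ℂ = 0 := by
    rw [inner_sub_right, h4, h5, sub_zero]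
  have h7 := sub_eq_zero.1 (inner_self_eq_zero.1 h6)
  rw [h7]
  exact Submodule.starProjection_apply_mem _ _

/-- the powers of a diagonal matrix with an entry of norm `> 1` tend to infinity -/
theorem tendsto_pow_diag {a : SpecialLinearGroup (Fin N) k} {d : Fin N → k}
    (ha : a.1 = Matrix.diagonal d) {i : Fin N} (hi : 1 < ‖d i‖) :
    Tendsto (fun n : ℕ => a ^ n) atTop (cocompact _) := by
  have hc : Continuous fun g : SpecialLinearGroup (Fin N) k => g.1 i i :=
    (continuous_apply_apply i i).comp continuous_subtype_val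
  refine Tendsto.mono_right (tendsto_comap_iff.2 ?_) (Filter.comap_cocompact_le hc)
  have h1 : ((fun g : SpecialLinearGroup (Fin N) k => g.1 i i) ∘ fun n : ℕ => a ^ n) =
      fun n : ℕ => d i ^ n := by
    funext n
    show (a ^ n).1 i i = d i ^ n
    have h2 : (a ^ n).1 = a.1 ^ n := by
      exact Matrix.SpecialLinearGroup.coe_pow a n
    rw [h2, ha, Matrix.diagonal_pow, Matrix.diagonal_apply_eq]
    rfl
  rw [h1]
  rw [← Metric.cobounded_eq_cocompact, ← tendsto_norm_atTop_iff_cobounded]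
  simp only [norm_pow]
  exact tendsto_pow_atTop_atTop_of_one_lt hi

theorem mooreSet_diag (hk : LocK k) (hN : 2 ≤ N) {a : SpecialLinearGroup (Fin N) k}
    {d : Fin N → k} (ha : a.1 = Matrix.diagonal d) {i : Fin N} (hi : 1 < ‖d i‖) :
    H103.MooreSet (SpecialLinearGroup (Fin N) k) {a} := by
  intro 𝓗 _ _ _ σ hσ ξ hξ
  exact hσ.fixed_of_pow hk hN (tendsto_pow_diag ha hi) (hξ _ rfl)

theorem exists_mooreSet (hk : LocK k) (hN : 2 ≤ N) :
    ∃ u : SpecialLinearGroup (Fin N) k, H103.MooreSet (SpecialLinearGroup (Fin N) k) {u} := by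
  obtain ⟨c, hc⟩ := NormedField.exists_one_lt_norm k
  have hc0 : c ≠ 0 := by
    intro h; rw [h, norm_zero] at hc; linarith
  obtain ⟨i, j, hij⟩ : ∃ i j : Fin N, i ≠ j := ⟨⟨0, by omega⟩, ⟨1, by omega⟩, by simp⟩
  refine ⟨diag2n hij c hc0, mooreSet_diag hk hN (a := diag2n hij c hc0)
    (d := fun x => if x = i then c else if x = j then c⁻¹ else 1)
    (diag2n_coe hij c hc0) (i := i) (by simpa using hc)⟩

end moore

section sd

variable {k : Type} [NontriviallyNormedField k]

theorem leviGap_bw_all (hk : LocK k) (w : kˣ) : LeviGap (SD.bw w) :=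
  leviGap_diag hk (N := 3) le_rfl (j := 1) (l := 2) (by decide) (a := SD.bw w)
    (d := ![((w⁻¹ : kˣ) : k) ^ 2, (w : k), (w : k)]) rfl rfl

end sd

section growth

variable {N : ℕ} {k : Type} [NontriviallyNormedField k] [ProperSpace k]
  [LocallyCompactSpace (SpecialLinearGroup (Fin N) k)]
  [SecondCountableTopology (SpecialLinearGroup (Fin N) k)]
  [MeasurableSpace (SpecialLinearGroup (Fin N) k)] [BorelSpace (SpecialLinearGroup (Fin N) k)]
  {Λ : Subgroup (SpecialLinearGroup (Fin N) k)}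
  [DiscreteTopology Λ] [MeasurableSpace (SpecialLinearGroup (Fin N) k ⧸ Λ)]
  [BorelSpace (SpecialLinearGroup (Fin N) k ⧸ Λ)]
  {ν : Measure (SpecialLinearGroup (Fin N) k ⧸ Λ)} [IsProbabilityMeasure ν]
  (hν : ∀ g : SpecialLinearGroup (Fin N) k, ν.map (fun x => g • x) = ν)
  {Γ K : Type} [Group Γ] [NormedAddCommGroup K] [InnerProductSpace ℂ K] [CompleteSpace K]
  {ρ : Γ →* (K →L[ℂ] K)} {ω : K} [Countable Λ] [Countable Γ]
  {V : Λ →* (K →L[ℂ] K)} (hVa : ∀ v, adjoint (V v) = V v⁻¹)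

open Vale.Agent.P092.H790 Vale.Agent.P092.H85 Vale.Agent.P092.H160 Vale.Agent.P092.H103

include hVa in
/-- **The growth theorem for `SL_N(k)`**, `N ≥ 2`, `k` a local field: if `a` is an element with
`LeviGap a` (for `N ≥ 3`: every conjugate of a diagonal element with two equal entries,
`leviGap_diag`, `LeviGap.conj`), then `π (a ^ n) Ω` has size at most `C * n ^ 3` up to `ε`. -/
theorem growth_slN (hk : LocK k) (hN : 2 ≤ N) (h : RegRep ρ ω) (hc : ∀ v, Cmm ρ (V v))
    (hirr : ∀ A : K →L[ℂ] K, Cmm ρ A → Cmm V A → ∃ c : ℂ, A = c • 1)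
    {a : SpecialLinearGroup (Fin N) k} (ha : LeviGap a) {D : ℕ → Set Γ} (hD : Flt D)
    {ε : ℝ} (hε : 0 < ε) : ∃ C : ℕ, ∀ n : ℕ, 1 ≤ n → ∃ v ∈ SzV ν ρ ω (D (C * n ^ 3)),
      ‖iro hν V (a ^ n) (Lp.const 2 ν ω) - v‖ ≤ ε := by
  obtain ⟨u, hu⟩ := exists_mooreSet (k := k) hk hN
  exact growth_ind hν hVa h hc hirr hu ha hD hε

end growth

end Vale.Agent.P092.H933
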