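import Vale.Agent.P092.H933.HM2
import Mathlib.Analysis.InnerProductSpace.Dual
import Mathlib.Analysis.InnerProductSpace.Projection.Basic

/-!
P092 (helper933), [HM3]: Howe–Moore for `SL_N(k)`, `k` a local field.
-/

set_option linter.all false

namespace Vale.Agent.P092.H933

open Matrix Matrix.SpecialLinearGroup Filter Topology

open scoped InnerProductSpace

section wlim

variable {ι : Type*} {𝓗 : Type*} [NormedAddCommGroup 𝓗] [InnerProductSpace ℂ 𝓗]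

/-- Weak limits along ultrafilters. -/
theorem exists_wlim [CompleteSpace 𝓗] (U : Ultrafilter ι) (x : ι → 𝓗) {C : ℝ}
    (hx : ∀ i, ‖x i‖ ≤ C) :
    ∃ ζ : 𝓗, ∀ η, Tendsto (fun i => ⟪x i, η⟫_ℂ) U (𝓝 ⟪ζ, η⟫_ℂ) := by
  have h1 : ∀ η : 𝓗, ∃ c : ℂ, ‖c‖ ≤ C * ‖η‖ ∧ Tendsto (fun i => ⟪x i, η⟫_ℂ) U (𝓝 c) := by
    intro η
    have hK : IsCompact (Metric.closedBall (0 : ℂ) (C * ‖η‖)) := isCompact_closedBall _ _
    have hm : ((U.map fun i => ⟪x i, η⟫_ℂ : Ultrafilter ℂ) : Filter ℂ) ≤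
        𝓟 (Metric.closedBall (0 : ℂ) (C * ‖η‖)) :=
      Filter.tendsto_principal.2 (Filter.Eventually.of_forall fun i =>
        mem_closedBall_zero_iff.2 ((norm_inner_le_norm _ _).trans
          (mul_le_mul_of_nonneg_right (hx i) (norm_nonneg _))))
    obtain ⟨c, hc, hcl⟩ := hK.ultrafilter_le_nhds _ hm
    exact ⟨c, mem_closedBall_zero_iff.1 hc, hcl⟩
  choose L hL hLt using h1
  have hadd : ∀ a b, L (a + b) = L a + L b := fun a b => by
    refine tendsto_nhds_unique (hLt (a + b)) ?_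
    have := (hLt a).add (hLt b)
    simpa only [inner_add_right] using this
  have hsmul : ∀ (c : ℂ) a, L (c • a) = c * L a := fun c a => by
    refine tendsto_nhds_unique (hLt (c • a)) ?_
    have := (hLt a).const_mul c
    simpa only [inner_smul_right] using this
  let Λ : 𝓗 →ₗ[ℂ] ℂ := { toFun := L, map_add' := hadd, map_smul' := hsmul }
  let Λc : StrongDual ℂ 𝓗 := Λ.mkContinuous C hL
  refine ⟨(InnerProductSpace.toDual ℂ 𝓗).symm Λc, fun η => ?_⟩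
  rw [InnerProductSpace.toDual_symm_apply]
  exact hLt η

theorem wlim_perturb {l : Filter ι} {A A' B : ι → 𝓗} {B₀ : 𝓗} {C : ℝ} {c : ℂ}
    (hA : Tendsto (fun i => A i - A' i) l (𝓝 0)) (hA' : ∀ i, ‖A' i‖ ≤ C)
    (hB : Tendsto B l (𝓝 B₀)) (h : Tendsto (fun i => ⟪A' i, B₀⟫_ℂ) l (𝓝 c)) :
    Tendsto (fun i => ⟪A i, B i⟫_ℂ) l (𝓝 c) := by
  have e : ∀ i, ⟪A i, B i⟫_ℂ = ⟪A i - A' i, B i⟫_ℂ + ⟪A' i, B i - B₀⟫_ℂ + ⟪A' i, B₀⟫_ℂ := by
    intro i
    rw [inner_sub_left, inner_sub_right]; ring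
  have h1 : Tendsto (fun i => ⟪A i - A' i, B i⟫_ℂ) l (𝓝 0) := by
    have := hA.inner (𝕜 := ℂ) hB
    rwa [inner_zero_left] at this
  have h2 : Tendsto (fun i => ⟪A' i, B i - B₀⟫_ℂ) l (𝓝 0) := by
    have h3 : Tendsto (fun i => C * ‖B i - B₀‖) l (𝓝 0) := by
      have := (tendsto_iff_norm_sub_tendsto_zero.1 hB).const_mul C
      rwa [mul_zero] at this
    refine squeeze_zero_norm (fun i => ?_) h3
    exact (norm_inner_le_norm _ _).trans (mul_le_mul_of_nonneg_right (hA' i) (norm_nonneg _))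
  have h3 := (h1.add h2).add h
  rw [add_zero, zero_add] at h3
  simpa only [e] using h3

end wlim

/-- An isometric, strongly continuous representation. -/
structure URep {G : Type*} [Group G] [TopologicalSpace G] {𝓗 : Type*} [NormedAddCommGroup 𝓗]
    [InnerProductSpace ℂ 𝓗] (σ : G →* (𝓗 →L[ℂ] 𝓗)) : Prop where
  iso : ∀ g ξ, ‖σ g ξ‖ = ‖ξ‖
  cont : ∀ ξ, Tendsto (fun g => σ g ξ) (𝓝 1) (𝓝 ξ)

namespace URep

variable {G : Type*} [Group G] [TopologicalSpace G] {𝓗 : Type*} [NormedAddCommGroup 𝓗]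
  [InnerProductSpace ℂ 𝓗] {σ : G →* (𝓗 →L[ℂ] 𝓗)}

theorem inner_map (h : URep σ) (g : G) (x y : 𝓗) : ⟪σ g x, σ g y⟫_ℂ = ⟪x, y⟫_ℂ := by
  let f : 𝓗 →ₗᵢ[ℂ] 𝓗 := ⟨(σ g).toLinearMap, h.iso g⟩
  exact f.inner_map_map x y

theorem mul_apply (g g' : G) (x : 𝓗) : σ (g * g') x = σ g (σ g' x) := by
  rw [map_mul]; rfl

theorem one_apply (x : 𝓗) : σ 1 x = x := by
  rw [map_one]; rfl

theorem conj_apply (g e : G) (w : 𝓗) : σ g (σ (g⁻¹ * e * g) w) = σ e (σ g w) := by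
  rw [← mul_apply, ← mul_apply]
  congr 2
  group

theorem inner_left (h : URep σ) (g : G) (x y : 𝓗) : ⟪σ g x, y⟫_ℂ = ⟪x, σ g⁻¹ y⟫_ℂ := by
  have e : y = σ g (σ g⁻¹ y) := by rw [← mul_apply, mul_inv_cancel, one_apply]
  conv_lhs => rw [e]
  exact h.inner_map g _ _

theorem inner_right (h : URep σ) (g : G) (x y : 𝓗) : ⟪x, σ g y⟫_ℂ = ⟪σ g⁻¹ x, y⟫_ℂ := by
  rw [h.inner_left, inv_inv]

theorem len (h : URep σ) (x : 𝓗) : Len (fun g => ‖σ g x - x‖) := by
  have h1 := Len.ofAction (G := G) (X := 𝓗) (fun g x => σ g x) (fun g g' x => mul_apply g g' x) x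
    (one_apply x) (fun g x y => by
      rw [dist_eq_norm, dist_eq_norm, ← map_sub, h.iso]) (h.cont x)
  simpa only [dist_eq_norm] using h1

theorem comp {G' : Type*} [Group G'] [TopologicalSpace G'] (h : URep σ) (φ : G' →* G)
    (hφ : ContinuousAt φ 1) : URep (σ.comp φ) where
  iso g ξ := h.iso _ _
  cont ξ := by
    have : Tendsto φ (𝓝 1) (𝓝 1) := by simpa [ContinuousAt] using hφ
    exact (h.cont ξ).comp this

variable [IsTopologicalGroup G]

theorem tendsto (h : URep σ) {ι : Type*} {l : Filter ι} {g : ι → G} {g₀ : G} {x : ι → 𝓗} {x₀ : 𝓗}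
    (hg : Tendsto g l (𝓝 g₀)) (hx : Tendsto x l (𝓝 x₀)) :
    Tendsto (fun i => σ (g i) (x i)) l (𝓝 (σ g₀ x₀)) := by
  rw [tendsto_iff_norm_sub_tendsto_zero]
  have h1 : Tendsto (fun i => g₀⁻¹ * g i) l (𝓝 1) := by
    have := hg.const_mul g₀⁻¹
    rwa [inv_mul_cancel] at this
  have h2 : Tendsto (fun i => ‖σ (g₀⁻¹ * g i) x₀ - x₀‖) l (𝓝 0) :=
    tendsto_iff_norm_sub_tendsto_zero.1 ((h.cont x₀).comp h1)
  have h3 : Tendsto (fun i => ‖x i - x₀‖ + ‖σ (g₀⁻¹ * g i) x₀ - x₀‖) l (𝓝 0) := by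
    have := (tendsto_iff_norm_sub_tendsto_zero.1 hx).add h2
    rwa [add_zero] at this
  refine squeeze_zero (fun _ => norm_nonneg _) (fun i => ?_) h3
  have e1 : σ (g i) (x i) - σ g₀ x₀ = σ (g i) (x i - x₀) + σ g₀ (σ (g₀⁻¹ * g i) x₀ - x₀) := by
    rw [map_sub, map_sub, ← mul_apply g₀, mul_inv_cancel_left]; abel
  rw [e1]
  refine (norm_add_le _ _).trans ?_
  rw [h.iso, h.iso]

end URep

section SL

variable {N : ℕ} {k : Type} [NontriviallyNormedField k]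

theorem conj_root {D : SpecialLinearGroup (Fin N) k} {b : Fin N → k} (hD : D.1 = diagonal b)
    {p q : Fin N} (hpq : p ≠ q) (t : k) :
    D⁻¹ * transvection hpq t * D = transvection hpq ((b p)⁻¹ * t * b q) := by
  have hb : b p ≠ 0 := by
    intro h0
    have h1 := D.2
    rw [hD, det_diagonal, Finset.prod_eq_zero (Finset.mem_univ p) h0] at h1
    exact zero_ne_one h1
  rw [mul_assoc, inv_mul_eq_iff_eq_mul]
  refine Subtype.ext ?_
  rw [Matrix.SpecialLinearGroup.coe_mul, Matrix.SpecialLinearGroup.coe_mul]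
  show (transvection hpq t : SpecialLinearGroup (Fin N) k).1 * D.1 =
    D.1 * (transvection hpq (_ : k) : SpecialLinearGroup (Fin N) k).1
  rw [transvection_coe, transvection_coe, hD]
  rw [Matrix.mul_add, Matrix.add_mul, Matrix.mul_one, Matrix.one_mul]
  congr 1
  ext x y
  rw [Matrix.diagonal_mul, Matrix.mul_diagonal]
  simp only [Matrix.single_apply]
  by_cases h : p = x ∧ q = y
  · obtain ⟨rfl, rfl⟩ := h
    simp only [and_self, if_true]
    rw [mul_assoc, mul_inv_cancel_left₀ hb]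
  · simp [h]

theorem norm_last_le {b : Fin N → k} (hN : 2 ≤ N) {D : SpecialLinearGroup (Fin N) k}
    (hD : D.1 = diagonal b) (hb : Antitone fun i => ‖b i‖) : ‖b ⟨N - 1, by omega⟩‖ ≤ 1 := by
  have h1 := D.2
  rw [hD, det_diagonal] at h1
  have h2 : ∏ i, ‖b i‖ = 1 := by rw [← norm_prod, h1, norm_one]
  have h3 : ∏ _i : Fin N, ‖b ⟨N - 1, by omega⟩‖ ≤ ∏ i, ‖b i‖ :=
    Finset.prod_le_prod (fun _ _ => norm_nonneg _) fun i _ => hb (by
      rw [Fin.le_def]; show i.1 ≤ N - 1; omega)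
  rw [h2, Finset.prod_const, Finset.card_univ, Fintype.card_fin] at h3
  by_contra hc
  push Not at hc
  exact absurd h3 (not_le.2 (one_lt_pow₀ hc (by omega)))

theorem entry_kak {u D v : SpecialLinearGroup (Fin N) k} {b : Fin N → k} (hN : 2 ≤ N)
    (hu : ∀ i j, ‖u.1 i j‖ ≤ 1) (hv : ∀ i j, ‖v.1 i j‖ ≤ 1) (hD : D.1 = diagonal b)
    (hb : Antitone fun i => ‖b i‖) (i j : Fin N) :
    ‖(u * D * v).1 i j‖ ≤ N * ‖b ⟨0, by omega⟩‖ := by
  rw [Matrix.SpecialLinearGroup.coe_mul, Matrix.SpecialLinearGroup.coe_mul]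
  show ‖(u.1 * D.1 * v.1) i j‖ ≤ _
  rw [hD, Matrix.mul_apply]
  refine (norm_sum_le _ _).trans ?_
  have h1 : ∀ r ∈ (Finset.univ : Finset (Fin N)), ‖(u.1 * diagonal b) i r * v.1 r j‖ ≤
      ‖b ⟨0, by omega⟩‖ := by
    intro r _
    rw [Matrix.mul_diagonal, norm_mul, norm_mul]
    have h2 : ‖b r‖ ≤ ‖b ⟨0, by omega⟩‖ := hb (by rw [Fin.le_def]; exact Nat.zero_le _)
    calc ‖u.1 i r‖ * ‖b r‖ * ‖v.1 r j‖ ≤ 1 * ‖b r‖ * 1 := by
          gcongr
          · exact hu i r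
          · exact hv r j
      _ ≤ _ := by rw [one_mul, mul_one]; exact h2
  refine (Finset.sum_le_sum h1).trans ?_
  rw [Finset.sum_const, Finset.card_univ, Fintype.card_fin, nsmul_eq_mul]

variable {𝓗 : Type*} [NormedAddCommGroup 𝓗] [InnerProductSpace ℂ 𝓗] [CompleteSpace 𝓗]
  {σ : SpecialLinearGroup (Fin N) k →* (𝓗 →L[ℂ] 𝓗)}

/-- **Howe–Moore, core form**: along an ultrafilter, weak limits of `σ (b i) (x i)` are fixed by
`SL_N(k)` when `b i → ∞` and `x i` converges in norm. -/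
theorem HM.fixed [ProperSpace k] (hk : LocK k) (hN : 2 ≤ N) (hσ : URep σ) {ι : Type*}
    (U : Ultrafilter ι) {b : ι → SpecialLinearGroup (Fin N) k} (hb : Tendsto b U (cocompact _))
    {x : ι → 𝓗} {ξ : 𝓗} (hx : Tendsto x U (𝓝 ξ)) {ζ : 𝓗}
    (hζ : ∀ η, Tendsto (fun i => ⟪σ (b i) (x i), η⟫_ℂ) U (𝓝 ⟪ζ, η⟫_ℂ)) (s) : σ s ζ = ζ := by
  choose u D v d hu hv hD hanti hg using fun i => exists_kak hk (by omega : 0 < N) (b i)
  obtain ⟨u₀, -, hu₀⟩ := (isCompact_bdd (N := N) (k := k) 1).ultrafilter_le_nhds (U.map u)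
    (Filter.tendsto_principal.2 (Filter.Eventually.of_forall fun i => hu i))
  obtain ⟨v₀, -, hv₀⟩ := (isCompact_bdd (N := N) (k := k) 1).ultrafilter_le_nhds (U.map v)
    (Filter.tendsto_principal.2 (Filter.Eventually.of_forall fun i => hv i))
  have hu₀ : Tendsto u U (𝓝 u₀) := hu₀
  have hv₀ : Tendsto v U (𝓝 v₀) := hv₀
  have hx' : Tendsto (fun i => σ (v i) (x i)) U (𝓝 (σ v₀ ξ)) := hσ.tendsto hv₀ hx
  obtain ⟨ζ', hζ'⟩ := exists_wlim U (fun i => σ (D i) (σ v₀ ξ)) (C := ‖ξ‖)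
    (fun i => by rw [hσ.iso, hσ.iso])
  -- the first diagonal entry tends to infinity
  have hlast : ∀ i, ‖d i ⟨N - 1, by omega⟩‖ ≤ 1 := fun i => norm_last_le hN (hD i) (hanti i)
  have hinf : Tendsto (fun i => ‖d i ⟨0, by omega⟩‖) U atTop := by
    rw [tendsto_atTop]
    intro R
    by_contra hcon
    have h1 : ∀ᶠ i in (U : Filter ι), ¬ R ≤ ‖d i ⟨0, by omega⟩‖ :=
      Ultrafilter.eventually_not.2 hcon
    have h2 : ∀ᶠ i in (U : Filter ι), b i ∉ {g : SpecialLinearGroup (Fin N) k |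
        ∀ p q, ‖g.1 p q‖ ≤ N * R} :=
      hb (isCompact_bdd (N * R)).compl_mem_cocompact
    obtain ⟨i, hi1, hi2⟩ := (h1.and h2).exists
    refine hi2 fun p q => ?_
    rw [hg i]
    refine (entry_kak hN (hu i) (hv i) (hD i) (hanti i) p q).trans ?_
    exact mul_le_mul_of_nonneg_left (not_le.1 hi1).le (Nat.cast_nonneg _)
  have hpq : (⟨0, by omega⟩ : Fin N) ≠ ⟨N - 1, by omega⟩ := by
    intro h; have := congrArg Fin.val h; simp only at this; omega
  -- `ζ'` is fixed by the highest root group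
  have hroot : ∀ t : k, σ (transvection hpq t) ζ' = ζ' := by
    intro t
    have ht : Tendsto (fun i => (d i ⟨0, by omega⟩)⁻¹ * t * d i ⟨N - 1, by omega⟩) U (𝓝 0) := by
      have h1 : Tendsto (fun i => ‖d i ⟨0, by omega⟩‖⁻¹ * ‖t‖) U (𝓝 0) := by
        have := (tendsto_inv_atTop_zero.comp hinf).mul_const ‖t‖
        rwa [zero_mul] at this
      refine squeeze_zero_norm (fun i => ?_) h1
      rw [norm_mul, norm_mul, norm_inv]
      calc ‖d i ⟨0, by omega⟩‖⁻¹ * ‖t‖ * ‖d i ⟨N - 1, by omega⟩‖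
          ≤ ‖d i ⟨0, by omega⟩‖⁻¹ * ‖t‖ * 1 := by
            exact mul_le_mul_of_nonneg_left (hlast i) (by positivity)
        _ = _ := mul_one _
    have h1 : Tendsto (fun i => σ ((D i)⁻¹ * transvection hpq t * D i) (σ v₀ ξ)) U
        (𝓝 (σ v₀ ξ)) := by
      have h2 := hσ.tendsto (tendsto_transvection hpq ht) (tendsto_const_nhds (x := σ v₀ ξ))
      rw [URep.one_apply] at h2
      refine h2.congr fun i => ?_
      rw [conj_root (hD i)]
    refine ext_inner_right ℂ fun η => ?_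
    rw [hσ.inner_left]
    have h3 := hζ' (σ (transvection hpq t)⁻¹ η)
    have h4 : Tendsto (fun i => ⟪σ (D i) (σ ((D i)⁻¹ * transvection hpq t * D i) (σ v₀ ξ)), η⟫_ℂ)
        U (𝓝 ⟪ζ', η⟫_ℂ) := by
      refine wlim_perturb (A' := fun i => σ (D i) (σ v₀ ξ)) (C := ‖ξ‖) ?_
        (fun i => by rw [hσ.iso, hσ.iso]) (tendsto_const_nhds (x := η)) (hζ' η)
      rw [tendsto_zero_iff_norm_tendsto_zero]
      have h5 := tendsto_iff_norm_sub_tendsto_zero.1 h1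
      refine h5.congr fun i => ?_
      rw [← map_sub, hσ.iso]
    refine tendsto_nhds_unique h3 (h4.congr fun i => ?_)
    rw [← hσ.inner_left, URep.conj_apply]
  have hker := (hσ.len ζ').eq_top hpq (fun t => by
    rw [Len.mem_ker, hroot t, sub_self, norm_zero])
  have hfix : ∀ s, σ s ζ' = ζ' := by
    intro s
    have : s ∈ (hσ.len ζ').ker := by rw [hker]; trivial
    rw [Len.mem_ker] at this
    exact sub_eq_zero.1 (norm_eq_zero.1 this)
  have heq : ζ = ζ' := by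
    refine ext_inner_right ℂ fun η => ?_
    have h1 : Tendsto (fun i => ⟪σ (D i) (σ (v i) (x i)), σ (u i)⁻¹ η⟫_ℂ) U
        (𝓝 ⟪ζ', σ u₀⁻¹ η⟫_ℂ) := by
      refine wlim_perturb (A' := fun i => σ (D i) (σ v₀ ξ)) (C := ‖ξ‖) ?_
        (fun i => by rw [hσ.iso, hσ.iso]) (hσ.tendsto hu₀.inv tendsto_const_nhds) (hζ' _)
      rw [tendsto_zero_iff_norm_tendsto_zero]
      have h5 := tendsto_iff_norm_sub_tendsto_zero.1 hx'
      refine h5.congr fun i => ?_
      rw [← map_sub, hσ.iso]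
    rw [← hσ.inner_left, hfix] at h1
    refine tendsto_nhds_unique (hζ η) (h1.congr fun i => ?_)
    rw [← hσ.inner_left, ← URep.mul_apply, ← URep.mul_apply, ← hg i]
  rw [heq]; exact hfix s

/-- **Howe–Moore for `SL_N(k)`** (uniform on norm-compact sets of vectors). -/
theorem HM.tendsto_zero [ProperSpace k] (hk : LocK k) (hN : 2 ≤ N) (hσ : URep σ)
    (hfix : ∀ ξ, (∀ s, σ s ξ = ξ) → ξ = 0) {ι : Type*}
    {l : Filter ι} {b : ι → SpecialLinearGroup (Fin N) k} (hb : Tendsto b l (cocompact _))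
    {x y : ι → 𝓗} {K K' : Set 𝓗} (hK : IsCompact K) (hK' : IsCompact K')
    (hx : ∀ᶠ i in l, x i ∈ K) (hy : ∀ᶠ i in l, y i ∈ K') :
    Tendsto (fun i => ⟪σ (b i) (x i), y i⟫_ℂ) l (𝓝 0) := by
  rw [tendsto_iff_ultrafilter]
  intro U hU
  obtain ⟨x₀, -, hx₀⟩ := hK.ultrafilter_le_nhds (U.map x)
    (Filter.tendsto_principal.2 (hU hx))
  obtain ⟨y₀, -, hy₀⟩ := hK'.ultrafilter_le_nhds (U.map y)
    (Filter.tendsto_principal.2 (hU hy))
  have hx₀ : Tendsto x U (𝓝 x₀) := hx₀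
  have hy₀ : Tendsto y U (𝓝 y₀) := hy₀
  obtain ⟨ζ, hζ⟩ := exists_wlim U (fun i => σ (b i) x₀) (C := ‖x₀‖)
    (fun i => by rw [hσ.iso])
  have hz : ζ = 0 := hfix ζ fun s => HM.fixed hk hN hσ U (hb.mono_left hU)
    (tendsto_const_nhds (x := x₀)) hζ s
  refine wlim_perturb (A' := fun i => σ (b i) x₀) (C := ‖x₀‖) (B₀ := y₀) ?_
    (fun i => by rw [hσ.iso]) hy₀ ?_
  · rw [tendsto_zero_iff_norm_tendsto_zero]
    have h5 := tendsto_iff_norm_sub_tendsto_zero.1 hx₀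
    refine h5.congr fun i => ?_
    rw [← map_sub, hσ.iso]
  · have := hζ y₀
    rwa [hz, inner_zero_left] at this

/-- **Howe–Moore for `SL_N(k)`**. -/
theorem HM.main [ProperSpace k] (hk : LocK k) (hN : 2 ≤ N) (hσ : URep σ)
    (hfix : ∀ ξ, (∀ s, σ s ξ = ξ) → ξ = 0) (ξ η : 𝓗) :
    Tendsto (fun g => ⟪σ g ξ, η⟫_ℂ) (cocompact (SpecialLinearGroup (Fin N) k)) (𝓝 0) :=
  HM.tendsto_zero hk hN hσ hfix tendsto_id (isCompact_singleton (x := ξ))
    (isCompact_singleton (x := η)) (Eventually.of_forall fun _ => rfl)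
    (Eventually.of_forall fun _ => rfl)

end SL

end Vale.Agent.P092.H933
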