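import Vale.Agent.P092.H933.Cplx

/-!
P092 (helper933): the singular value decomposition of a complex matrix, and of its realification.
-/

set_option linter.all false

namespace Vale.Agent.P092.H933

open Matrix
open scoped ComplexOrder
open Vale.Agent.P092.H944 (IsSVD isSVD sv la hs kA sv_le_of_kap left_kap orth_mul_tr)

/-- Complex singular value decomposition. -/
structure IsSVDC {n : ℕ} (g U : Matrix (Fin n) (Fin n) ℂ) (a : Fin n → ℝ)
    (V : Matrix (Fin n) (Fin n) ℂ) : Prop where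
  o1 : Uᴴ * U = 1
  o1' : U * Uᴴ = 1
  o2 : Vᴴ * V = 1
  o2' : V * Vᴴ = 1
  pos : ∀ i, 0 < a i
  anti : Antitone a
  eq : g = U * diagonal (fun i => (a i : ℂ)) * V

theorem exists_svdC {n : ℕ} (g : Matrix (Fin n) (Fin n) ℂ) (hg : g.det ≠ 0) :
    ∃ U a V, IsSVDC g U a V := by
  have hu : IsUnit g.det := isUnit_iff_ne_zero.mpr hg
  have hpd : (g * gᴴ).PosDef := by
    exact Matrix.PosDef.mul_conjTranspose_self g (by
      intro v w hvw
      have h1 : (v ᵥ* g) ᵥ* g⁻¹ = (w ᵥ* g) ᵥ* g⁻¹ := by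
        have : v ᵥ* g = w ᵥ* g := hvw
        rw [this]
      simpa [vecMul_vecMul, mul_nonsing_inv g hu] using h1)
  have hA := hpd.1
  obtain ⟨V, hV⟩ : ∃ V : Matrix (Fin n) (Fin n) ℂ, V = hA.eigenvectorUnitary := ⟨_, rfl⟩
  have hV1 : Vᴴ * V = 1 := by
    have := Unitary.coe_star_mul_self hA.eigenvectorUnitary
    rw [hV]
    simpa [star_eq_conjTranspose] using this
  have hD : Vᴴ * (g * gᴴ) * V = diagonal (fun i => (hA.eigenvalues i : ℂ)) := by
    have := hA.conjStarAlgAut_star_eigenvectorUnitary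
    rw [Unitary.conjStarAlgAut_star_apply] at this
    rw [hV]
    have e : (RCLike.ofReal ∘ hA.eigenvalues : Fin n → ℂ) = fun i => (hA.eigenvalues i : ℂ) := by
      funext i; rfl
    rw [e] at this
    simpa [star_eq_conjTranspose] using this
  obtain ⟨σ, hσ⟩ : ∃ σ : Equiv.Perm (Fin n), σ = Tuple.sort (fun i => - hA.eigenvalues i) :=
    ⟨_, rfl⟩
  have hmono : Monotone ((fun i => - hA.eigenvalues i) ∘ σ) := by
    rw [hσ]; exact Tuple.monotone_sort _
  have hpos : ∀ i, 0 < hA.eigenvalues i := fun i => hpd.eigenvalues_pos i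
  obtain ⟨k1, hk1⟩ : ∃ k1 : Matrix (Fin n) (Fin n) ℂ, k1 = V.submatrix id σ := ⟨_, rfl⟩
  have hsub : ∀ X : Matrix (Fin n) (Fin n) ℂ, k1ᴴ * X * k1 = (Vᴴ * X * V).submatrix σ σ := by
    intro X
    rw [hk1]
    ext i j
    simp [Matrix.mul_apply, submatrix_apply, conjTranspose_apply]
  have o1 : k1ᴴ * k1 = 1 := by
    have := hsub 1
    rw [Matrix.mul_one, Matrix.mul_one, hV1] at this
    rw [this]
    exact submatrix_one_equiv σ
  have o1' : k1 * k1ᴴ = 1 := mul_eq_one_comm.mp o1
  obtain ⟨a, ha⟩ : ∃ a : Fin n → ℝ, a = fun i => Real.sqrt (hA.eigenvalues (σ i)) := ⟨_, rfl⟩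
  have apos : ∀ i, 0 < a i := fun i => by rw [ha]; exact Real.sqrt_pos.mpr (hpos _)
  have asq : ∀ i, (a i : ℂ) * a i = hA.eigenvalues (σ i) := fun i => by
    rw [ha, ← Complex.ofReal_mul, Real.mul_self_sqrt (hpos _).le]
  have ane : ∀ i, (a i : ℂ) ≠ 0 := fun i => by exact_mod_cast (apos i).ne'
  have hUD : k1ᴴ * (g * gᴴ) * k1 =
      diagonal (fun i => (a i : ℂ)) * diagonal (fun i => (a i : ℂ)) := by
    rw [hsub, hD, diagonal_mul_diagonal]
    ext i j
    simp only [submatrix_apply, diagonal_apply, σ.injective.eq_iff]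
    split_ifs with h
    · rw [asq]
    · rfl
  have hinv : diagonal (fun i => (a i : ℂ)⁻¹) * diagonal (fun i => (a i : ℂ)) =
      (1 : Matrix (Fin n) (Fin n) ℂ) := by
    rw [diagonal_mul_diagonal, ← diagonal_one]
    congr 1
    funext i
    exact inv_mul_cancel₀ (ane i)
  have hinv' : diagonal (fun i => (a i : ℂ)) * diagonal (fun i => (a i : ℂ)⁻¹) =
      (1 : Matrix (Fin n) (Fin n) ℂ) := mul_eq_one_comm.mp hinv
  obtain ⟨k2, hk2⟩ : ∃ k2 : Matrix (Fin n) (Fin n) ℂ,
    k2 = diagonal (fun i => (a i : ℂ)⁻¹) * k1ᴴ * g := ⟨_, rfl⟩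
  have hdt : (diagonal (fun i => (a i : ℂ)⁻¹))ᴴ = diagonal (fun i => (a i : ℂ)⁻¹) := by
    rw [diagonal_conjTranspose]
    congr 1
    funext i
    simp
  have o2' : k2 * k2ᴴ = 1 := by
    rw [hk2]
    have : (diagonal (fun i => (a i : ℂ)⁻¹) * k1ᴴ * g)ᴴ =
        gᴴ * k1 * diagonal (fun i => (a i : ℂ)⁻¹) := by
      rw [conjTranspose_mul, conjTranspose_mul, conjTranspose_conjTranspose, hdt,
        Matrix.mul_assoc]
    rw [this]
    calc _ = diagonal (fun i => (a i : ℂ)⁻¹) * (k1ᴴ * (g * gᴴ) * k1) *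
          diagonal (fun i => (a i : ℂ)⁻¹) := by simp only [Matrix.mul_assoc]
      _ = (diagonal (fun i => (a i : ℂ)⁻¹) * diagonal (fun i => (a i : ℂ))) *
          (diagonal (fun i => (a i : ℂ)) * diagonal (fun i => (a i : ℂ)⁻¹)) := by
            rw [hUD]; simp only [Matrix.mul_assoc]
      _ = 1 := by rw [hinv, hinv', Matrix.one_mul]
  refine ⟨k1, a, k2, o1, o1', mul_eq_one_comm.mp o2', o2', apos, ?_, ?_⟩
  · intro i j hij
    have h := hmono hij
    simp only [Function.comp_apply, neg_le_neg_iff] at h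
    rw [ha]
    exact Real.sqrt_le_sqrt h
  · rw [hk2]
    calc g = 1 * g := by rw [Matrix.one_mul]
      _ = k1 * (diagonal (fun i => (a i : ℂ)) * diagonal (fun i => (a i : ℂ)⁻¹)) * k1ᴴ * g := by
          rw [hinv', Matrix.mul_one, o1']
      _ = _ := by simp only [Matrix.mul_assoc]

/-! ### Realification in blocks -/

/-- Realification in blocks. -/
noncomputable def reaS {n : ℕ} (A : Matrix (Fin n) (Fin n) ℂ) :
    Matrix (Fin n ⊕ Fin n) (Fin n ⊕ Fin n) ℝ :=
  fromBlocks (A.map Complex.re) (-(A.map Complex.im)) (A.map Complex.im) (A.map Complex.re)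

theorem rea_eq {n : ℕ} (A : Matrix (Fin n) (Fin n) ℂ) :
    rea A = (reaS A).submatrix finSumFinEquiv.symm finSumFinEquiv.symm := rfl

theorem reaS_mul {n : ℕ} (A B : Matrix (Fin n) (Fin n) ℂ) : reaS (A * B) = reaS A * reaS B := by
  have h := rea_mul A B
  rw [rea_eq, rea_eq, rea_eq, Matrix.submatrix_mul_equiv] at h
  have h2 := congrArg (fun M => M.submatrix finSumFinEquiv finSumFinEquiv) h
  simpa using h2

theorem reaS_one {n : ℕ} : reaS (1 : Matrix (Fin n) (Fin n) ℂ) = 1 := by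
  unfold reaS
  rw [← fromBlocks_one]
  congr 1
  · ext i j; by_cases h : i = j <;> simp [Matrix.one_apply, h]
  · ext i j; by_cases h : i = j <;> simp [Matrix.one_apply, h]
  · ext i j; by_cases h : i = j <;> simp [Matrix.one_apply, h]
  · ext i j; by_cases h : i = j <;> simp [Matrix.one_apply, h]

theorem reaS_ct {n : ℕ} (A : Matrix (Fin n) (Fin n) ℂ) : reaS Aᴴ = (reaS A)ᵀ := by
  unfold reaS
  rw [fromBlocks_transpose]
  congr 1 <;> ext i j <;> simp

/-- The order in which the singular values of a realification are listed. -/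
def tau (n : ℕ) : Fin (n + n) ≃ Fin n ⊕ Fin n where
  toFun l := if (l : ℕ) % 2 = 0 then Sum.inl ⟨(l : ℕ) / 2, by have := l.2; omega⟩
    else Sum.inr ⟨(l : ℕ) / 2, by have := l.2; omega⟩
  invFun := Sum.elim (fun i => ⟨2 * (i : ℕ), by have := i.2; omega⟩)
    (fun i => ⟨2 * (i : ℕ) + 1, by have := i.2; omega⟩)
  left_inv l := by
    by_cases h : (l : ℕ) % 2 = 0
    · dsimp only
      rw [if_pos h]
      apply Fin.ext
      simp only [Sum.elim_inl]
      omega
    · dsimp only
      rw [if_neg h]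
      apply Fin.ext
      simp only [Sum.elim_inr]
      omega
  right_inv x := by
    rcases x with i | i
    · have h : (2 * (i : ℕ)) % 2 = 0 := by omega
      change (if (2 * (i : ℕ)) % 2 = 0 then Sum.inl _ else Sum.inr _) = _
      rw [if_pos h]
      congr 1
      apply Fin.ext
      change 2 * (i : ℕ) / 2 = i
      omega
    · have h : ¬ (2 * (i : ℕ) + 1) % 2 = 0 := by omega
      change (if (2 * (i : ℕ) + 1) % 2 = 0 then Sum.inl _ else Sum.inr _) = _
      rw [if_neg h]
      congr 1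
      apply Fin.ext
      change (2 * (i : ℕ) + 1) / 2 = i
      omega

theorem elim_tau {n : ℕ} {α : Type} (a : Fin n → α) (l : Fin (n + n)) :
    Sum.elim a a (tau n l) = a ⟨(l : ℕ) / 2, by have := l.2; omega⟩ := by
  unfold tau
  simp only [Equiv.coe_fn_mk]
  split_ifs <;> rfl

/-- The singular value decomposition of a realification. -/
theorem svd_rea {n : ℕ} {g U V : Matrix (Fin n) (Fin n) ℂ} {a : Fin n → ℝ}
    (h : IsSVDC g U a V) :
    IsSVD (rea g) ((reaS U).submatrix finSumFinEquiv.symm (tau n))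
      (fun l => a ⟨(l : ℕ) / 2, by have := l.2; omega⟩)
      ((reaS V).submatrix (tau n) finSumFinEquiv.symm) where
  o1 := by
    rw [transpose_submatrix, Matrix.submatrix_mul_equiv, ← reaS_ct, ← reaS_mul, h.o1, reaS_one,
      submatrix_one_equiv]
  o1' := by
    rw [transpose_submatrix, Matrix.submatrix_mul_equiv, ← reaS_ct, ← reaS_mul, h.o1', reaS_one,
      submatrix_one_equiv]
  o2 := by
    rw [transpose_submatrix, Matrix.submatrix_mul_equiv, ← reaS_ct, ← reaS_mul, h.o2, reaS_one,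
      submatrix_one_equiv]
  o2' := by
    rw [transpose_submatrix, Matrix.submatrix_mul_equiv, ← reaS_ct, ← reaS_mul, h.o2', reaS_one,
      submatrix_one_equiv]
  pos l := h.pos _
  anti l l' hl := h.anti (Fin.le_def.2 (Nat.div_le_div_right (Fin.le_def.1 hl)))
  eq := by
    have e1 : diagonal (fun l : Fin (n + n) => a ⟨(l : ℕ) / 2, by have := l.2; omega⟩) =
        (reaS (diagonal (fun i => (a i : ℂ)))).submatrix (tau n) (tau n) := by
      have e2 : reaS (diagonal (fun i => (a i : ℂ))) = diagonal (Sum.elim a a) := by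
        unfold reaS
        rw [← fromBlocks_diagonal]
        congr 1
        · ext i j; by_cases h : i = j
          · subst h; simp
          · simp [Matrix.diagonal_apply_ne _ h]
        · ext i j; by_cases h : i = j
          · subst h; simp
          · simp [Matrix.diagonal_apply_ne _ h]
        · ext i j; by_cases h : i = j
          · subst h; simp
          · simp [Matrix.diagonal_apply_ne _ h]
        · ext i j; by_cases h : i = j
          · subst h; simp
          · simp [Matrix.diagonal_apply_ne _ h]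
      rw [e2, submatrix_diagonal_equiv]
      congr 1
      funext l
      exact (elim_tau a l).symm
    rw [e1, Matrix.submatrix_mul_equiv, Matrix.submatrix_mul_equiv, ← reaS_mul, ← reaS_mul,
      ← h.eq, rea_eq]

/-- Two singular value decompositions agree up to a constant. -/
theorem svd_cmp {N : ℕ} {g k1 k2 k1' k2' : Matrix (Fin N) (Fin N) ℝ} {a a' : Fin N → ℝ}
    (h : IsSVD g k1 a k2) (h' : IsSVD g k1' a' k2') (i : Fin N) :
    a' i ≤ N * Real.sqrt (hs (1 : Matrix (Fin N) (Fin N) ℝ)) * a i := by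
  have o := orth_mul_tr h.o2' h'.o2' h.o2 h'.o2
  exact sv_le_of_kap o.1 o.2 h.pos h'.pos h.anti h'.anti
    (fun i j => left_kap h h' (Matrix.one_mul g).symm i j) i

theorem svd_cmp_log {N : ℕ} : ∃ C : ℝ, 0 ≤ C ∧ ∀ {g k1 k2 k1' k2' : Matrix (Fin N) (Fin N) ℝ}
    {a a' : Fin N → ℝ} (_ : IsSVD g k1 a k2) (_ : IsSVD g k1' a' k2') (i : Fin N),
    |Real.log (a' i) - Real.log (a i)| ≤ C := by
  refine ⟨|Real.log (N * Real.sqrt (hs (1 : Matrix (Fin N) (Fin N) ℝ)))|, abs_nonneg _, ?_⟩
  intro g k1 k2 k1' k2' a a' h h' i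
  have key : ∀ {k1 k2 k1' k2' : Matrix (Fin N) (Fin N) ℝ}
    {a a' : Fin N → ℝ} (_ : IsSVD g k1 a k2) (_ : IsSVD g k1' a' k2'),
      Real.log (a' i) ≤ |Real.log (N * Real.sqrt (hs (1 : Matrix (Fin N) (Fin N) ℝ)))| +
        Real.log (a i) := by
    intro k1 k2 k1' k2' a a' h h'
    have e := svd_cmp h h' i
    have hp : 0 < N * Real.sqrt (hs (1 : Matrix (Fin N) (Fin N) ℝ)) := by
      by_contra hc
      push Not at hc
      have : N * Real.sqrt (hs (1 : Matrix (Fin N) (Fin N) ℝ)) * a i ≤ 0 :=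
        mul_nonpos_of_nonpos_of_nonneg hc (h.pos i).le
      linarith [h'.pos i]
    have e2 := Real.log_le_log (h'.pos i) e
    rw [Real.log_mul hp.ne' (h.pos i).ne'] at e2
    linarith [le_abs_self (Real.log (N * Real.sqrt (hs (1 : Matrix (Fin N) (Fin N) ℝ))))]
  rw [abs_le]
  constructor
  · linarith [key h' h]
  · linarith [key h h']

end Vale.Agent.P092.H933
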