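import Vale.Agent.P092.H933.LocF
import Vale.Agent.P092.H933.CSvd

/-!
P092 (helper933): gauges of matrix groups over a local field, with the (bounded) Cartan
decomposition.
-/

set_option linter.all false

namespace Vale.Agent.P092.H933

open Matrix
open Vale.Agent.P092.H515 (GSys EmbW place_gsys gsys_all)
open Vale.Agent.P092.H944 (isSVD kA kB)

section

variable {n : ℕ}

/-- The decomposition `A = κ a κ'` with bounded `κ`, `κ'`, and its relation to the gaps `x j`. -/
def BCart {k : Type} [NormedField k] (A : Matrix (Fin n) (Fin n) k) (x : Fin (n - 1) → ℝ)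
    (c C : ℝ) : Prop :=
  ∃ (κ κi κ' κi' : Matrix (Fin n) (Fin n) k) (a : Fin n → k),
    κ * κi = 1 ∧ κ' * κi' = 1 ∧
    (∀ i j, ‖κ i j‖ ≤ C ∧ ‖κi i j‖ ≤ C ∧ ‖κ' i j‖ ≤ C ∧ ‖κi' i j‖ ≤ C) ∧
    (∀ i, a i ≠ 0) ∧ (Antitone fun i => ‖a i‖) ∧ A = κ * diagonal a * κ' ∧
    ∀ j : Fin (n - 1), |x j - c * (Real.log ‖a ⟨j, by have := j.2; omega⟩‖ -
      Real.log ‖a ⟨(j : ℕ) + 1, by have := j.2; omega⟩‖)| ≤ C

theorem unit_entry {U : Matrix (Fin n) (Fin n) ℂ} (h : U * Uᴴ = 1) (i j : Fin n) :
    ‖U i j‖ ≤ 1 := by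
  have h1 := congrFun (congrFun h i) i
  rw [Matrix.mul_apply, one_apply_eq] at h1
  have h2 : ∑ j, ‖U i j‖ ^ 2 = 1 := by
    have h3 : ∑ j, (U i j) * (Uᴴ) j i = ((∑ j, ‖U i j‖ ^ 2 : ℝ) : ℂ) := by
      rw [Complex.ofReal_sum]
      refine Finset.sum_congr rfl fun j _ => ?_
      rw [conjTranspose_apply, RCLike.star_def, Complex.mul_conj, Complex.normSq_eq_norm_sq]
    rw [h3] at h1
    exact_mod_cast h1
  have h4 : ‖U i j‖ ^ 2 ≤ 1 := by
    rw [← h2]
    exact Finset.single_le_sum (f := fun j => ‖U i j‖ ^ 2) (fun j _ => sq_nonneg _)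
      (Finset.mem_univ j)
  exact (sq_le_one_iff₀ (norm_nonneg _)).1 h4

variable {G : Type} [Group G] {k : Type} [NontriviallyNormedField k]

theorem embW_rea' {m : G → Matrix (Fin n) (Fin n) ℂ} (hmul : ∀ g h, m (g * h) = m g * m h)
    (hdet : ∀ g, ‖(m g).det‖ = 1) : EmbW fun g => rea (m g) where
  mul g h := Or.inl (by rw [hmul, rea_mul])
  det g := by
    have h := det_rea (m g)
    rw [Complex.mul_conj, Complex.normSq_eq_norm_sq, hdet g, one_pow] at h
    have h1 : (rea (m g)).det = 1 := by exact_mod_cast h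
    rw [h1, one_pow]

theorem gsys_cplx' (hn : 0 < n) {m : G → Matrix (Fin n) (Fin n) ℂ}
    (hmul : ∀ g h, m (g * h) = m g * m h) (hdet : ∀ g, ‖(m g).det‖ = 1) :
    GSys (fun (j : Fin (n - 1)) g => H944.gap (oddEmb n j) (rea (m g)))
      (fun b => H944.hs (rea (m b))) := by
  have hE := embW_rea' hmul hdet
  refine hE.gsys (by omega) (oddEmb n) (R0 := 0) fun l hl hj g => ?_
  have hev : Even l := by
    by_contra hc
    rw [Nat.not_even_iff_odd] at hc
    obtain ⟨j, rfl⟩ := hc
    exact hj ⟨j, by omega⟩ rfl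
  exact (gap_even (hE.ne g) (Jc_sq n) (Jc_tr n) (Jc_comm _) hev).le

/-- **Gauges of matrix groups over a local field.** -/
theorem gsys_gl [ProperSpace k] (hk : LocK k) (hn : 0 < n) {m : G → Matrix (Fin n) (Fin n) k}
    (hmul : ∀ g h, m (g * h) = m g * m h) (hdet : ∀ g, ‖(m g).det‖ = 1) :
    ∃ (gap : Fin (n - 1) → G → ℝ) (w : G → ℝ) (c C : ℝ), 0 < c ∧ GSys gap w ∧
      (∀ R : ℝ, ∃ R' : ℝ, ∀ g, w g ≤ R → ∀ i j, ‖m g i j‖ ≤ R') ∧
      ∀ g, BCart (m g) (fun j => gap j g) c C := by
  rcases hk with ⟨φ, h⟩ | ⟨φ, h⟩ | h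
  · -- real
    have hsy : ∀ x, ‖φ.symm x‖ = ‖x‖ := fun x => by rw [← h, φ.apply_symm_apply]
    have hE : EmbW fun g => (m g).map φ := by
      refine ⟨fun a b => Or.inl ?_, fun g => ?_⟩
      · rw [hmul]
        exact Matrix.map_mul
      · have h1 := RingHom.map_det (φ : k →+* ℝ) (m g)
        have h2 : ‖((m g).map φ).det‖ = 1 := by
          have e : ((m g).map φ).det = φ (m g).det := h1.symm
          rw [e, h, hdet]
        rw [Real.norm_eq_abs] at h2
        rw [← sq_abs, h2, one_pow]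
    refine ⟨_, _, 2, 1, two_pos, gsys_all hn hE, fun R => ⟨|R| + 1, fun g hg i j => ?_⟩,
      fun g => ?_⟩
    · rw [← h]
      exact abs_entry_le hg i j
    have hS := isSVD (hE.ne g)
    have hm1 : ∀ A B : Matrix (Fin n) (Fin n) ℝ, A * B = 1 →
        A.map φ.symm * B.map φ.symm = 1 := by
      intro A B hAB
      rw [← Matrix.map_mul, hAB]
      exact Matrix.map_one _ (map_zero _) (map_one _)
    refine ⟨(kA ((m g).map φ)).map φ.symm, (kA ((m g).map φ))ᵀ.map φ.symm,
      (kB ((m g).map φ)).map φ.symm, (kB ((m g).map φ))ᵀ.map φ.symm,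
      fun i => φ.symm (H944.sv ((m g).map φ) i), hm1 _ _ hS.o1', hm1 _ _ hS.o2', fun i j => ?_,
      fun i => ?_, fun i j hij => ?_, ?_, fun j => ?_⟩
    · simp only [map_apply, hsy, transpose_apply, Real.norm_eq_abs]
      exact ⟨H944.orth_abs_le hS.o1' i j, H944.orth_abs_le hS.o1' j i,
        H944.orth_abs_le hS.o2' i j, H944.orth_abs_le hS.o2' j i⟩
    · rw [← norm_pos_iff, hsy, norm_pos_iff]
      exact (hS.pos i).ne'
    · simp only [hsy, Real.norm_eq_abs, abs_of_pos (hS.pos _)]
      exact hS.anti hij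
    · have e := congrArg (fun M : Matrix (Fin n) (Fin n) ℝ => M.map φ.symm) hS.eq
      have e1 : ((m g).map φ).map φ.symm = m g := by
        ext i j
        simp
      calc m g = ((m g).map φ).map φ.symm := e1.symm
        _ = (kA ((m g).map φ) * diagonal (H944.sv ((m g).map φ)) * kB ((m g).map φ)).map φ.symm := e
        _ = _ := by
          rw [Matrix.map_mul, Matrix.map_mul, diagonal_map (map_zero _)]
    · dsimp only
      rw [hsy, hsy, Real.norm_eq_abs, Real.norm_eq_abs, abs_of_pos (hS.pos _),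
        abs_of_pos (hS.pos _)]
      have hj : (j : ℕ) + 1 < n := by have := j.2; omega
      have e2 : H944.gap (j : ℕ) ((m g).map φ) = 2 * (Real.log (H944.sv ((m g).map φ) ⟨j, by omega⟩) -
          Real.log (H944.sv ((m g).map φ) ⟨(j : ℕ) + 1, hj⟩)) := by
        unfold H944.gap
        rw [if_pos hj, H944.la, dif_pos (by omega : (j : ℕ) < n), H944.la, dif_pos hj]
      rw [e2, sub_self, abs_zero]
      exact zero_le_one
  · -- complex
    have hsy : ∀ x, ‖φ.symm x‖ = ‖x‖ := fun x => by rw [← h, φ.apply_symm_apply]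
    obtain ⟨M, hM⟩ : ∃ M : G → Matrix (Fin n) (Fin n) ℂ, M = fun g => (m g).map φ := ⟨_, rfl⟩
    have hMm : ∀ g h, M (g * h) = M g * M h := fun g h => by
      rw [hM]
      dsimp only
      rw [hmul]
      exact Matrix.map_mul
    have hMd : ∀ g, ‖(M g).det‖ = 1 := fun g => by
      have h1 := RingHom.map_det (φ : k →+* ℂ) (m g)
      have e : (M g).det = φ (m g).det := by rw [hM]; exact h1.symm
      rw [e, h, hdet]
    obtain ⟨C, hC0, hC⟩ := svd_cmp_log (N := n + n)
    refine ⟨_, _, 2, 4 * C + 1, two_pos, gsys_cplx' hn hMm hMd,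
      fun R => ⟨(|R| + 1) + (|R| + 1), fun g hg i j => ?_⟩, fun g => ?_⟩
    · have e : φ (m g i j) = M g i j := by rw [hM]; rfl
      rw [← h, e]
      have h1 := abs_entry_le hg (finSumFinEquiv (Sum.inl i)) (finSumFinEquiv (Sum.inl j))
      have h2 := abs_entry_le hg (finSumFinEquiv (Sum.inr i)) (finSumFinEquiv (Sum.inl j))
      rw [(re_im_rea _ i j).1] at h1
      rw [(re_im_rea _ i j).2] at h2
      exact (Complex.norm_le_abs_re_add_abs_im _).trans (add_le_add h1 h2)
    have hMd0 : (M g).det ≠ 0 := by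
      intro h0
      have := hMd g
      rw [h0, norm_zero] at this
      exact zero_ne_one this
    obtain ⟨U, a, V, hS⟩ := exists_svdC (M g) hMd0
    have hm1 : ∀ A B : Matrix (Fin n) (Fin n) ℂ, A * B = 1 →
        A.map φ.symm * B.map φ.symm = 1 := by
      intro A B hAB
      rw [← Matrix.map_mul, hAB]
      exact Matrix.map_one _ (map_zero _) (map_one _)
    have han : ∀ i, ‖φ.symm (a i : ℂ)‖ = a i := fun i => by
      rw [hsy, Complex.norm_real, Real.norm_of_nonneg (hS.pos i).le]
    refine ⟨U.map φ.symm, Uᴴ.map φ.symm, V.map φ.symm, Vᴴ.map φ.symm,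
      fun i => φ.symm (a i), hm1 _ _ hS.o1', hm1 _ _ hS.o2', fun i j => ?_,
      fun i => ?_, fun i j hij => ?_, ?_, fun j => ?_⟩
    · simp only [map_apply, hsy, conjTranspose_apply, norm_star]
      have h1 := unit_entry hS.o1' i j
      have h2 := unit_entry hS.o1' j i
      have h3 := unit_entry hS.o2' i j
      have h4 := unit_entry hS.o2' j i
      exact ⟨by linarith, by linarith, by linarith, by linarith⟩
    · rw [← norm_pos_iff, han]
      exact hS.pos i
    · simp only [han]
      exact hS.anti hij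
    · have e := congrArg (fun M : Matrix (Fin n) (Fin n) ℂ => M.map φ.symm) hS.eq
      have e1 : (M g).map φ.symm = m g := by
        rw [hM]
        ext i j
        simp
      calc m g = (M g).map φ.symm := e1.symm
        _ = (U * diagonal (fun i => (a i : ℂ)) * V).map φ.symm := e
        _ = _ := by
          rw [Matrix.map_mul, Matrix.map_mul, diagonal_map (map_zero _)]
    · dsimp only
      rw [han, han]
      have hj : (j : ℕ) + 1 < n := by have := j.2; omega
      have hR := svd_rea hS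
      have hR' := isSVD ((embW_rea' hMm hMd).ne g)
      have c1 := hC hR hR' ⟨2 * (j : ℕ) + 1, by omega⟩
      have c2 := hC hR hR' ⟨2 * (j : ℕ) + 1 + 1, by omega⟩
      have e1 : (⟨(2 * (j : ℕ) + 1) / 2, by omega⟩ : Fin n) = ⟨j, by omega⟩ :=
        Fin.ext (by dsimp only; omega)
      have e2 : (⟨(2 * (j : ℕ) + 1 + 1) / 2, by omega⟩ : Fin n) = ⟨(j : ℕ) + 1, hj⟩ :=
        Fin.ext (by dsimp only; omega)
      dsimp only at c1 c2
      rw [e1] at c1
      rw [e2] at c2
      have e3 : H944.gap (oddEmb n j) (rea (M g)) =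
          2 * (Real.log (H944.sv (rea (M g)) ⟨2 * (j : ℕ) + 1, by omega⟩) -
          Real.log (H944.sv (rea (M g)) ⟨2 * (j : ℕ) + 1 + 1, by omega⟩)) := by
        unfold H944.gap
        have e4 : oddEmb n j = 2 * (j : ℕ) + 1 := rfl
        rw [e4, if_pos (by omega), H944.la, dif_pos (by omega), H944.la, dif_pos (by omega)]
      rw [e3]
      rw [abs_le] at c1 c2 ⊢
      constructor <;> linarith [c1.1, c1.2, c2.1, c2.2]
  · -- non-archimedean
    have hE : PEmb m := by
      refine ⟨fun a b => ⟨1, one_ne_zero, ?_⟩, fun g h0 => ?_⟩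
      · rw [hmul, one_smul]
      · have := hdet g
        rw [h0, norm_zero] at this
        exact zero_ne_one this
    have hP := place hn hE (H515.finEmb n) (R0 := 0) fun l hl hj =>
      absurd rfl (hj ⟨l, by omega⟩)
    refine ⟨_, _, 1, 1, one_pos, place_gsys hP, fun R => ⟨R, fun g hg i j => ?_⟩, fun g => ?_⟩
    · refine (entry_le_nr _ i j).trans ?_
      have e : sz (m g) = nr (m g) := by
        unfold sz nu
        rw [hdet g, Real.one_rpow, div_one]
      rw [← e]
      exact hg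
    · refine ⟨(car (m g)).u, (car (m g)).ui, (car (m g)).v, (car (m g)).vi, (car (m g)).a,
        (car (m g)).hu.mul, (car (m g)).hv.mul, fun i j => ⟨(car (m g)).hu.le i j,
        (car (m g)).hu.lei i j, (car (m g)).hv.le i j, (car (m g)).hv.lei i j⟩,
        a_ne (hE.det g), (car (m g)).anti, (car (m g)).eq, fun j => ?_⟩
      have hj : (j : ℕ) + 1 < n := by have := j.2; omega
      have e3 : gap (j : ℕ) (m g) = 1 * (Real.log ‖(car (m g)).a ⟨j, by omega⟩‖ -
          Real.log ‖(car (m g)).a ⟨(j : ℕ) + 1, hj⟩‖) := by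
        unfold gap
        rw [if_pos hj, H933.la, dif_pos (by omega), H933.la, dif_pos hj, one_mul]
        rfl
      have e4 : H515.finEmb n j = (j : ℕ) := rfl
      dsimp only
      rw [e4, e3, sub_self, abs_zero]
      exact zero_le_one

end

end Vale.Agent.P092.H933
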