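import Vale.Agent.P092.H515.Tgt
import Vale.Agent.P092.H933.LocF

/-!
P092 (helper933), [LOC]: `SL_{n+1}` of a local field is a target group of rank `n`.
-/

set_option linter.all false

namespace Vale.Agent.P092.H933

open Matrix
open Vale.Agent.P092.H515 (Tgt)

/-- `SL_{n+1}(k)` is a target group of rank `n`. -/
theorem tgt_sl_loc {k : Type} [NontriviallyNormedField k] [ProperSpace k] (hk : LocK k) (n : ℕ) :
    Tgt (Matrix.SpecialLinearGroup (Fin (n + 1)) k) n := by
  obtain ⟨gp, w, hs, hw⟩ := gsys_loc hk (Nat.succ_pos n)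
    (MonoidHom.id (Matrix.SpecialLinearGroup (Fin (n + 1)) k))
  have h3 : Topology.IsClosedEmbedding (fun g : Matrix.SpecialLinearGroup (Fin (n + 1)) k =>
      (g : Matrix (Fin (n + 1)) (Fin (n + 1)) k)) :=
    Matrix.SpecialLinearGroup.isClosedEmbedding_val
  refine ⟨Fin (n + 1 - 1), inferInstance, gp, w, fun j => j, hs,
    fun R => ⟨R, fun i j hij g hg => by rw [← hij]; exact hg⟩, fun R => ?_⟩
  obtain ⟨R', hR⟩ := hw R
  have hc : IsCompact (Set.univ.pi fun _ : Fin (n + 1) => Set.univ.pi fun _ : Fin (n + 1) =>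
      Metric.closedBall (0 : k) R') :=
    isCompact_univ_pi fun _ => isCompact_univ_pi fun _ => isCompact_closedBall _ _
  refine ⟨_, h3.isCompact_preimage hc, fun g hg i _ j _ => ?_⟩
  rw [mem_closedBall_zero_iff]
  exact hR g hg i j

end Vale.Agent.P092.H933
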