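import Vale.Agent.P092.H933.Cartan

/-!
P092 (helper933), [LOC]: the singular values of a matrix over a non-archimedean normed field,
their logarithmic gaps and quasi-invariance.
-/

set_option linter.all false

namespace Vale.Agent.P092.H933

open Matrix

section

variable {k : Type*} [NormedField k] [IsUltrametricDist k] {n : ℕ}

/-- The largest norm of an entry. -/
noncomputable def nr {k : Type*} [NormedField k] {n : ℕ} (A : Matrix (Fin n) (Fin n) k) : ℝ :=
  ‖fun p : Fin n × Fin n => A p.1 p.2‖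

theorem nr_nonneg (A : Matrix (Fin n) (Fin n) k) : 0 ≤ nr A := norm_nonneg _

theorem entry_le_nr (A : Matrix (Fin n) (Fin n) k) (i j : Fin n) : ‖A i j‖ ≤ nr A :=
  norm_le_pi_norm (fun p : Fin n × Fin n => A p.1 p.2) (i, j)

theorem nr_le {A : Matrix (Fin n) (Fin n) k} {r : ℝ} (hr : 0 ≤ r) (h : ∀ i j, ‖A i j‖ ≤ r) :
    nr A ≤ r :=
  (pi_norm_le_iff_of_nonneg hr).2 fun p => h p.1 p.2

theorem nr_mul_le (A B : Matrix (Fin n) (Fin n) k) : nr (A * B) ≤ nr A * nr B :=
  nr_le (mul_nonneg (nr_nonneg _) (nr_nonneg _))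
    (mul_entry_le' (nr_nonneg _) (nr_nonneg _) (entry_le_nr A) (entry_le_nr B))

theorem nr_smul (c : k) (A : Matrix (Fin n) (Fin n) k) : nr (c • A) = ‖c‖ * nr A := by
  unfold nr
  rw [← norm_smul]
  rfl

theorem nr_one (hn : 0 < n) : nr (1 : Matrix (Fin n) (Fin n) k) = 1 := by
  refine le_antisymm (nr_le zero_le_one InK.one.le) ?_
  have := entry_le_nr (1 : Matrix (Fin n) (Fin n) k) ⟨0, hn⟩ ⟨0, hn⟩
  simpa using this

theorem nr_pos {A : Matrix (Fin n) (Fin n) k} (hA : A.det ≠ 0) (hn : 0 < n) : 0 < nr A := by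
  by_contra h
  have h1 : nr A = 0 := le_antisymm (not_lt.mp h) (nr_nonneg A)
  have h2 : A = 0 := by
    ext i j
    have := entry_le_nr A i j
    rw [h1] at this
    simpa using this
  have : Nonempty (Fin n) := Fin.pos_iff_nonempty.mp hn
  exact hA (by rw [h2]; exact det_zero)

theorem inv_det_ne {S : Matrix (Fin n) (Fin n) k} (h : S.det ≠ 0) : S⁻¹.det ≠ 0 := by
  rw [det_nonsing_inv, Ring.inverse_eq_inv']
  exact inv_ne_zero h

theorem mul_det_ne {S A : Matrix (Fin n) (Fin n) k} (h1 : S.det ≠ 0) (h2 : A.det ≠ 0) :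
    (S * A).det ≠ 0 := by
  rw [det_mul]; exact mul_ne_zero h1 h2

theorem smul_det_ne {c : k} (hc : c ≠ 0) {A : Matrix (Fin n) (Fin n) k} (h : A.det ≠ 0) :
    (c • A).det ≠ 0 := by
  rw [det_smul]; exact mul_ne_zero (pow_ne_zero _ hc) h

theorem inv_mul_self {S : Matrix (Fin n) (Fin n) k} (h : S.det ≠ 0) : S⁻¹ * S = 1 :=
  nonsing_inv_mul _ (isUnit_iff_ne_zero.mpr h)

theorem mul_inv_self {S : Matrix (Fin n) (Fin n) k} (h : S.det ≠ 0) : S * S⁻¹ = 1 :=
  mul_nonsing_inv _ (isUnit_iff_ne_zero.mpr h)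

theorem inv_inv_self {S : Matrix (Fin n) (Fin n) k} (h : S.det ≠ 0) : S⁻¹⁻¹ = S :=
  nonsing_inv_nonsing_inv _ (isUnit_iff_ne_zero.mpr h)

theorem norm_det_le_pow (A : Matrix (Fin n) (Fin n) k) : ‖A.det‖ ≤ nr A ^ n := by
  rw [Matrix.det_apply]
  refine IsUltrametricDist.norm_sum_le_of_forall_le_of_nonneg (pow_nonneg (nr_nonneg _) _)
    fun σ _ => ?_
  rw [Units.smul_def, zsmul_eq_mul, norm_mul, norm_prod]
  have h1 : ‖((Equiv.Perm.sign σ : ℤ) : k)‖ = 1 := by
    rcases Int.units_eq_one_or (Equiv.Perm.sign σ) with h | h <;> rw [h] <;> simp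
  rw [h1, one_mul]
  calc ∏ i, ‖A (σ i) i‖ ≤ ∏ _i : Fin n, nr A :=
        Finset.prod_le_prod (fun i _ => norm_nonneg _) fun i _ => entry_le_nr _ _ _
    _ = nr A ^ n := by simp

/-- The singular values in decreasing order. -/
noncomputable def sv (A : Matrix (Fin n) (Fin n) k) (i : Fin n) : ℝ := ‖(car A).a i‖

theorem sv_anti (A : Matrix (Fin n) (Fin n) k) : Antitone (sv A) := (car A).anti

theorem norm_det_eq (A : Matrix (Fin n) (Fin n) k) : ‖A.det‖ = ∏ i, sv A i := by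
  have e := congrArg (fun M : Matrix (Fin n) (Fin n) k => ‖M.det‖) (car A).eq
  simp only [det_mul, norm_mul, det_diagonal, (car A).hu.norm_det, (car A).hv.norm_det,
    one_mul, mul_one, norm_prod] at e
  exact e

theorem sv_pos {A : Matrix (Fin n) (Fin n) k} (hA : A.det ≠ 0) (i : Fin n) : 0 < sv A i := by
  have h1 : 0 < ∏ i, sv A i := by rw [← norm_det_eq]; exact norm_pos_iff.2 hA
  refine lt_of_le_of_ne (norm_nonneg _) fun h => ?_
  rw [Finset.prod_eq_zero (Finset.mem_univ i) h.symm] at h1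
  exact lt_irrefl _ h1

theorem a_ne {A : Matrix (Fin n) (Fin n) k} (hA : A.det ≠ 0) (i : Fin n) : (car A).a i ≠ 0 :=
  norm_pos_iff.1 (sv_pos hA i)

theorem nr_le_sv (A : Matrix (Fin n) (Fin n) k) (hn : 0 < n) : nr A ≤ sv A ⟨0, hn⟩ := by
  refine nr_le (norm_nonneg _) fun i j => ?_
  have e := congrFun (congrFun (car A).eq i) j
  rw [e]
  refine mul_entry_le (norm_nonneg _) fun l => ?_
  rw [Matrix.mul_diagonal, norm_mul]
  calc ‖(car A).u i l‖ * ‖(car A).a l‖ * ‖(car A).v l j‖ ≤ 1 * sv A ⟨0, hn⟩ * 1 := by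
        refine mul_le_mul (mul_le_mul ((car A).hu.le _ _) (sv_anti A (Fin.le_def.2 (Nat.zero_le _)))
          (norm_nonneg _) zero_le_one) ((car A).hv.le _ _) (norm_nonneg _) ?_
        rw [one_mul]; exact norm_nonneg _
    _ = sv A ⟨0, hn⟩ := by rw [one_mul, mul_one]

/-- The comparison matrix of the left frames. -/
noncomputable def rr (A S B : Matrix (Fin n) (Fin n) k) : Matrix (Fin n) (Fin n) k :=
  (car B).ui * S * (car A).u

theorem rr_eq {A S T B : Matrix (Fin n) (Fin n) k} (hT : T.det ≠ 0) (hB : B = S * A * T) :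
    rr A S B * diagonal (car A).a =
      diagonal (car B).a * ((car B).v * T⁻¹ * (car A).vi) := by
  have e1 : (car B).u * diagonal (car B).a * (car B).v =
      S * ((car A).u * diagonal (car A).a * (car A).v) * T := by
    rw [← (car A).eq, ← (car B).eq, hB]
  have e2 : (car B).ui * ((car B).u * diagonal (car B).a * (car B).v) * T⁻¹ * (car A).vi =
      (car B).ui * (S * ((car A).u * diagonal (car A).a * (car A).v) * T) * T⁻¹ * (car A).vi := by
    rw [e1]
  have e3 : (car B).ui * ((car B).u * diagonal (car B).a * (car B).v) * T⁻¹ * (car A).vi =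
      diagonal (car B).a * ((car B).v * T⁻¹ * (car A).vi) := by
    calc _ = ((car B).ui * (car B).u) * diagonal (car B).a *
          ((car B).v * T⁻¹ * (car A).vi) := by simp only [Matrix.mul_assoc]
      _ = _ := by rw [(car B).hu.mul', Matrix.one_mul]
  have e4 : (car B).ui * (S * ((car A).u * diagonal (car A).a * (car A).v) * T) * T⁻¹ *
      (car A).vi = rr A S B * diagonal (car A).a := by
    calc _ = (car B).ui * S * (car A).u * diagonal (car A).a * ((car A).v *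
          (T * T⁻¹) * (car A).vi) := by simp only [Matrix.mul_assoc]
      _ = _ := by
          rw [mul_inv_self hT, Matrix.mul_one, (car A).hv.mul, Matrix.mul_one]
          rfl
  rw [← e4, ← e2, e3]

theorem rr_le_nr (A S B : Matrix (Fin n) (Fin n) k) (i l : Fin n) : ‖rr A S B i l‖ ≤ nr S := by
  have h1 : ∀ i j, ‖((car B).ui * S) i j‖ ≤ 1 * nr S :=
    mul_entry_le' zero_le_one (nr_nonneg _) (car B).hu.lei (entry_le_nr S)
  have h2 := mul_entry_le' (by rw [one_mul]; exact nr_nonneg _) zero_le_one h1 (car A).hu.le i l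
  rwa [one_mul, mul_one] at h2

theorem rr_le_div {A S T B : Matrix (Fin n) (Fin n) k} (hA : A.det ≠ 0) (hT : T.det ≠ 0)
    (hB : B = S * A * T) (i l : Fin n) : ‖rr A S B i l‖ * sv A l ≤ nr T⁻¹ * sv B i := by
  have e := congrFun (congrFun (rr_eq hT hB) i) l
  rw [Matrix.mul_diagonal, Matrix.diagonal_mul] at e
  have h1 : ∀ i j, ‖((car B).v * T⁻¹) i j‖ ≤ 1 * nr T⁻¹ :=
    mul_entry_le' zero_le_one (nr_nonneg _) (car B).hv.le (entry_le_nr T⁻¹)
  have h2 := mul_entry_le' (by rw [one_mul]; exact nr_nonneg _) zero_le_one h1 (car A).hv.lei i l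
  rw [one_mul, mul_one] at h2
  calc ‖rr A S B i l‖ * sv A l = ‖(car B).a i‖ * ‖((car B).v * T⁻¹ * (car A).vi) i l‖ := by
        rw [sv, ← norm_mul, e, norm_mul]
    _ ≤ ‖(car B).a i‖ * nr T⁻¹ := mul_le_mul_of_nonneg_left h2 (norm_nonneg _)
    _ = _ := mul_comm _ _

theorem rr_mul {A S B : Matrix (Fin n) (Fin n) k} (b : Matrix (Fin n) (Fin n) k) :
    (car B).ui * (S * b) = rr A S B * ((car A).ui * b) := by
  unfold rr
  calc (car B).ui * (S * b) = (car B).ui * S * ((car A).u * (car A).ui) * b := by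
        rw [(car A).hu.mul, Matrix.mul_one, Matrix.mul_assoc]
    _ = _ := by simp only [Matrix.mul_assoc]

theorem sv_left_le {S A : Matrix (Fin n) (Fin n) k} (hS : S.det ≠ 0) (hA : A.det ≠ 0)
    (i : Fin n) : sv (S * A) i ≤ nr S * sv A i := by
  have hB := mul_det_ne hS hA
  have hy : InK ((car (S * A)).v * (car A).vi) ((car A).v * (car (S * A)).vi) :=
    (car (S * A)).hv.mulK (car A).hv.symm
  obtain ⟨σ, hσ⟩ := hy.exists_perm
  refine sort_le (sv_anti _) (sv_anti _) (nr_nonneg _) σ (fun l => ?_) i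
  have h1 : (1 : Matrix (Fin n) (Fin n) k).det ≠ 0 := by rw [det_one]; exact one_ne_zero
  have e := congrFun (congrFun (rr_eq (A := A) (S := S) (T := 1) (B := S * A) h1
    (by rw [Matrix.mul_one])) (σ l)) l
  rw [Matrix.mul_diagonal, Matrix.diagonal_mul, inv_one, Matrix.mul_one] at e
  calc sv (S * A) (σ l) = ‖(car (S * A)).a (σ l) * ((car (S * A)).v * (car A).vi) (σ l) l‖ := by
        rw [norm_mul, hσ l, mul_one]; rfl
    _ = ‖rr A S (S * A) (σ l) l‖ * sv A l := by rw [← e, norm_mul]; rfl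
    _ ≤ nr S * sv A l := mul_le_mul_of_nonneg_right (rr_le_nr _ _ _ _ _) (norm_nonneg _)

theorem sv_right_le {A T : Matrix (Fin n) (Fin n) k} (hA : A.det ≠ 0) (hT : T.det ≠ 0)
    (i : Fin n) : sv (A * T) i ≤ nr T * sv A i := by
  have hB := mul_det_ne hA hT
  have hy : InK ((car A).ui * (car (A * T)).u) ((car (A * T)).ui * (car A).u) :=
    (car A).hu.symm.mulK (car (A * T)).hu
  obtain ⟨σ, hσ⟩ := hy.exists_perm
  refine sort_le (sv_anti _) (sv_anti _) (nr_nonneg _) σ⁻¹ (fun l => ?_) i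
  have h2 := rr_le_div (A := A * T) (S := 1) (T := T⁻¹) (B := A) hB (inv_det_ne hT)
    (by rw [Matrix.one_mul, Matrix.mul_assoc, mul_inv_self hT, Matrix.mul_one]) l (σ⁻¹ l)
  rw [inv_inv_self hT] at h2
  have h3 : ‖rr (A * T) 1 A l (σ⁻¹ l)‖ = 1 := by
    have := hσ (σ⁻¹ l)
    rw [show σ (σ⁻¹ l) = l from σ.apply_symm_apply l] at this
    rwa [rr, Matrix.mul_one]
  rwa [h3, one_mul] at h2

theorem nr_mul_inv_ge {S : Matrix (Fin n) (Fin n) k} (hS : S.det ≠ 0) (hn : 0 < n) :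
    1 ≤ nr S * nr S⁻¹ := by
  calc (1 : ℝ) = nr (S * S⁻¹) := by rw [mul_inv_self hS, nr_one hn]
    _ ≤ _ := nr_mul_le _ _

/-- The logarithm of the condition number. -/
noncomputable def cn (S : Matrix (Fin n) (Fin n) k) : ℝ := Real.log (nr S * nr S⁻¹)

theorem cn_nonneg {S : Matrix (Fin n) (Fin n) k} (hS : S.det ≠ 0) (hn : 0 < n) : 0 ≤ cn S :=
  Real.log_nonneg (nr_mul_inv_ge hS hn)

theorem cn_eq {S : Matrix (Fin n) (Fin n) k} (hS : S.det ≠ 0) (hn : 0 < n) :
    cn S = Real.log (nr S) + Real.log (nr S⁻¹) :=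
  Real.log_mul (nr_pos hS hn).ne' (nr_pos (inv_det_ne hS) hn).ne'

theorem cn_inv {S : Matrix (Fin n) (Fin n) k} (hS : S.det ≠ 0) : cn S⁻¹ = cn S := by
  rw [cn, cn, inv_inv_self hS, mul_comm]

theorem inv_smul_eq {c : k} (hc : c ≠ 0) {S : Matrix (Fin n) (Fin n) k} (hS : S.det ≠ 0) :
    (c • S)⁻¹ = c⁻¹ • S⁻¹ := by
  refine inv_eq_right_inv ?_
  rw [Matrix.smul_mul, Matrix.mul_smul, smul_smul, mul_inv_self hS, mul_inv_cancel₀ hc, one_smul]

theorem cn_smul {c : k} (hc : c ≠ 0) {S : Matrix (Fin n) (Fin n) k} (hS : S.det ≠ 0) :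
    cn (c • S) = cn S := by
  rw [cn, cn, inv_smul_eq hc hS, nr_smul, nr_smul, norm_inv]
  congr 1
  have : ‖c‖ ≠ 0 := norm_ne_zero_iff.2 hc
  field_simp

/-- Logarithm of the `j`-th singular value. -/
noncomputable def la (A : Matrix (Fin n) (Fin n) k) (j : ℕ) : ℝ :=
  if h : j < n then Real.log (sv A ⟨j, h⟩) else 0

/-- The gaps. -/
noncomputable def gap (j : ℕ) (A : Matrix (Fin n) (Fin n) k) : ℝ :=
  if j + 1 < n then la A j - la A (j + 1) else 0

theorem la_fin (A : Matrix (Fin n) (Fin n) k) (i : Fin n) : la A i = Real.log (sv A i) := by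
  rw [la, dif_pos i.2]

theorem exp_la {A : Matrix (Fin n) (Fin n) k} (hA : A.det ≠ 0) (i : Fin n) :
    Real.exp (la A i) = sv A i := by
  rw [la_fin, Real.exp_log (sv_pos hA i)]

theorem la_anti {A : Matrix (Fin n) (Fin n) k} (hA : A.det ≠ 0) {i j : ℕ} (hij : i ≤ j)
    (hj : j < n) : la A j ≤ la A i := by
  rw [la, dif_pos hj, la, dif_pos (lt_of_le_of_lt hij hj)]
  exact Real.log_le_log (sv_pos hA _) (sv_anti A hij)

theorem gap_nonneg {A : Matrix (Fin n) (Fin n) k} (hA : A.det ≠ 0) (j : ℕ) : 0 ≤ gap j A := by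
  unfold gap
  split_ifs with h
  · have := la_anti hA (Nat.le_succ j) h
    linarith
  · exact le_rfl

theorem sum_gap (A : Matrix (Fin n) (Fin n) k) {i j : ℕ} (hij : i ≤ j) (hj : j < n) :
    ∑ l ∈ Finset.Ico i j, gap l A = la A i - la A j := by
  induction j, hij using Nat.le_induction with
  | base => simp
  | succ m him ih =>
    rw [Finset.sum_Ico_succ_top him, ih (by omega), gap, if_pos hj]
    ring

theorem la_left_le {S A : Matrix (Fin n) (Fin n) k} (hS : S.det ≠ 0) (hA : A.det ≠ 0)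
    {j : ℕ} (hj : j < n) : la (S * A) j ≤ Real.log (nr S) + la A j := by
  rw [la, dif_pos hj, la, dif_pos hj, ← Real.log_mul (nr_pos hS (by omega)).ne' (sv_pos hA _).ne']
  exact Real.log_le_log (sv_pos (mul_det_ne hS hA) _) (sv_left_le hS hA _)

theorem la_left_ge {S A : Matrix (Fin n) (Fin n) k} (hS : S.det ≠ 0) (hA : A.det ≠ 0)
    {j : ℕ} (hj : j < n) : la A j ≤ Real.log (nr S⁻¹) + la (S * A) j := by
  have := la_left_le (inv_det_ne hS) (mul_det_ne hS hA) hj
  rwa [← Matrix.mul_assoc, inv_mul_self hS, Matrix.one_mul] at this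

theorem la_right_le {A T : Matrix (Fin n) (Fin n) k} (hA : A.det ≠ 0) (hT : T.det ≠ 0)
    {j : ℕ} (hj : j < n) : la (A * T) j ≤ Real.log (nr T) + la A j := by
  rw [la, dif_pos hj, la, dif_pos hj, ← Real.log_mul (nr_pos hT (by omega)).ne' (sv_pos hA _).ne']
  exact Real.log_le_log (sv_pos (mul_det_ne hA hT) _) (sv_right_le hA hT _)

theorem la_right_ge {A T : Matrix (Fin n) (Fin n) k} (hA : A.det ≠ 0) (hT : T.det ≠ 0)
    {j : ℕ} (hj : j < n) : la A j ≤ Real.log (nr T⁻¹) + la (A * T) j := by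
  have := la_right_le (mul_det_ne hA hT) (inv_det_ne hT) hj
  rwa [Matrix.mul_assoc, mul_inv_self hT, Matrix.mul_one] at this

theorem abs_gap_left {S A : Matrix (Fin n) (Fin n) k} (hS : S.det ≠ 0) (hA : A.det ≠ 0) (hn : 0 < n)
    (j : ℕ) : |gap j (S * A) - gap j A| ≤ cn S := by
  unfold gap
  split_ifs with h
  · have h1 := la_left_le hS hA (show j < n by omega)
    have h2 := la_left_ge hS hA (show j < n by omega)
    have h3 := la_left_le hS hA h
    have h4 := la_left_ge hS hA h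
    rw [cn_eq hS hn, abs_le]
    constructor <;> linarith
  · rw [sub_zero, abs_zero]; exact cn_nonneg hS hn

theorem abs_gap_right {A T : Matrix (Fin n) (Fin n) k} (hA : A.det ≠ 0) (hT : T.det ≠ 0)
    (hn : 0 < n) (j : ℕ) : |gap j (A * T) - gap j A| ≤ cn T := by
  unfold gap
  split_ifs with h
  · have h1 := la_right_le hA hT (show j < n by omega)
    have h2 := la_right_ge hA hT (show j < n by omega)
    have h3 := la_right_le hA hT h
    have h4 := la_right_ge hA hT h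
    rw [cn_eq hT hn, abs_le]
    constructor <;> linarith
  · rw [sub_zero, abs_zero]; exact cn_nonneg hT hn

/-- The normalised determinant. -/
noncomputable def nu (A : Matrix (Fin n) (Fin n) k) : ℝ := ‖A.det‖ ^ ((n : ℝ)⁻¹)

theorem nu_pos {A : Matrix (Fin n) (Fin n) k} (hA : A.det ≠ 0) : 0 < nu A :=
  Real.rpow_pos_of_pos (norm_pos_iff.2 hA) _

theorem nu_mul (A B : Matrix (Fin n) (Fin n) k) : nu (A * B) = nu A * nu B := by
  unfold nu
  rw [det_mul, norm_mul, Real.mul_rpow (norm_nonneg _) (norm_nonneg _)]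

theorem nu_smul (hn : 0 < n) (c : k) (A : Matrix (Fin n) (Fin n) k) :
    nu (c • A) = ‖c‖ * nu A := by
  unfold nu
  rw [det_smul, norm_mul, Real.mul_rpow (norm_nonneg _) (norm_nonneg _), norm_pow,
    Fintype.card_fin, Real.pow_rpow_inv_natCast (norm_nonneg _) hn.ne']

theorem nu_pow (hn : 0 < n) (A : Matrix (Fin n) (Fin n) k) : nu A ^ n = ‖A.det‖ :=
  Real.rpow_inv_natCast_pow (norm_nonneg _) hn.ne'

theorem nu_one : nu (1 : Matrix (Fin n) (Fin n) k) = 1 := by
  unfold nu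
  rw [det_one, norm_one, Real.one_rpow]

theorem nu_le_nr (hn : 0 < n) (A : Matrix (Fin n) (Fin n) k) : nu A ≤ nr A := by
  refine le_of_pow_le_pow_left₀ hn.ne' (nr_nonneg _) ?_
  rw [nu_pow hn]
  exact norm_det_le_pow A

theorem log_nu_le {A : Matrix (Fin n) (Fin n) k} (hn : 0 < n) (hA : A.det ≠ 0) :
    Real.log (nu A) ≤ Real.log (nr A) := Real.log_le_log (nu_pos hA) (nu_le_nr hn A)

theorem log_nu_ge {A : Matrix (Fin n) (Fin n) k} (hn : 0 < n) (hA : A.det ≠ 0) :
    -Real.log (nr A⁻¹) ≤ Real.log (nu A) := by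
  have h1 := log_nu_le hn (inv_det_ne hA)
  have h2 : nu A⁻¹ = (nu A)⁻¹ := by
    have : nu A⁻¹ * nu A = 1 := by rw [← nu_mul, inv_mul_self hA, nu_one]
    exact eq_inv_of_mul_eq_one_left this
  rw [h2, Real.log_inv] at h1
  linarith

/-- Bounded gaps bound the normalised size. -/
theorem nr_div_nu_le {A : Matrix (Fin n) (Fin n) k} (hn : 0 < n) (hA : A.det ≠ 0) {R : ℝ}
    (hR : ∀ j, j + 1 < n → gap j A ≤ R) : nr A / nu A ≤ Real.exp (n * |R|) := by
  have hlast : n - 1 < n := by omega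
  have h1 : la A 0 - la A (n - 1) ≤ n * |R| := by
    rw [← sum_gap A (Nat.zero_le _) hlast]
    have e2 : ∑ l ∈ Finset.Ico 0 (n - 1), gap l A ≤ ∑ l ∈ Finset.Ico 0 (n - 1), |R| :=
      Finset.sum_le_sum fun l hl =>
        (hR l (by rw [Finset.mem_Ico] at hl; omega)).trans (le_abs_self R)
    rw [Finset.sum_const, Nat.card_Ico, nsmul_eq_mul] at e2
    refine e2.trans (mul_le_mul_of_nonneg_right ?_ (abs_nonneg R))
    exact_mod_cast (by omega : n - 1 - 0 ≤ n)
  have h2 : sv A ⟨n - 1, hlast⟩ ≤ nu A := by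
    refine le_of_pow_le_pow_left₀ hn.ne' (nu_pos hA).le ?_
    rw [nu_pow hn, norm_det_eq]
    calc sv A ⟨n - 1, hlast⟩ ^ n = ∏ _i : Fin n, sv A ⟨n - 1, hlast⟩ := by simp
      _ ≤ ∏ i, sv A i := by
        refine Finset.prod_le_prod (fun i _ => norm_nonneg _) fun i _ => ?_
        exact sv_anti A (Fin.le_def.mpr (Nat.le_sub_one_of_lt i.2))
  have h3 : sv A ⟨0, hn⟩ ≤ Real.exp (n * |R|) * sv A ⟨n - 1, hlast⟩ := by
    rw [← exp_la hA ⟨0, hn⟩, ← exp_la hA ⟨n - 1, hlast⟩, ← Real.exp_add]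
    refine Real.exp_le_exp.2 ?_
    dsimp only
    linarith
  rw [div_le_iff₀ (nu_pos hA)]
  exact (nr_le_sv A hn).trans (h3.trans (mul_le_mul_of_nonneg_left h2 (Real.exp_pos _).le))

end

end Vale.Agent.P092.H933
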