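import Vale.Agent.P092.H103.CA1
import Vale.Agent.P092.H221.Gr1

/-!
P092 (helper933), [D-GL-IND], definitions: the growth data of the induced representation
`iro hν V` on `L²(E ⧸ Λ; K)`, for a filtration `D` of the group `Γ` of `RegRep ρ ω`.
-/

set_option linter.all false

open scoped InnerProductSpace ENNReal
open Set Filter Topology MeasureTheory ContinuousLinearMap

namespace Vale.Agent.P092.H933

open Vale.Agent.P092.H790 Vale.Agent.P092.H85 Vale.Agent.P092.H160 Vale.Agent.P092.H103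

/-- A filtration of a group by symmetric sets (balls of a length function). -/
structure Flt {Γ : Type} [Group Γ] (D : ℕ → Set Γ) : Prop where
  mono : Monotone D
  mul : ∀ {a b : Γ} {J J' : ℕ}, a ∈ D J → b ∈ D J' → a * b ∈ D (J + J')
  inv : ∀ {a : Γ} {J : ℕ}, a ∈ D J → a⁻¹ ∈ D J
  ex : ∀ a : Γ, ∃ J, a ∈ D J

theorem Flt.comap {Γ Γ' : Type} [Group Γ] [Group Γ'] {D : ℕ → Set Γ'} (h : Flt D) (p : Γ →* Γ') :
    Flt fun J => p ⁻¹' D J where
  mono J J' hJ a ha := h.mono hJ ha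
  mul ha hb := by
    rw [mem_preimage, map_mul]; exact h.mul ha hb
  inv ha := by
    rw [mem_preimage, map_inv]; exact h.inv ha
  ex a := h.ex (p a)

section

variable {X : Type} [MeasurableSpace X] {Γ K : Type} [Group Γ] [NormedAddCommGroup K]
  [InnerProductSpace ℂ K] [CompleteSpace K]

/-- The fields all of whose values have position in `A`. -/
def SzV (ν : Measure X) (ρ : Γ →* (K →L[ℂ] K)) (ω : K) (A : Set Γ) : Submodule ℂ (Lp K 2 ν) where
  carrier := {ξ | ∀ g ∉ A, ∀ᵐ x ∂ν, ⟪ρ g ω, ξ x⟫_ℂ = 0}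
  add_mem' {a b} ha hb g hg := by
    filter_upwards [ha g hg, hb g hg, Lp.coeFn_add a b] with x h1 h2 h3
    rw [h3, Pi.add_apply, inner_add_right, h1, h2, add_zero]
  zero_mem' g hg := by
    filter_upwards [Lp.coeFn_zero K 2 ν] with x h3
    rw [h3, Pi.zero_apply, inner_zero_right]
  smul_mem' c a ha g hg := by
    filter_upwards [ha g hg, Lp.coeFn_smul c a] with x h1 h3
    rw [h3, Pi.smul_apply, inner_smul_right, h1, mul_zero]

theorem mem_SzV {ν : Measure X} {ρ : Γ →* (K →L[ℂ] K)} {ω : K} {A : Set Γ} {ξ : Lp K 2 ν} :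
    ξ ∈ SzV ν ρ ω A ↔ ∀ g ∉ A, ∀ᵐ x ∂ν, ⟪ρ g ω, ξ x⟫_ℂ = 0 := Iff.rfl

end

section

variable {E : Type} [Group E] [TopologicalSpace E] {Λ : Subgroup E}
  [MeasurableSpace (E ⧸ Λ)] {Γ K : Type} [Group Γ] [NormedAddCommGroup K]
  [InnerProductSpace ℂ K] [CompleteSpace K]

/-- The finite algebra: decomposable operators commuting with the constant fields of `ρ`. -/
def FinM (ν : Measure (E ⧸ Λ)) {ρ : Γ →* (K →L[ℂ] K)} (hρ : ∀ g, adjoint (ρ g) = ρ g⁻¹) :
    StarSubalgebra ℂ (Lp K 2 ν →L[ℂ] Lp K 2 ν) where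
  carrier := {T | Dcp T ∧ ∀ s, T * (ρ s).compLpL 2 ν = (ρ s).compLpL 2 ν * T}
  mul_mem' {a b} ha hb := by
    refine ⟨fun A hA => ?_, fun s => ?_⟩
    · rw [mul_assoc, hb.1 A hA, ← mul_assoc, ha.1 A hA, mul_assoc]
    · rw [mul_assoc, hb.2 s, ← mul_assoc, ha.2 s, mul_assoc]
  one_mem' := ⟨fun A _ => by rw [one_mul, mul_one], fun s => by rw [one_mul, mul_one]⟩
  add_mem' {a b} ha hb := by
    refine ⟨fun A hA => ?_, fun s => ?_⟩
    · rw [add_mul, mul_add, ha.1 A hA, hb.1 A hA]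
    · rw [add_mul, mul_add, ha.2 s, hb.2 s]
  zero_mem' := ⟨fun A _ => by rw [zero_mul, mul_zero], fun s => by rw [zero_mul, mul_zero]⟩
  algebraMap_mem' r := by
    refine ⟨fun A _ => ?_, fun s => ?_⟩
    · rw [Algebra.algebraMap_eq_smul_one, smul_mul_assoc, one_mul, mul_smul_comm, mul_one]
    · rw [Algebra.algebraMap_eq_smul_one, smul_mul_assoc, one_mul, mul_smul_comm, mul_one]
  star_mem' {a} ha := by
    refine ⟨fun A hA => ?_, fun s => ?_⟩
    · have h1 := congrArg star (ha.1 A hA)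
      rw [star_mul, star_mul] at h1
      have h2 : star (H790.ind ν K A) = H790.ind ν K A := by
        rw [star_eq_adjoint, H790.adjoint_ind hA]
      rw [h2] at h1
      exact h1.symm
    · have h1 := congrArg star (ha.2 s⁻¹)
      rw [star_mul, star_mul] at h1
      have h2 : star ((ρ s⁻¹).compLpL 2 ν) = (ρ s).compLpL 2 ν := by
        rw [star_eq_adjoint, H790.comp_adjoint, hρ, inv_inv]
      rw [h2] at h1
      exact h1.symm

theorem mem_FinM {ν : Measure (E ⧸ Λ)} {ρ : Γ →* (K →L[ℂ] K)} {hρ : ∀ g, adjoint (ρ g) = ρ g⁻¹}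
    {T : Lp K 2 ν →L[ℂ] Lp K 2 ν} :
    T ∈ FinM ν hρ ↔ Dcp T ∧ ∀ s, T * (ρ s).compLpL 2 ν = (ρ s).compLpL 2 ν * T := Iff.rfl

end

end Vale.Agent.P092.H933
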