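import Vale.Agent.P092.H933.GLGap2
import Vale.Agent.P092.H725.KapGL
import Vale.Agent.P092.H725.GrowN
import Vale.Agent.P092.SD.Defs

/-!
P092 (helper933), [D-GL-IND]: **the growth theorem on the induced picture**.
-/

set_option linter.all false

open scoped InnerProductSpace ENNReal
open Set Filter Topology MeasureTheory ContinuousLinearMap

namespace Vale.Agent.P092.H933

open Vale.Agent.P092.H790 Vale.Agent.P092.H85 Vale.Agent.P092.H160 Vale.Agent.P092.H103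

section real

theorem mooreSet_one {N : ℕ} (hN : 2 ≤ N) {i j : Fin N} (hij : i ≠ j) :
    MooreSet (Matrix.SpecialLinearGroup (Fin N) ℝ)
      {Matrix.SpecialLinearGroup.transvection hij (1 : ℝ)} := by
  intro 𝓗 _ _ _ σ hσ ξ hξ
  exact hσ.fixed_of_trans hN hij (hξ _ rfl)

theorem leviGap_bw (w : ℝˣ) : LeviGap (SD.bw w) := by
  refine leviGap_real (N := 3) (i := 0) (j := 1) (l := 2) (by decide) (by decide) (by decide) ?_ ?_
  · refine Subtype.ext ?_
    rw [Matrix.SpecialLinearGroup.coe_mul, Matrix.SpecialLinearGroup.coe_mul]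
    ext x y
    fin_cases x <;> fin_cases y <;>
      simp [SD.bw, Matrix.SpecialLinearGroup.transvection_coe, Matrix.mul_apply, Fin.sum_univ_three,
        Matrix.single_apply, Matrix.one_apply, Matrix.diagonal_apply] <;> ring
  · refine Subtype.ext ?_
    rw [Matrix.SpecialLinearGroup.coe_mul, Matrix.SpecialLinearGroup.coe_mul]
    ext x y
    fin_cases x <;> fin_cases y <;>
      simp [SD.bw, Matrix.SpecialLinearGroup.transvection_coe, Matrix.mul_apply, Fin.sum_univ_three,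
        Matrix.single_apply, Matrix.one_apply, Matrix.diagonal_apply] <;> ring

end real

section inst

variable {E : Type} [Group E] [TopologicalSpace E] [IsTopologicalGroup E] [LocallyCompactSpace E]
  [SecondCountableTopology E] [T2Space E] [MeasurableSpace E] [BorelSpace E]
  {Λ : Subgroup E} [DiscreteTopology Λ] [MeasurableSpace (E ⧸ Λ)] [BorelSpace (E ⧸ Λ)]
  {ν : Measure (E ⧸ Λ)} [IsProbabilityMeasure ν] (hν : ∀ g : E, ν.map (fun x => g • x) = ν)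
  {Γ K : Type} [Group Γ] [NormedAddCommGroup K] [InnerProductSpace ℂ K] [CompleteSpace K]
  {ρ : Γ →* (K →L[ℂ] K)} {ω : K} [Countable Λ] [Countable Γ]
  {V : Λ →* (K →L[ℂ] K)} (hVa : ∀ v, adjoint (V v) = V v⁻¹)

include hVa in
/-- **The growth theorem**: if finitely many elements commuting with `a` contract (`LeviGap a`),
the vectors `π (a ^ n) Ω` of the induced representation have size at most `C * n ^ 3` up to `ε`, for
every filtration `D` of the target group by symmetric sets. -/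
theorem growth_ind (h : RegRep ρ ω) (hc : ∀ v, Cmm ρ (V v))
    (hirr : ∀ A : K →L[ℂ] K, Cmm ρ A → Cmm V A → ∃ c : ℂ, A = c • 1)
    {u : E} (hu : MooreSet E {u}) {a : E} (ha : LeviGap a) {D : ℕ → Set Γ} (hD : Flt D)
    {ε : ℝ} (hε : 0 < ε) : ∃ C : ℕ, ∀ n : ℕ, 1 ≤ n → ∃ v ∈ SzV ν ρ ω (D (C * n ^ 3)),
      ‖iro hν V (a ^ n) (Lp.const 2 ν ω) - v‖ ≤ ε :=
  (grD hν hVa h hc hD).growth_vec_all (gap_fin hν hVa h hc hirr hu ha)
    (fun g ε hε => H725.kap_gl hν h hVa hc hD g hε) hε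

end inst

section sl3

variable [LocallyCompactSpace (SD.G3 ℝ)] [SecondCountableTopology (SD.G3 ℝ)]
  [MeasurableSpace (SD.G3 ℝ)] [BorelSpace (SD.G3 ℝ)] {Λ : Subgroup (SD.G3 ℝ)}
  [DiscreteTopology Λ] [MeasurableSpace (SD.G3 ℝ ⧸ Λ)] [BorelSpace (SD.G3 ℝ ⧸ Λ)]
  {ν : Measure (SD.G3 ℝ ⧸ Λ)} [IsProbabilityMeasure ν]
  (hν : ∀ g : SD.G3 ℝ, ν.map (fun x => g • x) = ν)
  {Γ K : Type} [Group Γ] [NormedAddCommGroup K] [InnerProductSpace ℂ K] [CompleteSpace K]
  {ρ : Γ →* (K →L[ℂ] K)} {ω : K} [Countable Λ] [Countable Γ]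
  {V : Λ →* (K →L[ℂ] K)} (hVa : ∀ v, adjoint (V v) = V v⁻¹)

include hVa in
/-- The growth theorem for `SL_3(ℝ)`, in the form needed for `SD.SIZE`. -/
theorem growth_sl3 (h : RegRep ρ ω) (hc : ∀ v, Cmm ρ (V v))
    (hirr : ∀ A : K →L[ℂ] K, Cmm ρ A → Cmm V A → ∃ c : ℂ, A = c • 1)
    (w : ℝˣ) (g : SD.G3 ℝ) {D : ℕ → Set Γ} (hD : Flt D) {ε : ℝ} (hε : 0 < ε) :
    ∃ C : ℕ, ∀ n : ℕ, 1 ≤ n → ∃ v ∈ SzV ν ρ ω (D (C * n ^ 3)),
      ‖iro hν V (g * SD.bw w ^ n * g⁻¹)⁻¹ (Lp.const 2 ν ω) - v‖ ≤ ε := by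
  obtain ⟨C, hC⟩ := growth_ind hν hVa h hc hirr (mooreSet_one (N := 3) (by norm_num)
    (show (0 : Fin 3) ≠ 1 by decide)) ((leviGap_bw w).conj g).inv hD hε
  refine ⟨C, fun n hn => ?_⟩
  have e : (g * SD.bw w ^ n * g⁻¹)⁻¹ = ((g * SD.bw w * g⁻¹)⁻¹) ^ n := by
    rw [inv_pow, conj_pow]
  rw [e]
  exact hC n hn

end sl3

end Vale.Agent.P092.H933
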