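import Vale.Agent.P092.H933.GLDef
import Vale.Agent.P092.H34.Ind

/-!
P092 (helper933), [D-GL-IND] (A): the growth data `GrD` of the induced representation.
-/

set_option linter.all false

open scoped InnerProductSpace ENNReal
open Set Filter Topology MeasureTheory ContinuousLinearMap

namespace Vale.Agent.P092.H933

open Vale.Agent.P092.H790 Vale.Agent.P092.H85 Vale.Agent.P092.H160 Vale.Agent.P092.H103

section gen

variable {X : Type} [MeasurableSpace X] {Γ K : Type} [Group Γ] [NormedAddCommGroup K]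
  [InnerProductSpace ℂ K] [CompleteSpace K] {ν : Measure X} [IsProbabilityMeasure ν]
  {ρ : Γ →* (K →L[ℂ] K)} {ω : K}

/-- the basis fields -/
noncomputable def bfd (ν : Measure X) [IsProbabilityMeasure ν] (ρ : Γ →* (K →L[ℂ] K)) (ω : K)
    (g : Γ) (B : Set X) : Lp K 2 ν :=
  H790.ind ν K B ((ρ g).compLpL 2 ν (Lp.const 2 ν ω))

theorem bfd_ae (g : Γ) {B : Set X} (hB : MeasurableSet B) :
    ⇑(bfd ν ρ ω g B) =ᵐ[ν] B.indicator fun _ => ρ g ω := by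
  filter_upwards [ind_ae hB ((ρ g).compLpL 2 ν (Lp.const 2 ν ω)),
    (ρ g).coeFn_compLpL (p := 2) (Lp.const 2 ν ω), Lp.coeFn_const (p := 2) (μ := ν) ω]
    with x h1 h2 h3
  rw [bfd, h1]
  by_cases hx : x ∈ B
  · rw [Set.indicator_of_mem hx, Set.indicator_of_mem hx, h2, h3]
    rfl
  · rw [Set.indicator_of_notMem hx, Set.indicator_of_notMem hx]

theorem inner_bfd (g : Γ) {B : Set X} (hB : MeasurableSet B) (ξ : Lp K 2 ν) :
    ⟪bfd ν ρ ω g B, ξ⟫_ℂ = ∫ x in B, ⟪ρ g ω, ξ x⟫_ℂ ∂ν := by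
  rw [L2.inner_def, ← integral_indicator hB]
  refine integral_congr_ae ?_
  filter_upwards [bfd_ae (ρ := ρ) (ω := ω) g hB] with x hx
  rw [hx]
  by_cases hm : x ∈ B
  · rw [Set.indicator_of_mem hm, Set.indicator_of_mem hm]
  · rw [Set.indicator_of_notMem hm, Set.indicator_of_notMem hm, inner_zero_left]

theorem mem_SzV_iff {A : Set Γ} {ξ : Lp K 2 ν} :
    ξ ∈ SzV ν ρ ω A ↔ ∀ g ∉ A, ∀ B, MeasurableSet B → ⟪bfd ν ρ ω g B, ξ⟫_ℂ = 0 := by
  constructor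
  · intro h g hg B hB
    rw [inner_bfd g hB]
    refine integral_eq_zero_of_ae (ae_restrict_of_ae ?_)
    filter_upwards [h g hg] with x hx
    exact hx
  · intro h g hg
    have hint : Integrable (fun x => ⟪ρ g ω, ξ x⟫_ℂ) ν :=
      ((Lp.memLp ξ).integrable (by norm_num)).const_inner _
    refine hint.ae_eq_zero_of_forall_setIntegral_eq_zero fun B hB _ => ?_
    rw [← inner_bfd g hB]
    exact h g hg B hB

theorem SzV_mono {A A' : Set Γ} (h : A ⊆ A') : SzV ν ρ ω A ≤ SzV ν ρ ω A' :=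
  fun ξ hξ g hg => hξ g fun hg' => hg (h hg')

/-- A vector orthogonal to the basis fields vanishes. -/
theorem bfd_total (h : RegRep ρ ω) {ξ : Lp K 2 ν} [Countable Γ]
    (hξ : ∀ g B, MeasurableSet B → ⟪bfd ν ρ ω g B, ξ⟫_ℂ = 0) : ξ = 0 := by
  have h1 : ∀ g, ∀ᵐ x ∂ν, ⟪ρ g ω, ξ x⟫_ℂ = 0 := fun g =>
    (mem_SzV_iff (A := (∅ : Set Γ))).2 (fun g _ B hB => hξ g B hB) g (Set.notMem_empty g)
  refine Lp.ext ?_
  filter_upwards [ae_all_iff.2 h1, Lp.coeFn_zero K 2 ν] with x hx hz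
  rw [hz]
  exact h.total _ hx

/-- Operators which commute with `ρ` and transform the multiplications. -/
structure Tw (ρ : Γ →* (K →L[ℂ] K)) (f f' : X → X) (T : Lp K 2 ν →L[ℂ] Lp K 2 ν) : Prop where
  cm : ∀ g, T * (ρ g).compLpL 2 ν = (ρ g).compLpL 2 ν * T
  ind : ∀ B, MeasurableSet B → T * H790.ind ν K B = H790.ind ν K (f' ⁻¹' B) * T
  mf : Measurable f
  mf' : Measurable f'
  li : ∀ x, f (f' x) = x
  ri : ∀ x, f' (f x) = x

theorem Tw.adj (hρ : ∀ g, adjoint (ρ g) = ρ g⁻¹) {f f' : X → X} {T : Lp K 2 ν →L[ℂ] Lp K 2 ν}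
    (h : Tw ρ f f' T) : Tw ρ f' f (adjoint T) where
  cm g := by
    have h1 := congrArg star (h.cm g⁻¹)
    rw [star_mul, star_mul, star_eq_adjoint, star_eq_adjoint, H790.comp_adjoint, hρ, inv_inv] at h1
    exact h1.symm
  ind B hB := by
    have h1 := congrArg star (h.ind _ (h.mf hB))
    rw [star_mul, star_mul, star_eq_adjoint, star_eq_adjoint, star_eq_adjoint,
      H790.adjoint_ind (h.mf hB), H790.adjoint_ind (h.mf' (h.mf hB))] at h1
    have e : f' ⁻¹' (f ⁻¹' B) = B := by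
      ext x
      simp only [Set.mem_preimage, h.li]
    rw [e] at h1
    exact h1.symm
  mf := h.mf'
  mf' := h.mf
  li := h.ri
  ri := h.li

theorem Tw.bfd {f f' : X → X} {T : Lp K 2 ν →L[ℂ] Lp K 2 ν} (h : Tw ρ f f' T) (g : Γ) {B : Set X}
    (hB : MeasurableSet B) : T (bfd ν ρ ω g B) =
      H790.ind ν K (f' ⁻¹' B) ((ρ g).compLpL 2 ν (T (Lp.const 2 ν ω))) := by
  have e1 := congrArg (fun S : Lp K 2 ν →L[ℂ] Lp K 2 ν =>
    S ((ρ g).compLpL 2 ν (Lp.const 2 ν ω))) (h.ind B hB)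
  have e2 := congrArg (fun S : Lp K 2 ν →L[ℂ] Lp K 2 ν => S (Lp.const 2 ν ω)) (h.cm g)
  change T (H790.ind ν K B ((ρ g).compLpL 2 ν (Lp.const 2 ν ω))) =
    H790.ind ν K (f' ⁻¹' B) (T ((ρ g).compLpL 2 ν (Lp.const 2 ν ω))) at e1
  change T ((ρ g).compLpL 2 ν (Lp.const 2 ν ω)) = (ρ g).compLpL 2 ν (T (Lp.const 2 ν ω)) at e2
  rw [H933.bfd, e1, e2]

/-- Inner products with translated basis fields. -/
theorem inner_ind_comp (h : RegRep ρ ω) (g : Γ) {B : Set X} (hB : MeasurableSet B)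
    (χ ζ : Lp K 2 ν) : ⟪H790.ind ν K B ((ρ g).compLpL 2 ν χ), ζ⟫_ℂ =
      ∫ x in B, ⟪ρ g (χ x), ζ x⟫_ℂ ∂ν := by
  rw [L2.inner_def, ← integral_indicator hB]
  refine integral_congr_ae ?_
  filter_upwards [ind_ae hB ((ρ g).compLpL 2 ν χ), (ρ g).coeFn_compLpL (p := 2) χ] with x h1 h2
  rw [h1]
  by_cases hm : x ∈ B
  · rw [Set.indicator_of_mem hm, Set.indicator_of_mem hm, h2]
  · rw [Set.indicator_of_notMem hm, Set.indicator_of_notMem hm, inner_zero_left]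

theorem Tw.adj_mem (h : RegRep ρ ω) {f f' : X → X} {T : Lp K 2 ν →L[ℂ] Lp K 2 ν}
    (hT : Tw ρ f f' T) {A : Set Γ} (hA : T (Lp.const 2 ν ω) ∈ SzV ν ρ ω A) :
    adjoint T (Lp.const 2 ν ω) ∈ SzV ν ρ ω {g | g⁻¹ ∈ A} := by
  rw [mem_SzV_iff]
  intro g hg B hB
  rw [adjoint_inner_right, hT.bfd g hB, inner_ind_comp h g (hT.mf' hB)]
  refine integral_eq_zero_of_ae (ae_restrict_of_ae ?_)
  filter_upwards [hA g⁻¹ hg, Lp.coeFn_const (p := 2) (μ := ν) ω] with x hx h2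
  rw [h2, h.inner_left]
  have h3 : (Function.const X ω x) = ω := rfl
  rw [h3, ← inner_conj_symm, hx, map_zero]
  rfl

theorem Tw.mem_mul (h : RegRep ρ ω) [Countable Γ] {f f' : X → X} {T : Lp K 2 ν →L[ℂ] Lp K 2 ν}
    (hT : Tw ρ f f' T) {A A' A'' : Set Γ} (hAA : ∀ a ∈ A', ∀ b ∈ A, a * b ∈ A'')
    (hA : T (Lp.const 2 ν ω) ∈ SzV ν ρ ω A) {ζ : Lp K 2 ν} (hζ : ζ ∈ SzV ν ρ ω A') :
    T ζ ∈ SzV ν ρ ω A'' := by
  rw [mem_SzV_iff]
  intro g hg B hB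
  have h1 := hT.adj_mem h hA
  have hT' := hT.adj h.adj
  rw [← adjoint_inner_left, hT'.bfd g hB, inner_ind_comp h g (hT'.mf' hB)]
  refine integral_eq_zero_of_ae (ae_restrict_of_ae ?_)
  have h2 : ∀ k : Γ, ∀ᵐ x ∂ν, k⁻¹ ∉ A → ⟪ρ k ω, (adjoint T (Lp.const 2 ν ω)) x⟫_ℂ = 0 := by
    intro k
    by_cases hk : k⁻¹ ∈ A
    · exact Eventually.of_forall fun x hx => absurd hk hx
    · filter_upwards [h1 k hk] with x hx _
      exact hx
  have h3 : ∀ k : Γ, ∀ᵐ x ∂ν, k ∉ A' → ⟪ρ k ω, ζ x⟫_ℂ = 0 := by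
    intro k
    by_cases hk : k ∈ A'
    · exact Eventually.of_forall fun x hx => absurd hk hx
    · filter_upwards [hζ k hk] with x hx _
      exact hx
  filter_upwards [ae_all_iff.2 h2, ae_all_iff.2 h3] with x a2 a3
  have h4 := h.hasSum_inner (ρ g ((adjoint T (Lp.const 2 ν ω)) x)) (ζ x)
  have h5 : ∀ k : Γ, ⟪ρ g ((adjoint T (Lp.const 2 ν ω)) x), ρ k ω⟫_ℂ * ⟪ρ k ω, ζ x⟫_ℂ = 0 := by
    intro k
    by_cases hk : k ∈ A'
    · have hk' : (g⁻¹ * k)⁻¹ ∉ A := by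
        intro hc
        refine hg ?_
        have e : g = k * (g⁻¹ * k)⁻¹ := by group
        rw [e]
        exact hAA _ hk _ hc
      have h6 := a2 (g⁻¹ * k) hk'
      have h7 : ⟪ρ g ((adjoint T (Lp.const 2 ν ω)) x), ρ k ω⟫_ℂ = 0 := by
        rw [h.inner_left, ← mul_ap, ← map_mul, ← inner_conj_symm, h6, map_zero]
      rw [h7, zero_mul]
    · rw [a3 k hk, mul_zero]
  simp only [h5] at h4
  exact (hasSum_zero.unique h4).symm

end gen

section inst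

variable {E : Type} [Group E] [TopologicalSpace E] [IsTopologicalGroup E] [LocallyCompactSpace E]
  [SecondCountableTopology E] [T2Space E] [MeasurableSpace E] [BorelSpace E]
  {Λ : Subgroup E} [DiscreteTopology Λ] [MeasurableSpace (E ⧸ Λ)] [BorelSpace (E ⧸ Λ)]
  {ν : Measure (E ⧸ Λ)} [IsProbabilityMeasure ν] (hν : ∀ g : E, ν.map (fun x => g • x) = ν)
  {Γ K : Type} [Group Γ] [NormedAddCommGroup K] [InnerProductSpace ℂ K] [CompleteSpace K]
  {ρ : Γ →* (K →L[ℂ] K)} {ω : K} [Countable Λ] [Countable Γ]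

include hν in
/-- The field of an element of the finite algebra. -/
theorem FinM.exists_fld (h : RegRep ρ ω) {T : Lp K 2 ν →L[ℂ] Lp K 2 ν} (hT : T ∈ FinM ν h.adj) :
    ∃ A : E ⧸ Λ → K →L[ℂ] K, (∀ x, ‖A x‖ ≤ ‖T‖) ∧
      (∀ y, AEStronglyMeasurable (fun x => A x y) ν) ∧ Fld T A ∧ ∀ᵐ x ∂ν, Cmm ρ (A x) := by
  have hAA : H34.Ind.AA (H85.cdat ν hν) (Set.range ρ) T := by
    rintro w (⟨S, hS, rfl⟩ | ⟨a, ⟨s, rfl⟩, rfl⟩)
    · exact hT.1 S hS
    · exact hT.2 s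
  obtain ⟨A, h1, h2, h3, h4⟩ := hAA.exists_fld h.basis (Set.countable_range ρ)
  refine ⟨A, h1, h2, h3, ?_⟩
  filter_upwards [h4] with x hx g
  exact hx _ ⟨g, rfl⟩

theorem const_ae : ⇑(Lp.const 2 ν ω) =ᵐ[ν] fun _ => ω := Lp.coeFn_const (p := 2) (μ := ν) ω

theorem norm_const (h : RegRep ρ ω) : ‖Lp.const 2 ν ω‖ = 1 := by
  have h1 : ⟪Lp.const 2 ν ω, Lp.const 2 ν ω⟫_ℂ = 1 := by
    rw [L2.inner_def]
    have h2 : ∀ᵐ x ∂ν, ⟪(Lp.const 2 ν ω) x, (Lp.const 2 ν ω) x⟫_ℂ = (1 : ℂ) := by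
      filter_upwards [const_ae (ν := ν) (ω := ω)] with x hx
      rw [hx, inner_self_eq_norm_sq_to_K, h.norm_one]
      simp
    rw [integral_congr_ae h2]
    simp
  rw [inner_self_eq_norm_sq_to_K] at h1
  have h2 : ‖Lp.const 2 ν ω‖ ^ 2 = 1 := by
    have h3 : ((‖Lp.const 2 ν ω‖ ^ 2 : ℝ) : ℂ) = ((1 : ℝ) : ℂ) := by simpa using h1
    exact Complex.ofReal_injective h3
  exact (pow_eq_one_iff_of_nonneg (norm_nonneg _) two_ne_zero).1 h2

include hν in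
/-- The trace property. -/
theorem FinM.trace (h : RegRep ρ ω) {S T : Lp K 2 ν →L[ℂ] Lp K 2 ν} (hS : S ∈ FinM ν h.adj)
    (hT : T ∈ FinM ν h.adj) : ⟪Lp.const 2 ν ω, (S * T) (Lp.const 2 ν ω)⟫_ℂ =
      ⟪Lp.const 2 ν ω, (T * S) (Lp.const 2 ν ω)⟫_ℂ := by
  obtain ⟨A, -, -, hA, hAc⟩ := FinM.exists_fld hν h hS
  obtain ⟨B, -, -, hB, hBc⟩ := FinM.exists_fld hν h hT
  rw [L2.inner_def, L2.inner_def]
  refine integral_congr_ae ?_
  filter_upwards [(hA.mul hB) (Lp.const 2 ν ω), (hB.mul hA) (Lp.const 2 ν ω),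
    const_ae (ν := ν) (ω := ω), hAc, hBc] with x h1 h2 h3 h4 h5
  rw [h1, h2, h3]
  exact h.trace_comm h4 h5

variable {V : Λ →* (K →L[ℂ] K)} (hVa : ∀ v, adjoint (V v) = V v⁻¹)

include hVa in
theorem tw_iro (hc : ∀ v, Cmm ρ (V v)) (g : E) :
    Tw ρ (fun x => g • x) (fun x => g⁻¹ • x) (iro hν V g) where
  cm s := ri_comp (cdat ν hν) (R := fun v => V v) (pi_norm_le hVa) g fun v => ((hc v) s).symm
  ind B hB := ri_ind (cdat ν hν) (R := fun v => V v) (pi_norm_le hVa) g hB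
  mf := smul_meas Λ g
  mf' := smul_meas Λ g⁻¹
  li x := smul_inv_smul g x
  ri x := inv_smul_smul g x

theorem Tw.left {f f' : E ⧸ Λ → E ⧸ Λ} {T Z : Lp K 2 ν →L[ℂ] Lp K 2 ν} (h : RegRep ρ ω)
    (hT : Tw ρ f f' T) (hZ : Z ∈ FinM ν h.adj) : Tw ρ f f' (Z * T) where
  cm s := by rw [mul_assoc, hT.cm, ← mul_assoc, hZ.2 s, mul_assoc]
  ind B hB := by rw [mul_assoc, hT.ind B hB, ← mul_assoc, hZ.1 _ (hT.mf' hB), mul_assoc]
  mf := hT.mf
  mf' := hT.mf'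
  li := hT.li
  ri := hT.ri

theorem tw_fin (h : RegRep ρ ω) {Z : Lp K 2 ν →L[ℂ] Lp K 2 ν} (hZ : Z ∈ FinM ν h.adj) :
    Tw ρ (fun x : E ⧸ Λ => x) (fun x => x) Z where
  cm := hZ.2
  ind B hB := hZ.1 B hB
  mf := measurable_id
  mf' := measurable_id
  li _ := rfl
  ri _ := rfl

/-- the field of the cocycle -/
noncomputable def ufd (g : E) : Lp K 2 ν →L[ℂ] Lp K 2 ν := xf (cdat ν hν) (fun v => V v) g

include hVa in
theorem ufd_fld (g : E) : Fld (ufd hν (V := V) g) fun x => V (coc Λ g (g⁻¹ • x)) :=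
  fld_xf (cdat ν hν) (R := fun v => V v) (pi_norm_le hVa) g

include hVa in
theorem ufd_mem (h : RegRep ρ ω) (hc : ∀ v, Cmm ρ (V v)) (g : E) :
    ufd hν (V := V) g ∈ FinM ν h.adj :=
  ⟨fun B hB => (ufd_fld hν hVa g).ind hB, fun s =>
    xf_comp (cdat ν hν) (R := fun v => V v) (pi_norm_le hVa) g fun v => ((hc v) s).symm⟩

include hVa in
theorem ufd_unitary (g : E) : star (ufd hν (V := V) g) * ufd hν (V := V) g = 1 ∧
    ufd hν (V := V) g * star (ufd hν (V := V) g) = 1 := by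
  have h1 : Fld (star (ufd hν (V := V) g)) fun x => V (coc Λ g (g⁻¹ • x))⁻¹ := by
    have h2 : Fld (fop ν fun x : E ⧸ Λ => V (coc Λ g (g⁻¹ • x))⁻¹)
        fun x => V (coc Λ g (g⁻¹ • x))⁻¹ := by
      refine fop_spec (C := 1) (fun y => ?_) fun x => pi_norm_le hVa _
      exact aesm_countable (F := fun v _ => V v⁻¹ y) (k := fun x : E ⧸ Λ => coc Λ g (g⁻¹ • x))
        (fun v => (smul_meas Λ g⁻¹) (coc_meas Λ g v)) fun v => aestronglyMeasurable_const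
    have h3 := (ufd_fld hν hVa g).adjoint h2 (Eventually.of_forall fun x => (hVa _).symm)
    rw [star_eq_adjoint, h3]
    exact h2
  have hu := ufd_fld hν hVa g
  refine ⟨(h1.mul hu).ext fld_one (Eventually.of_forall fun x => ?_),
    (hu.mul h1).ext fld_one (Eventually.of_forall fun x => ?_)⟩
  · show V _ * V _ = 1
    rw [← map_mul, inv_mul_cancel, map_one]
  · show V _ * V _ = 1
    rw [← map_mul, mul_inv_cancel, map_one]

include hVa in
theorem ufd_const (g : E) : ufd hν (V := V) g (Lp.const 2 ν ω) = iro hν V g (Lp.const 2 ν ω) := by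
  refine Lp.ext ?_
  filter_upwards [ufd_fld hν hVa g (Lp.const 2 ν ω), iro_ae hν hVa g (Lp.const 2 ν ω),
    const_ae (ν := ν) (ω := ω), ae_comp (mpres hν g⁻¹) (const_ae (ν := ν) (ω := ω))]
    with x h1 h2 h3 h4
  rw [h1, h2, h3, h4]

include hVa in
theorem conj_mem (h : RegRep ρ ω) (hc : ∀ v, Cmm ρ (V v)) (g : E)
    {x : Lp K 2 ν →L[ℂ] Lp K 2 ν} (hx : x ∈ FinM ν h.adj) :
    irep hν hVa g * x * irep hν hVa g⁻¹ ∈ FinM ν h.adj := by
  have h0 : irep hν hVa g * irep hν hVa g⁻¹ = 1 := by rw [← map_mul, mul_inv_cancel, map_one]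
  have h1 : ∀ g' : E, Tw ρ (fun x => g' • x) (fun x => g'⁻¹ • x) (irep hν hVa g') :=
    fun g' => tw_iro hν hVa hc g'
  refine ⟨fun B hB => ?_, fun s => ?_⟩
  · have h2 := (h1 g⁻¹).ind B hB
    have hm := (h1 g⁻¹).mf' hB
    have h3 := (h1 g).ind _ hm
    obtain ⟨B', hB'⟩ : ∃ B', B' = (fun x : E ⧸ Λ => (g⁻¹)⁻¹ • x) ⁻¹' B := ⟨_, rfl⟩
    have e : (fun x : E ⧸ Λ => g⁻¹ • x) ⁻¹' ((fun x : E ⧸ Λ => (g⁻¹)⁻¹ • x) ⁻¹' B) = B := by
      ext x
      simp only [Set.mem_preimage, inv_inv, smul_inv_smul]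
    rw [e] at h3
    rw [← hB'] at h2 h3 hm
    calc irep hν hVa g * x * irep hν hVa g⁻¹ * H790.ind ν K B
        = irep hν hVa g * (x * (irep hν hVa g⁻¹ * H790.ind ν K B)) := by simp only [mul_assoc]
      _ = irep hν hVa g * ((x * H790.ind ν K B') * irep hν hVa g⁻¹) := by
          rw [h2]; simp only [mul_assoc]
      _ = (irep hν hVa g * H790.ind ν K B') * x * irep hν hVa g⁻¹ := by
          rw [hx.1 _ hm]; simp only [mul_assoc]
      _ = _ := by rw [h3]; simp only [mul_assoc]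
  · calc irep hν hVa g * x * irep hν hVa g⁻¹ * (ρ s).compLpL 2 ν
        = irep hν hVa g * (x * (irep hν hVa g⁻¹ * (ρ s).compLpL 2 ν)) := by
          simp only [mul_assoc]
      _ = irep hν hVa g * ((x * (ρ s).compLpL 2 ν) * irep hν hVa g⁻¹) := by
          rw [(h1 g⁻¹).cm s]; simp only [mul_assoc]
      _ = (irep hν hVa g * (ρ s).compLpL 2 ν) * x * irep hν hVa g⁻¹ := by
          rw [hx.2 s]; simp only [mul_assoc]
      _ = _ := by rw [(h1 g).cm s]; simp only [mul_assoc]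

/-- **The growth data of the induced representation.** -/
theorem grD (h : RegRep ρ ω) (hc : ∀ v, Cmm ρ (V v)) {D : ℕ → Set Γ} (hD : Flt D) :
    H221.Gr.GrD (irep hν hVa) (FinM ν h.adj) (Lp.const 2 ν ω)
      (fun J => SzV ν ρ ω (D J)) where
  adj := (irep_crep hν hVa).adj
  Ad g x hx := conj_mem hν hVa h hc g hx
  one := norm_const h
  tr x hx y hy := FinM.trace hν h hx hy
  inv g x hx := by
    have h1 : irep hν hVa g⁻¹ (Lp.const 2 ν ω) = ufd hν (V := V) g⁻¹ (Lp.const 2 ν ω) :=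
      (ufd_const hν hVa g⁻¹).symm
    have hu := ufd_mem hν hVa h hc g⁻¹
    have e1 : ⟪Lp.const 2 ν ω, (irep hν hVa g * x * irep hν hVa g⁻¹) (Lp.const 2 ν ω)⟫_ℂ =
        ⟪Lp.const 2 ν ω, ((star (ufd hν (V := V) g⁻¹)) * (x * ufd hν (V := V) g⁻¹))
          (Lp.const 2 ν ω)⟫_ℂ := by
      change ⟪Lp.const 2 ν ω, irep hν hVa g (x (irep hν hVa g⁻¹ (Lp.const 2 ν ω)))⟫_ℂ =
        ⟪Lp.const 2 ν ω, (star (ufd hν (V := V) g⁻¹))
          (x (ufd hν (V := V) g⁻¹ (Lp.const 2 ν ω)))⟫_ℂ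
      rw [← adjoint_inner_left, (irep_crep hν hVa).adj, star_eq_adjoint, adjoint_inner_right, h1]
    rw [e1, FinM.trace hν h (star_mem hu) (mul_mem hx hu), mul_assoc, (ufd_unitary hν hVa _).2,
      mul_one]
  un g := ⟨ufd hν (V := V) g, ufd_mem hν hVa h hc g, (ufd_unitary hν hVa g).1,
    (ufd_unitary hν hVa g).2, ufd_const hν hVa g⟩
  mono J J' hJ := SzV_mono (hD.mono hJ)
  sh g Z hZ z' _ J J' h1 h2 := by
    have hT := (tw_iro hν hVa hc g).left h hZ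
    exact hT.mem_mul h (A := D J) (A' := D J') (A'' := D (J + J'))
      (fun a ha b hb => by rw [add_comm]; exact hD.mul ha hb) h1 h2
  st z hz J h1 := by
    have h2 := (tw_fin h hz).adj_mem h h1
    rw [star_eq_adjoint]
    refine SzV_mono ?_ h2
    intro a ha
    have := hD.inv (show a⁻¹ ∈ D J from ha)
    rwa [inv_inv] at this

end inst

end Vale.Agent.P092.H933
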