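import Vale.Agent.P092.H933.HM1
import Vale.Agent.P092.H933.Cart

/-!
P092 (helper933), [HM2]: Cartan decomposition inside `SL_N(k)` for a local field `k`.
-/

set_option linter.all false

namespace Vale.Agent.P092.H933

open Matrix Filter Topology

variable {N : ℕ}

theorem twist {k : Type*} [NormedField k] (h0 : 0 < N) (g : SpecialLinearGroup (Fin N) k)
    {U V : Matrix (Fin N) (Fin N) k} {a : Fin N → k} (hU : ∀ i j, ‖U i j‖ ≤ 1)
    (hV : ∀ i j, ‖V i j‖ ≤ 1) (dU : ‖U.det‖ = 1) (dV : ‖V.det‖ = 1)
    (ha : Antitone fun i => ‖a i‖) (hg : (g : Matrix (Fin N) (Fin N) k) = U * diagonal a * V) :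
    ∃ (u D v : SpecialLinearGroup (Fin N) k) (b : Fin N → k), (∀ i j, ‖u.1 i j‖ ≤ 1) ∧
      (∀ i j, ‖v.1 i j‖ ≤ 1) ∧ D.1 = diagonal b ∧ (Antitone fun i => ‖b i‖) ∧ g = u * D * v := by
  have dU0 : U.det ≠ 0 := fun h => by rw [h, norm_zero] at dU; exact zero_ne_one dU
  have dV0 : V.det ≠ 0 := fun h => by rw [h, norm_zero] at dV; exact zero_ne_one dV
  obtain ⟨z, hz⟩ : ∃ z : Fin N, z = ⟨0, h0⟩ := ⟨_, rfl⟩
  have hprod : ∀ c : k, ∏ i, (if i = z then c else 1) = c := by
    intro c
    rw [Finset.prod_ite_eq' Finset.univ z (fun _ => c)]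
    simp
  have hu : (U * diagonal (fun i => if i = z then U.det⁻¹ else 1)).det = 1 := by
    rw [Matrix.det_mul, Matrix.det_diagonal, hprod, mul_inv_cancel₀ dU0]
  have hv : (diagonal (fun i => if i = z then V.det⁻¹ else 1) * V).det = 1 := by
    rw [Matrix.det_mul, Matrix.det_diagonal, hprod, inv_mul_cancel₀ dV0]
  obtain ⟨b, hb⟩ : ∃ b : Fin N → k, b = fun i =>
      (if i = z then U.det else 1) * (a i * (if i = z then V.det else 1)) := ⟨_, rfl⟩
  have hD : (diagonal b).det = 1 := by
    have h1 := g.2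
    have h2 : (U * diagonal a * V).det = 1 := by rw [← hg]; exact h1
    rw [Matrix.det_mul, Matrix.det_mul, Matrix.det_diagonal] at h2
    rw [Matrix.det_diagonal, hb, Finset.prod_mul_distrib, Finset.prod_mul_distrib, hprod, hprod]
    rw [← h2]; ring
  refine ⟨⟨_, hu⟩, ⟨_, hD⟩, ⟨_, hv⟩, b, fun i j => ?_, fun i j => ?_, rfl, ?_, ?_⟩
  · show ‖(U * diagonal (fun i => if i = z then U.det⁻¹ else 1)) i j‖ ≤ 1
    rw [Matrix.mul_diagonal, norm_mul]
    split_ifs
    · rw [norm_inv, dU, inv_one, mul_one]; exact hU i j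
    · rw [norm_one, mul_one]; exact hU i j
  · show ‖(diagonal (fun i => if i = z then V.det⁻¹ else 1) * V) i j‖ ≤ 1
    rw [Matrix.diagonal_mul, norm_mul]
    split_ifs
    · rw [norm_inv, dV, inv_one, one_mul]; exact hV i j
    · rw [norm_one, one_mul]; exact hV i j
  · have : (fun i => ‖b i‖) = fun i => ‖a i‖ := by
      funext i
      rw [hb]
      simp only [norm_mul]
      split_ifs
      · rw [dU, dV, one_mul, mul_one]
      · rw [norm_one, one_mul, mul_one]
    rw [this]; exact ha
  · refine Subtype.ext ?_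
    show g.1 = U * diagonal (fun i => if i = z then U.det⁻¹ else 1) * diagonal b *
      (diagonal (fun i => if i = z then V.det⁻¹ else 1) * V)
    have e1 : (fun i => (if i = z then U.det⁻¹ else 1) * b i * (if i = z then V.det⁻¹ else 1)) = a := by
      funext i
      rw [hb]
      by_cases hi : i = z
      · simp only [hi, if_true]
        field_simp
      · simp only [if_neg hi, one_mul, mul_one]
    have e2 : diagonal (fun i => if i = z then U.det⁻¹ else 1) * diagonal b *
        diagonal (fun i => if i = z then V.det⁻¹ else 1) = diagonal a := by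
      rw [Matrix.diagonal_mul_diagonal, Matrix.diagonal_mul_diagonal, e1]
    rw [show g.1 = U * diagonal a * V from hg, ← e2]
    simp only [Matrix.mul_assoc]

theorem entry_le_one_real {U : Matrix (Fin N) (Fin N) ℝ} (h : U * Uᵀ = 1) (i j : Fin N) :
    |U i j| ≤ 1 := by
  have h1 : ∑ j, U i j * U i j = 1 := by
    have := congrFun (congrFun h i) i
    rw [Matrix.mul_apply, Matrix.one_apply_eq] at this
    simpa [Matrix.transpose_apply] using this
  have h2 : U i j * U i j ≤ 1 := by
    rw [← h1]
    exact Finset.single_le_sum (f := fun j => U i j * U i j) (fun _ _ => mul_self_nonneg _)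
      (Finset.mem_univ j)
  rw [← abs_one]
  exact abs_le_of_sq_le_sq' (by nlinarith) (by norm_num) |> fun h => abs_le.2 (by
    have := h; constructor <;> simpa using (by first | exact this.1 | exact this.2))

/-- Cartan decomposition in `SL_N(k)`. -/
theorem exists_kak {k : Type} [NontriviallyNormedField k] (hk : LocK k) (h0 : 0 < N)
    (g : SpecialLinearGroup (Fin N) k) :
    ∃ (u D v : SpecialLinearGroup (Fin N) k) (b : Fin N → k), (∀ i j, ‖u.1 i j‖ ≤ 1) ∧
      (∀ i j, ‖v.1 i j‖ ≤ 1) ∧ D.1 = diagonal b ∧ (Antitone fun i => ‖b i‖) ∧ g = u * D * v := by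
  rcases hk with ⟨φ, h⟩ | ⟨φ, h⟩ | h
  · -- real
    have hs : ∀ x : ℝ, ‖φ.symm x‖ = |x| := fun x => by
      rw [← h, φ.apply_symm_apply, Real.norm_eq_abs]
    have hdet : (g.1.map φ).det = 1 := by
      have : (g.1.map φ).det = φ g.1.det := (RingHom.map_det φ.toRingHom g.1).symm
      rw [this, g.2, map_one]
    obtain ⟨k1, a, k2, hS⟩ := H944.exists_svd (g.1.map φ) (by rw [hdet]; exact one_ne_zero)
    have hd : ∀ {X : Matrix (Fin N) (Fin N) ℝ}, X * Xᵀ = 1 → |X.det| = 1 := by
      intro X hX
      have := congrArg Matrix.det hX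
      rw [Matrix.det_mul, Matrix.det_transpose, Matrix.det_one] at this
      have h2 : |X.det| * |X.det| = 1 := by rw [← abs_mul, this, abs_one]
      nlinarith [abs_nonneg X.det]
    have hds : ∀ X : Matrix (Fin N) (Fin N) ℝ, (X.map φ.symm).det = φ.symm X.det := fun X =>
      (RingHom.map_det φ.symm.toRingHom X).symm
    refine twist h0 g (U := k1.map φ.symm) (V := k2.map φ.symm) (a := fun i => φ.symm (a i))
      (fun i j => ?_) (fun i j => ?_) ?_ ?_ ?_ ?_
    · rw [Matrix.map_apply, hs]; exact entry_le_one_real hS.o1' i j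
    · rw [Matrix.map_apply, hs]; exact entry_le_one_real hS.o2' i j
    · rw [hds, hs]; exact hd hS.o1'
    · rw [hds, hs]; exact hd hS.o2'
    · intro i j hij
      simp only [hs]
      rw [abs_of_pos (hS.pos _), abs_of_pos (hS.pos _)]
      exact hS.anti hij
    · have e1 : g.1 = (g.1.map φ).map φ.symm := by
        ext i j; simp
      show g.1 = _
      rw [e1, hS.eq, Matrix.map_mul, Matrix.map_mul]
      congr 2
      ext i j
      rw [Matrix.map_apply, Matrix.diagonal_apply, Matrix.diagonal_apply]
      split_ifs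
      · rfl
      · exact map_zero _
  · -- complex
    have hs : ∀ x : ℂ, ‖φ.symm x‖ = ‖x‖ := fun x => by
      rw [← h, φ.apply_symm_apply]
    have hdet : (g.1.map φ).det = 1 := by
      have : (g.1.map φ).det = φ g.1.det := (RingHom.map_det φ.toRingHom g.1).symm
      rw [this, g.2, map_one]
    obtain ⟨k1, a, k2, hS⟩ := exists_svdC (g.1.map φ) (by rw [hdet]; exact one_ne_zero)
    have hd : ∀ {X : Matrix (Fin N) (Fin N) ℂ}, X * Xᴴ = 1 → ‖X.det‖ = 1 := by
      intro X hX
      have := congrArg Matrix.det hX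
      rw [Matrix.det_mul, Matrix.det_conjTranspose, Matrix.det_one] at this
      have h2 : ‖X.det‖ * ‖X.det‖ = 1 := by
        have h3 := congrArg norm this
        rwa [norm_mul, norm_star, norm_one] at h3
      nlinarith [norm_nonneg X.det]
    have hds : ∀ X : Matrix (Fin N) (Fin N) ℂ, (X.map φ.symm).det = φ.symm X.det := fun X =>
      (RingHom.map_det φ.symm.toRingHom X).symm
    refine twist h0 g (U := k1.map φ.symm) (V := k2.map φ.symm) (a := fun i => φ.symm (a i))
      (fun i j => ?_) (fun i j => ?_) ?_ ?_ ?_ ?_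
    · rw [Matrix.map_apply, hs]; exact unit_entry hS.o1' i j
    · rw [Matrix.map_apply, hs]; exact unit_entry hS.o2' i j
    · rw [hds, hs]; exact hd hS.o1'
    · rw [hds, hs]; exact hd hS.o2'
    · intro i j hij
      simp only [hs]
      rw [Complex.norm_real, Complex.norm_real, Real.norm_of_nonneg (hS.pos _).le,
        Real.norm_of_nonneg (hS.pos _).le]
      exact hS.anti hij
    · have e1 : g.1 = (g.1.map φ).map φ.symm := by
        ext i j; simp
      show g.1 = _
      rw [e1, hS.eq, Matrix.map_mul, Matrix.map_mul]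
      congr 2
      ext i j
      rw [Matrix.map_apply, Matrix.diagonal_apply, Matrix.diagonal_apply]
      split_ifs
      · rfl
      · exact map_zero _
  · haveI := h
    let c := car (g : Matrix (Fin N) (Fin N) k)
    exact twist h0 g c.hu.le c.hv.le c.hu.norm_det c.hv.norm_det c.anti c.eq

/-- The bounded elements of `SL_N(k)` form a compact set. -/
theorem isCompact_bdd {k : Type*} [NontriviallyNormedField k] [ProperSpace k] (R : ℝ) :
    IsCompact {g : SpecialLinearGroup (Fin N) k | ∀ i j, ‖g.1 i j‖ ≤ R} := by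
  have h1 : IsCompact {f : Matrix (Fin N) (Fin N) k | ∀ i j, ‖f i j‖ ≤ R} := by
    have : {f : Matrix (Fin N) (Fin N) k | ∀ i j, ‖f i j‖ ≤ R} =
        Set.pi Set.univ (fun _ : Fin N => Set.pi Set.univ fun _ : Fin N => Metric.closedBall (0 : k) R) := by
      ext f
      constructor
      · intro h i _ j _
        exact mem_closedBall_zero_iff.2 (h i j)
      · intro h i j
        exact mem_closedBall_zero_iff.1 (h i trivial j trivial)
    rw [this]
    exact isCompact_univ_pi fun _ => isCompact_univ_pi fun _ => isCompact_closedBall _ _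
  have h2 : IsClosed (Set.range (Subtype.val : SpecialLinearGroup (Fin N) k → Matrix (Fin N) (Fin N) k)) := by
    have : Set.range (Subtype.val : SpecialLinearGroup (Fin N) k → Matrix (Fin N) (Fin N) k) =
        {M | M.det = 1} := by
      ext M; constructor
      · rintro ⟨g, rfl⟩; exact g.2
      · intro h; exact ⟨⟨M, h⟩, rfl⟩
    rw [this]
    exact isClosed_eq (continuous_id.matrix_det) continuous_const
  have h3 : Topology.IsClosedEmbedding
      (Subtype.val : SpecialLinearGroup (Fin N) k → Matrix (Fin N) (Fin N) k) :=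
    ⟨⟨⟨rfl⟩, Subtype.val_injective⟩, h2⟩
  exact h3.isCompact_preimage h1

end Vale.Agent.P092.H933
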