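import Mathlib

/-!
# The Mautner phenomenon for `SL₂(ℝ)` in an isometric action (block [Z1])

`SL(2,ℝ)` acts by isometries on a pseudo metric space. If a point is fixed (up to distance `0`)
by the upper unipotents, and the orbit map is continuous at `1` along the lower unipotents, then
the point is fixed by the whole group.
-/

open Filter Topology Matrix
open scoped MatrixGroups

namespace Vale.Agent.P092.H933

/-- upper unipotent -/
def up (r : ℝ) : SL(2, ℝ) := ⟨!![1, r; 0, 1], by simp [Matrix.det_fin_two]⟩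
/-- lower unipotent -/
def lo (s : ℝ) : SL(2, ℝ) := ⟨!![1, 0; s, 1], by simp [Matrix.det_fin_two]⟩
/-- diagonal element -/
noncomputable def dg (a : ℝ) (ha : a ≠ 0) : SL(2, ℝ) :=
  ⟨!![a, 0; 0, a⁻¹], by simp [Matrix.det_fin_two, ha]⟩

lemma coe_up (r : ℝ) : (up r : Matrix (Fin 2) (Fin 2) ℝ) = !![1, r; 0, 1] := rfl
lemma coe_lo (s : ℝ) : (lo s : Matrix (Fin 2) (Fin 2) ℝ) = !![1, 0; s, 1] := rfl
lemma coe_dg (a : ℝ) (ha : a ≠ 0) :
    (dg a ha : Matrix (Fin 2) (Fin 2) ℝ) = !![a, 0; 0, a⁻¹] := rfl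

lemma up_mul_lo_mul_up (s a : ℝ) (hs : s ≠ 0) (ha : a ≠ 0) :
    up ((a - 1) / s) * lo s * up ((a⁻¹ - 1) / s) = dg a ha * lo (a * s) := by
  apply Subtype.ext
  rw [Matrix.SpecialLinearGroup.coe_mul, Matrix.SpecialLinearGroup.coe_mul,
    Matrix.SpecialLinearGroup.coe_mul, coe_up, coe_up, coe_lo, coe_lo, coe_dg]
  simp only [Matrix.mul_fin_two]
  ext i j
  fin_cases i <;> fin_cases j <;> simp <;> field_simp <;> ring

lemma dg_mul_lo (s a : ℝ) (ha : a ≠ 0) :
    dg a ha * lo s = lo (s / a ^ 2) * dg a ha := by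
  apply Subtype.ext
  rw [Matrix.SpecialLinearGroup.coe_mul, Matrix.SpecialLinearGroup.coe_mul, coe_lo, coe_lo, coe_dg]
  simp only [Matrix.mul_fin_two]
  ext i j
  fin_cases i <;> fin_cases j <;> (simp; try field_simp)

lemma lo_zero : lo 0 = 1 := by
  apply Subtype.ext
  rw [coe_lo, Matrix.SpecialLinearGroup.coe_one]
  ext i j; fin_cases i <;> fin_cases j <;> simp

/-- Every element of `SL(2,ℝ)` is a product of unipotents. -/
lemma exists_unip (g : SL(2, ℝ)) : ∃ x y z w : ℝ, g = up x * lo y * up z * lo w := by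
  have key : ∀ g : SL(2, ℝ), g.1 1 0 ≠ 0 → ∃ x y z : ℝ, g = up x * lo y * up z := by
    intro g hc
    have hdet : g.1 0 0 * g.1 1 1 - g.1 0 1 * g.1 1 0 = 1 := by
      have := g.2; rw [Matrix.det_fin_two] at this; exact this
    refine ⟨(g.1 0 0 - 1) / g.1 1 0, g.1 1 0, (g.1 1 1 - 1) / g.1 1 0, ?_⟩
    apply Subtype.ext
    rw [Matrix.SpecialLinearGroup.coe_mul, Matrix.SpecialLinearGroup.coe_mul, coe_up, coe_up,
      coe_lo]
    simp only [Matrix.mul_fin_two]
    have hb : g.1 0 1 = (g.1 0 0 * g.1 1 1 - 1) / g.1 1 0 := by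
      field_simp; linarith
    ext i j
    fin_cases i <;> fin_cases j
    · simp; field_simp; ring
    · simp [hb]; field_simp; ring
    · simp
    · simp; field_simp; ring
  by_cases hc : g.1 1 0 = 0
  · have h2 : (g * lo 1).1 1 0 ≠ 0 := by
      rw [Matrix.SpecialLinearGroup.coe_mul, coe_lo, Matrix.mul_apply]
      simp only [Fin.sum_univ_two, Matrix.of_apply, Matrix.cons_val', Matrix.cons_val_zero,
        Matrix.cons_val_one, Matrix.cons_val_fin_one, hc]
      have hdet : g.1 0 0 * g.1 1 1 - g.1 0 1 * g.1 1 0 = 1 := by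
        have := g.2; rw [Matrix.det_fin_two] at this; exact this
      intro h
      rw [hc] at hdet
      have : g.1 1 1 = 0 := by linarith
      rw [this] at hdet
      simp at hdet
    obtain ⟨x, y, z, h⟩ := key _ h2
    refine ⟨x, y, z, -1, ?_⟩
    rw [← h, mul_assoc]
    have : lo 1 * lo (-1) = 1 := by
      apply Subtype.ext
      rw [Matrix.SpecialLinearGroup.coe_mul, coe_lo, coe_lo, Matrix.SpecialLinearGroup.coe_one]
      simp only [Matrix.mul_fin_two]
      ext i j; fin_cases i <;> fin_cases j <;> simp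
    rw [this, mul_one]
  · obtain ⟨x, y, z, h⟩ := key _ hc
    exact ⟨x, y, z, 0, by rw [lo_zero, mul_one]; exact h⟩

variable {X : Type*} [PseudoMetricSpace X]

/-- **Mautner lemma**, general form: `ρ : SL(2,ℝ) → (X → X)` is any action by isometries
(`ρ (g h) = ρ g ∘ ρ h` up to distance zero is enough in the form of a genuine composition law). -/
theorem mautner_fun (ρ : SL(2, ℝ) → X → X) (hmul : ∀ g h x, ρ (g * h) x = ρ g (ρ h x))
    (hiso : ∀ g x y, dist (ρ g x) (ρ g y) = dist x y) (x : X)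
    (hU : ∀ r, dist (ρ (up r) x) x = 0)
    (hc : Tendsto (fun s => dist (ρ (lo s) x) x) (𝓝 0) (𝓝 0)) (g : SL(2, ℝ)) :
    dist (ρ g x) x = 0 := by
  -- products
  have hprod : ∀ g h, dist (ρ g x) x = 0 → dist (ρ h x) x = 0 → dist (ρ (g * h) x) x = 0 := by
    intro g h hg hh
    have h1 : dist (ρ (g * h) x) (ρ g x) = 0 := by rw [hmul, hiso, hh]
    exact le_antisymm (by
      calc dist (ρ (g * h) x) x ≤ dist (ρ (g * h) x) (ρ g x) + dist (ρ g x) x := dist_triangle _ _ _
        _ = 0 := by rw [h1, hg, add_zero]) dist_nonneg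
  -- the matrix `dg a * lo (a s)` moves `x` as little as `lo s`
  have h1 : ∀ s a : ℝ, s ≠ 0 → ∀ ha : a ≠ 0,
      dist (ρ (dg a ha * lo (a * s)) x) x ≤ dist (ρ (lo s) x) x := by
    intro s a hs ha
    rw [← up_mul_lo_mul_up s a hs ha, hmul, hmul]
    set u := ρ (up ((a⁻¹ - 1) / s)) x with hu
    have e1 : dist u x = 0 := hU _
    calc dist (ρ (up ((a - 1) / s)) (ρ (lo s) u)) x
        ≤ dist (ρ (up ((a - 1) / s)) (ρ (lo s) u)) (ρ (up ((a - 1) / s)) x)
          + dist (ρ (up ((a - 1) / s)) x) x := dist_triangle _ _ _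
      _ = dist (ρ (lo s) u) x := by rw [hiso, hU, add_zero]
      _ ≤ dist (ρ (lo s) u) (ρ (lo s) x) + dist (ρ (lo s) x) x := dist_triangle _ _ _
      _ = dist (ρ (lo s) x) x := by rw [hiso, e1, zero_add]
  -- diagonal elements fix `x`
  have hD : ∀ a : ℝ, ∀ ha : a ≠ 0, dist (ρ (dg a ha) x) x = 0 := by
    intro a ha
    have hb : ∀ s : ℝ, s ≠ 0 → dist (ρ (dg a ha) x) x
        ≤ dist (ρ (lo (a * s)) x) x + dist (ρ (lo s) x) x := by
      intro s hs
      calc dist (ρ (dg a ha) x) x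
          ≤ dist (ρ (dg a ha) x) (ρ (dg a ha * lo (a * s)) x)
            + dist (ρ (dg a ha * lo (a * s)) x) x := dist_triangle _ _ _
        _ ≤ _ := by
            rw [hmul, hiso, dist_comm x, ← hmul]
            exact add_le_add le_rfl (h1 s a hs ha)
    have hlim : Tendsto (fun s : ℝ => dist (ρ (lo (a * s)) x) x + dist (ρ (lo s) x) x)
        (𝓝[≠] 0) (𝓝 (0 + 0)) := by
      refine Tendsto.add ?_ (hc.mono_left nhdsWithin_le_nhds)
      refine hc.comp ?_
      have : Tendsto (fun s : ℝ => a * s) (𝓝 0) (𝓝 (a * 0)) := (continuous_const_mul a).tendsto 0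
      rw [mul_zero] at this
      exact this.mono_left nhdsWithin_le_nhds
    rw [add_zero] at hlim
    refine le_antisymm (ge_of_tendsto hlim ?_) dist_nonneg
    filter_upwards [self_mem_nhdsWithin] with s hs using hb s hs
  -- lower unipotents fix `x`
  have hL : ∀ s : ℝ, dist (ρ (lo s) x) x = 0 := by
    intro s
    have hb : ∀ a : ℝ, ∀ ha : a ≠ 0, dist (ρ (lo s) x) x = dist (ρ (lo (s / a ^ 2)) x) x := by
      intro a ha
      have e1 : dist (ρ (dg a ha) (ρ (lo s) x)) (ρ (dg a ha) x) = dist (ρ (lo s) x) x := hiso _ _ _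
      rw [← hmul, dg_mul_lo, hmul] at e1
      have e2 : dist (ρ (lo (s / a ^ 2)) (ρ (dg a ha) x)) (ρ (lo (s / a ^ 2)) x) = 0 := by
        rw [hiso, hD]
      have e3 := hD a ha
      rw [← e1]
      apply le_antisymm
      · calc dist (ρ (lo (s / a ^ 2)) (ρ (dg a ha) x)) (ρ (dg a ha) x)
            ≤ dist (ρ (lo (s / a ^ 2)) (ρ (dg a ha) x)) (ρ (lo (s / a ^ 2)) x)
              + dist (ρ (lo (s / a ^ 2)) x) x + dist x (ρ (dg a ha) x) := dist_triangle4 _ _ _ _
          _ = _ := by rw [e2, dist_comm x, e3]; ring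
      · calc dist (ρ (lo (s / a ^ 2)) x) x
            ≤ dist (ρ (lo (s / a ^ 2)) x) (ρ (lo (s / a ^ 2)) (ρ (dg a ha) x))
              + dist (ρ (lo (s / a ^ 2)) (ρ (dg a ha) x)) (ρ (dg a ha) x)
              + dist (ρ (dg a ha) x) x := dist_triangle4 _ _ _ _
          _ = _ := by rw [dist_comm (ρ (lo (s / a ^ 2)) x), e2, e3]; ring
    have hlim : Tendsto (fun a : ℝ => dist (ρ (lo (s / a ^ 2)) x) x) atTop (𝓝 0) := by
      refine hc.comp ?_
      exact Tendsto.div_atTop tendsto_const_nhds (tendsto_pow_atTop (by norm_num))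
    refine le_antisymm (ge_of_tendsto hlim ?_) dist_nonneg
    filter_upwards [eventually_ne_atTop (0 : ℝ)] with a ha
    exact (hb a ha).le
  obtain ⟨a, b, c, d, rfl⟩ := exists_unip g
  exact hprod _ _ (hprod _ _ (hprod _ _ (hU a) (hL b)) (hU c)) (hL d)

/-- **Mautner lemma** for a genuine isometric action. -/
theorem mautner [MulAction SL(2, ℝ) X] (hiso : ∀ (g : SL(2, ℝ)) (x y : X),
    dist (g • x) (g • y) = dist x y) (x : X) (hU : ∀ r, dist (up r • x) x = 0)
    (hc : Tendsto (fun s => dist (lo s • x) x) (𝓝 0) (𝓝 0)) (g : SL(2, ℝ)) :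
    dist (g • x) x = 0 :=
  mautner_fun (fun g x => g • x) (fun g h x => mul_smul g h x) hiso x hU hc g

/-- **Mautner lemma** for a group homomorphism `j : SL(2,ℝ) →* G` and an isometric action of `G`
(corners of `SL_n`). -/
theorem mautner_hom {G : Type*} [Group G] [MulAction G X] (j : SL(2, ℝ) →* G)
    (hiso : ∀ (g : G) (x y : X), dist (g • x) (g • y) = dist x y) (x : X)
    (hU : ∀ r, dist (j (up r) • x) x = 0)
    (hc : Tendsto (fun s => dist (j (lo s) • x) x) (𝓝 0) (𝓝 0)) (g : SL(2, ℝ)) :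
    dist (j g • x) x = 0 :=
  mautner_fun (fun g x => j g • x) (fun g h x => by rw [map_mul, mul_smul])
    (fun g x y => hiso _ _ _) x hU hc g

/-- **Mautner lemma**, local form: the group law and the isometry property are only needed on the
orbit of `x`; everything is expressed by a pseudo-distance on the group. `ψ g h` stands for
`dist (g x) (h x)`. -/
theorem mautner_orbit (ψ : SL(2, ℝ) → SL(2, ℝ) → ℝ) (hcomm : ∀ g h, ψ g h = ψ h g)
    (hself : ∀ g, ψ g g = 0) (htri : ∀ g h k, ψ g k ≤ ψ g h + ψ h k)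
    (hinv : ∀ k g h, ψ (k * g) (k * h) = ψ g h) (hU : ∀ r, ψ (up r) 1 = 0)
    (hc : Tendsto (fun s => ψ (lo s) 1) (𝓝 0) (𝓝 0)) (g : SL(2, ℝ)) : ψ g 1 = 0 := by
  let _ : PseudoMetricSpace SL(2, ℝ) :=
    { dist := ψ
      dist_self := hself
      dist_comm := hcomm
      dist_triangle := htri }
  have := mautner_fun (X := SL(2, ℝ)) (fun g h => g * h) (fun g h x => mul_assoc g h x)
    (fun g x y => hinv g x y) 1 (fun r => by rw [mul_one]; exact hU r)
    (by simp only [mul_one]; exact hc) g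
  rw [mul_one] at this
  exact this

end Vale.Agent.P092.H933
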