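import Vale.Agent.P092.H933.PGap

/-!
P092 (helper933), [LOC]: the gauges `f_t(A; b)` and `f°_t(A; b)` over a non-archimedean normed
field: exact left equivariance, exact right invariance, comparison.
-/

set_option linter.all false

namespace Vale.Agent.P092.H933

open Matrix

section

variable {k : Type*} [NormedField k] [IsUltrametricDist k] {n : ℕ}

/-- Partial sums. -/
def cum (u : ℕ → ℝ) (i : ℕ) : ℝ := ∑ l ∈ Finset.range i, u l

theorem cum_sub {u : ℕ → ℝ} {i j : ℕ} (h : i ≤ j) :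
    cum u j - cum u i = ∑ l ∈ Finset.Ico i j, u l := by
  rw [Finset.sum_Ico_eq_sub _ h]
  rfl

theorem cum_nonneg {u : ℕ → ℝ} (h : ∀ l, 0 ≤ u l) (i : ℕ) : 0 ≤ cum u i :=
  Finset.sum_nonneg fun l _ => h l

theorem cum_le {u : ℕ → ℝ} {R : ℝ} (hR : 0 ≤ R) (i : Fin n)
    (h : ∀ l, l + 1 < n → u l ≤ R) : cum u i ≤ n * R := by
  calc cum u i ≤ ∑ _l ∈ Finset.range (i : ℕ), R :=
        Finset.sum_le_sum fun l hl => h l (by rw [Finset.mem_range] at hl; have := i.2; omega)
    _ = (i : ℕ) * R := by rw [Finset.sum_const, Finset.card_range, nsmul_eq_mul]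
    _ ≤ n * R := mul_le_mul_of_nonneg_right (by exact_mod_cast i.2.le) hR

theorem abs_cum_le (u : ℕ → ℝ) (i : Fin n) : |cum u i| ≤ ∑ l ∈ Finset.range n, |u l| := by
  refine (Finset.abs_sum_le_sum_abs _ _).trans ?_
  refine Finset.sum_le_sum_of_subset_of_nonneg (fun l hl => ?_) fun l _ _ => abs_nonneg _
  rw [Finset.mem_range] at hl ⊢
  have := i.2
  omega

theorem cum_shift {θ : Finset ℕ} {u u' : ℕ → ℝ} {d : ℕ → ℝ} (i : ℕ)
    (h : ∀ l, u' l ≤ u l + if l ∈ θ then |d l| else 0) :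
    cum u' i ≤ (∑ j ∈ θ, |d j|) + cum u i := by
  calc cum u' i ≤ ∑ l ∈ Finset.range i, (u l + if l ∈ θ then |d l| else 0) :=
        Finset.sum_le_sum fun l _ => h l
    _ = cum u i + ∑ l ∈ Finset.range i, (if l ∈ θ then |d l| else 0) :=
        Finset.sum_add_distrib
    _ ≤ cum u i + ∑ j ∈ θ, |d j| := by
        refine add_le_add le_rfl ?_
        rw [← Finset.sum_filter]
        refine Finset.sum_le_sum_of_subset_of_nonneg (fun l hl => ?_) fun l _ _ => abs_nonneg _
        exact (Finset.mem_filter.mp hl).2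
    _ = _ := add_comm _ _

/-- The weighted size of the rows. -/
noncomputable def gau (W : Fin n → ℝ) (B : Matrix (Fin n) (Fin n) k) : ℝ :=
  ‖fun p : Fin n × Fin n => W p.1 * ‖B p.1 p.2‖‖

theorem gau_nonneg (W : Fin n → ℝ) (B : Matrix (Fin n) (Fin n) k) : 0 ≤ gau W B := norm_nonneg _

theorem row_le_gau {W : Fin n → ℝ} (hW : ∀ i, 0 ≤ W i) (B : Matrix (Fin n) (Fin n) k)
    (i j : Fin n) : W i * ‖B i j‖ ≤ gau W B := by
  have := norm_le_pi_norm (fun p : Fin n × Fin n => W p.1 * ‖B p.1 p.2‖) (i, j)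
  rwa [Real.norm_of_nonneg (mul_nonneg (hW i) (norm_nonneg _))] at this

theorem gau_le {W : Fin n → ℝ} (hW : ∀ i, 0 ≤ W i) {B : Matrix (Fin n) (Fin n) k} {r : ℝ}
    (hr : 0 ≤ r) (h : ∀ i j, W i * ‖B i j‖ ≤ r) : gau W B ≤ r := by
  refine (pi_norm_le_iff_of_nonneg hr).2 fun p => ?_
  rw [Real.norm_of_nonneg (mul_nonneg (hW p.1) (norm_nonneg _))]
  exact h p.1 p.2

theorem gau_mono {W W' : Fin n → ℝ} (hW : ∀ i, 0 ≤ W i) (hW' : ∀ i, 0 ≤ W' i) {C : ℝ}
    (hC : 0 ≤ C) (h : ∀ i, W i ≤ C * W' i)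
    (B : Matrix (Fin n) (Fin n) k) : gau W B ≤ C * gau W' B := by
  refine gau_le hW (mul_nonneg hC (gau_nonneg _ _)) fun i j => ?_
  calc W i * ‖B i j‖ ≤ C * W' i * ‖B i j‖ := mul_le_mul_of_nonneg_right (h i) (norm_nonneg _)
    _ = C * (W' i * ‖B i j‖) := mul_assoc _ _ _
    _ ≤ C * gau W' B := mul_le_mul_of_nonneg_left (row_le_gau hW' B i j) hC

theorem gau_mul_le {W W' : Fin n → ℝ} (hW : ∀ i, 0 ≤ W i) (hW' : ∀ i, 0 ≤ W' i) {C : ℝ}
    (hC : 0 ≤ C) {q : Matrix (Fin n) (Fin n) k} (h : ∀ i l, W i * ‖q i l‖ ≤ C * W' l)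
    (B : Matrix (Fin n) (Fin n) k) : gau W (q * B) ≤ C * gau W' B := by
  refine gau_le hW (mul_nonneg hC (gau_nonneg _ _)) fun i j => ?_
  rcases eq_or_lt_of_le (hW i) with h0 | h0
  · rw [← h0, zero_mul]; exact mul_nonneg hC (gau_nonneg _ _)
  have : ‖(q * B) i j‖ ≤ C * gau W' B / W i := by
    refine mul_entry_le (div_nonneg (mul_nonneg hC (gau_nonneg _ _)) h0.le) fun l => ?_
    rw [le_div_iff₀ h0]
    calc ‖q i l‖ * ‖B l j‖ * W i = (W i * ‖q i l‖) * ‖B l j‖ := by ring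
      _ ≤ C * W' l * ‖B l j‖ := mul_le_mul_of_nonneg_right (h i l) (norm_nonneg _)
      _ = C * (W' l * ‖B l j‖) := mul_assoc _ _ _
      _ ≤ C * gau W' B := mul_le_mul_of_nonneg_left (row_le_gau hW' B l j) hC
  rw [le_div_iff₀ h0] at this
  linarith

theorem gau_smul (W : Fin n → ℝ) (c : k) (B : Matrix (Fin n) (Fin n) k) :
    gau W (c • B) = ‖c‖ * gau W B := by
  unfold gau
  have : (fun p : Fin n × Fin n => W p.1 * ‖(c • B) p.1 p.2‖) =
      ‖c‖ • fun p : Fin n × Fin n => W p.1 * ‖B p.1 p.2‖ := by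
    funext p
    rw [Matrix.smul_apply, smul_eq_mul, norm_mul, Pi.smul_apply, smul_eq_mul]
    ring
  rw [this, norm_smul, norm_norm]

theorem gau_one (B : Matrix (Fin n) (Fin n) k) : gau (fun _ => 1) B = nr B := by
  refine le_antisymm (gau_le (fun _ => zero_le_one) (nr_nonneg _) fun i j => ?_)
    (nr_le (gau_nonneg _ _) fun i j => ?_)
  · rw [one_mul]; exact entry_le_nr B i j
  · have := row_le_gau (W := fun _ : Fin n => (1 : ℝ)) (fun _ => zero_le_one) B i j
    rwa [one_mul] at this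

theorem nr_K_mul {κ κi : Matrix (Fin n) (Fin n) k} (h : InK κ κi) (b : Matrix (Fin n) (Fin n) k) :
    nr (κ * b) = nr b := by
  refine le_antisymm (nr_le (nr_nonneg _) fun i j => ?_) (nr_le (nr_nonneg _) fun i j => ?_)
  · simpa using mul_entry_le' zero_le_one (nr_nonneg b) h.le (entry_le_nr b) i j
  · have e : b = κi * (κ * b) := by rw [← Matrix.mul_assoc, h.mul', Matrix.one_mul]
    have := mul_entry_le' zero_le_one (nr_nonneg (κ * b)) h.lei (entry_le_nr (κ * b)) i j
    rwa [← e, one_mul] at this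

/-- Exponents of the left gauge. -/
noncomputable def uu (θ : Finset ℕ) (t : ℕ → ℝ) (A : Matrix (Fin n) (Fin n) k) (l : ℕ) : ℝ :=
  if l ∈ θ then t l else gap l A

/-- Exponents of the right gauge. -/
def u0 (θ : Finset ℕ) (t : ℕ → ℝ) (l : ℕ) : ℝ := if l ∈ θ then t l else 0

/-- The left gauge. -/
noncomputable def gf (θ : Finset ℕ) (t : ℕ → ℝ) (A b : Matrix (Fin n) (Fin n) k) : ℝ :=
  gau (fun i => Real.exp (cum (uu θ t A) i)) ((car A).ui * b)

/-- The right gauge. -/
noncomputable def g0 (θ : Finset ℕ) (t : ℕ → ℝ) (A b : Matrix (Fin n) (Fin n) k) : ℝ :=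
  gau (fun i => Real.exp (cum (u0 θ t) i)) ((car A).ui * b)

theorem nr_ui (A b : Matrix (Fin n) (Fin n) k) : nr ((car A).ui * b) = nr b :=
  nr_K_mul (car A).hu.symm b

theorem gau_ge {W : Fin n → ℝ} {c : ℝ} (hc : 0 < c) (h : ∀ i, c ≤ W i)
    (B : Matrix (Fin n) (Fin n) k) : c * nr B ≤ gau W B := by
  have h1 := gau_mono (W := fun _ : Fin n => (1 : ℝ)) (W' := W) (C := c⁻¹)
    (fun _ => zero_le_one) (fun i => hc.le.trans (h i)) (inv_nonneg.2 hc.le) (fun i => by
      rw [inv_mul_eq_div, le_div_iff₀ hc, one_mul]; exact h i) B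
  rw [gau_one, inv_mul_eq_div, le_div_iff₀ hc] at h1
  linarith

theorem gau_le_nr {W : Fin n → ℝ} {C : ℝ} (hW : ∀ i, 0 ≤ W i) (hC : 0 ≤ C) (h : ∀ i, W i ≤ C)
    (B : Matrix (Fin n) (Fin n) k) : gau W B ≤ C * nr B := by
  rw [← gau_one]
  exact gau_mono hW (fun _ => zero_le_one) hC (fun i => by rw [mul_one]; exact h i) B

theorem gf_lo (θ : Finset ℕ) (t : ℕ → ℝ) (A : Matrix (Fin n) (Fin n) k) :
    ∃ c : ℝ, 0 < c ∧ ∀ b : Matrix (Fin n) (Fin n) k, c * nr b ≤ gf θ t A b := by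
  refine ⟨Real.exp (-∑ l ∈ Finset.range n, |uu θ t A l|), Real.exp_pos _, fun b => ?_⟩
  rw [gf, ← nr_ui A b]
  refine gau_ge (Real.exp_pos _) (fun i => Real.exp_le_exp.mpr ?_) _
  exact (abs_le.mp (abs_cum_le (uu θ t A) i)).1

theorem g0_lo (θ : Finset ℕ) (t : ℕ → ℝ) (A : Matrix (Fin n) (Fin n) k) :
    ∃ c : ℝ, 0 < c ∧ ∀ b : Matrix (Fin n) (Fin n) k, c * nr b ≤ g0 θ t A b := by
  refine ⟨Real.exp (-∑ l ∈ Finset.range n, |u0 θ t l|), Real.exp_pos _, fun b => ?_⟩
  rw [g0, ← nr_ui A b]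
  refine gau_ge (Real.exp_pos _) (fun i => Real.exp_le_exp.mpr ?_) _
  exact (abs_le.mp (abs_cum_le (u0 θ t) i)).1

theorem gf_bd {θ : Finset ℕ} {t : ℕ → ℝ} {A : Matrix (Fin n) (Fin n) k} (hA : A.det ≠ 0)
    {R T : ℝ} (hR : ∀ j, j ∉ θ → j + 1 < n → gap j A ≤ R) (h0 : ∀ j ∈ θ, 0 ≤ t j)
    (hT : ∀ j ∈ θ, t j ≤ T) (b : Matrix (Fin n) (Fin n) k) :
    nr b ≤ gf θ t A b ∧ gf θ t A b ≤ Real.exp (n * (|T| + |R|)) * nr b := by
  have u1 : ∀ l, 0 ≤ uu θ t A l := by
    intro l
    unfold uu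
    split_ifs with h
    · exact h0 l h
    · exact gap_nonneg hA l
  have u2 : ∀ l, l + 1 < n → uu θ t A l ≤ |T| + |R| := by
    intro l hl
    unfold uu
    split_ifs with h
    · exact (hT l h).trans ((le_abs_self T).trans (le_add_of_nonneg_right (abs_nonneg R)))
    · exact (hR l h hl).trans ((le_abs_self R).trans (le_add_of_nonneg_left (abs_nonneg T)))
  constructor
  · have := gau_ge (W := fun i : Fin n => Real.exp (cum (uu θ t A) i)) (c := 1) one_pos
      (fun i => Real.one_le_exp (cum_nonneg u1 i)) ((car A).ui * b)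
    rwa [nr_ui, one_mul] at this
  · have := gau_le_nr (W := fun i : Fin n => Real.exp (cum (uu θ t A) i))
      (C := Real.exp (n * (|T| + |R|))) (fun i => (Real.exp_pos _).le) (Real.exp_pos _).le
      (fun i => Real.exp_le_exp.mpr (cum_le (by positivity) i u2)) ((car A).ui * b)
    rwa [nr_ui] at this

theorem g0_bd {θ : Finset ℕ} {t : ℕ → ℝ} (A : Matrix (Fin n) (Fin n) k)
    {T : ℝ} (h0 : ∀ j ∈ θ, 0 ≤ t j) (hT : ∀ j ∈ θ, t j ≤ T)
    (b : Matrix (Fin n) (Fin n) k) :
    nr b ≤ g0 θ t A b ∧ g0 θ t A b ≤ Real.exp (n * |T|) * nr b := by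
  have u1 : ∀ l, 0 ≤ u0 θ t l := by
    intro l
    unfold u0
    split_ifs with h
    · exact h0 l h
    · exact le_rfl
  have u2 : ∀ l, l + 1 < n → u0 θ t l ≤ |T| := by
    intro l hl
    unfold u0
    split_ifs with h
    · exact (hT l h).trans (le_abs_self T)
    · exact abs_nonneg T
  constructor
  · have := gau_ge (W := fun i : Fin n => Real.exp (cum (u0 θ t) i)) (c := 1) one_pos
      (fun i => Real.one_le_exp (cum_nonneg u1 i)) ((car A).ui * b)
    rwa [nr_ui, one_mul] at this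
  · have := gau_le_nr (W := fun i : Fin n => Real.exp (cum (u0 θ t) i))
      (C := Real.exp (n * |T|)) (fun i => (Real.exp_pos _).le) (Real.exp_pos _).le
      (fun i => Real.exp_le_exp.mpr (cum_le (abs_nonneg T) i u2)) ((car A).ui * b)
    rwa [nr_ui] at this

/-- Lipschitz property in `t`. -/
theorem gf_lip (θ : Finset ℕ) (t d : ℕ → ℝ) (A b : Matrix (Fin n) (Fin n) k) :
    gf θ (fun j => t j + d j) A b ≤ Real.exp (∑ j ∈ θ, |d j|) * gf θ t A b := by
  unfold gf
  refine gau_mono (fun i => (Real.exp_pos _).le) (fun i => (Real.exp_pos _).le)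
    (Real.exp_pos _).le (fun i => ?_) _
  rw [← Real.exp_add]
  refine Real.exp_le_exp.mpr (cum_shift i fun l => ?_)
  unfold uu
  split_ifs with h
  · exact add_le_add le_rfl (le_abs_self _)
  · rw [add_zero]

/-- Comparison of the two gauges. -/
theorem gf_g0 {θ : Finset ℕ} {t : ℕ → ℝ} {A : Matrix (Fin n) (Fin n) k} (hA : A.det ≠ 0)
    {R : ℝ} (hR : ∀ j, j ∉ θ → j + 1 < n → gap j A ≤ R) (b : Matrix (Fin n) (Fin n) k) :
    g0 θ t A b ≤ gf θ t A b ∧ gf θ t A b ≤ Real.exp (n * |R|) * g0 θ t A b := by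
  have e : ∀ i : Fin n, cum (uu θ t A) i = cum (u0 θ t) i +
      cum (fun l => if l ∈ θ then 0 else gap l A) i := by
    intro i
    unfold cum
    rw [← Finset.sum_add_distrib]
    refine Finset.sum_congr rfl fun l _ => ?_
    unfold uu u0
    split_ifs <;> simp
  constructor
  · have := gau_mono (W := fun i : Fin n => Real.exp (cum (u0 θ t) i))
      (W' := fun i : Fin n => Real.exp (cum (uu θ t A) i)) (C := 1)
      (fun i => (Real.exp_pos _).le) (fun i => (Real.exp_pos _).le) zero_le_one (fun i => by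
        rw [one_mul, e]
        refine Real.exp_le_exp.mpr (le_add_of_nonneg_right (cum_nonneg (fun l => ?_) i))
        split_ifs
        · exact le_rfl
        · exact gap_nonneg hA l) ((car A).ui * b)
    rwa [one_mul] at this
  · refine gau_mono (fun i => (Real.exp_pos _).le) (fun i => (Real.exp_pos _).le)
      (Real.exp_pos _).le (fun i => ?_) _
    rw [← Real.exp_add, e]
    refine Real.exp_le_exp.mpr ?_
    rw [add_comm]
    refine add_le_add (cum_le (abs_nonneg R) i fun l hl => ?_) le_rfl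
    split_ifs with h
    · exact abs_nonneg R
    · exact (hR l h hl).trans (le_abs_self R)

/-- The reduced exponents. -/
noncomputable def vv (θ : Finset ℕ) (t : ℕ → ℝ) (A : Matrix (Fin n) (Fin n) k) (l : ℕ) : ℝ :=
  if l ∈ θ then t l - gap l A else 0

theorem cum_uu (θ : Finset ℕ) (t : ℕ → ℝ) (A : Matrix (Fin n) (Fin n) k) (i : Fin n) :
    cum (uu θ t A) i = la A 0 - la A i + cum (vv θ t A) i := by
  have hs := sum_gap A (Nat.zero_le (i : ℕ)) i.2
  rw [← Finset.range_eq_Ico] at hs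
  rw [← hs]
  unfold cum
  rw [← Finset.sum_add_distrib]
  refine Finset.sum_congr rfl fun l _ => ?_
  unfold uu vv
  split_ifs <;> ring

/-- The upper half of the left equivariance. -/
theorem gf_left_le {θ : Finset ℕ} {t : ℕ → ℝ} {S A : Matrix (Fin n) (Fin n) k}
    (hS : S.det ≠ 0) (hA : A.det ≠ 0) (ht : ∀ j ∈ θ, j + 1 < n → cn S ≤ t j)
    (hg : ∀ j ∈ θ, j + 1 < n → t j ≤ gap j A) (b : Matrix (Fin n) (Fin n) k) :
    gf θ (fun j => t j + (gap j (S * A) - gap j A)) (S * A) (S * b) ≤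
      Real.exp (la (S * A) 0 - la A 0) * gf θ t A b := by
  unfold gf
  rw [rr_mul (A := A)]
  refine gau_mul_le (fun i => (Real.exp_pos _).le) (fun i => (Real.exp_pos _).le)
    (Real.exp_pos _).le (fun i l => ?_) _
  have hn : 0 < n := by have := i.2; omega
  have hSA := mul_det_ne hS hA
  obtain ⟨x, hx⟩ : ∃ x, x = cum (vv θ t A) i := ⟨_, rfl⟩
  obtain ⟨y, hy⟩ : ∃ y, y = cum (vv θ t A) l := ⟨_, rfl⟩
  have e1 : cum (uu θ (fun j => t j + (gap j (S * A) - gap j A)) (S * A)) i =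
      la (S * A) 0 - la (S * A) i + x := by
    rw [cum_uu, hx]
    congr 2
    funext j
    unfold vv
    split_ifs
    · ring
    · rfl
  have e2 : cum (uu θ t A) l = la A 0 - la A l + y := by rw [cum_uu, hy]
  rw [e1, e2, ← Real.exp_add]
  suffices H : ‖rr A S (S * A) i l‖ ≤ Real.exp (la (S * A) i - la A l + y - x) by
    calc Real.exp (la (S * A) 0 - la (S * A) i + x) * ‖rr A S (S * A) i l‖
        ≤ Real.exp (la (S * A) 0 - la (S * A) i + x) *
          Real.exp (la (S * A) i - la A l + y - x) :=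
          mul_le_mul_of_nonneg_left H (Real.exp_pos _).le
      _ = _ := by rw [← Real.exp_add]; congr 1; ring
  rcases le_or_gt x y with hxy | hxy
  · have h1 : (1 : Matrix (Fin n) (Fin n) k).det ≠ 0 := by rw [det_one]; exact one_ne_zero
    have h2 := rr_le_div (S := S) (T := 1) (B := S * A) hA h1 (by rw [Matrix.mul_one]) i l
    rw [inv_one, nr_one hn, one_mul, ← exp_la hA l, ← exp_la hSA i] at h2
    calc ‖rr A S (S * A) i l‖ ≤ Real.exp (la (S * A) i - la A l) := by
          rw [Real.exp_sub, le_div_iff₀ (Real.exp_pos _)]; exact h2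
      _ ≤ _ := Real.exp_le_exp.2 (by linarith)
  · -- the other case
    have hil : (i : ℕ) < l := by
      by_contra hc
      have hli : (l : ℕ) ≤ i := not_lt.1 hc
      have h3 : x - y ≤ 0 := by
        rw [hx, hy, cum_sub hli]
        refine Finset.sum_nonpos fun j hj => ?_
        rw [Finset.mem_Ico] at hj
        have hj2 : j + 1 < n := by have := i.2; omega
        unfold vv
        split_ifs with h
        · have := hg j h hj2
          linarith
        · exact le_rfl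
      linarith
    obtain ⟨X, hX⟩ : ∃ X, X = ∑ j ∈ (Finset.Ico (i : ℕ) l).filter (· ∈ θ), gap j A := ⟨_, rfl⟩
    obtain ⟨Y, hY⟩ : ∃ Y, Y = ∑ j ∈ (Finset.Ico (i : ℕ) l).filter (· ∈ θ), t j := ⟨_, rfl⟩
    have hc : y - x = Y - X := by
      rw [hx, hy, cum_sub hil.le, hX, hY, ← Finset.sum_sub_distrib, Finset.sum_filter]
      exact Finset.sum_congr rfl fun l _ => rfl
    have hXle : X ≤ la A i - la A l := by
      rw [← sum_gap A hil.le l.2, hX]
      exact Finset.sum_le_sum_of_subset_of_nonneg (Finset.filter_subset _ _)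
        fun l _ _ => gap_nonneg hA l
    have hne : ∃ j ∈ Finset.Ico (i : ℕ) l, j ∈ θ := by
      by_contra hc'
      push Not at hc'
      have : (Finset.Ico (i : ℕ) l).filter (· ∈ θ) = ∅ :=
        Finset.filter_eq_empty_iff.2 fun j hj => hc' j hj
      rw [hX, hY, this, Finset.sum_empty, Finset.sum_empty] at hc
      linarith
    obtain ⟨j0, hj0, hj0θ⟩ := hne
    have hj0m : j0 ∈ (Finset.Ico (i : ℕ) l).filter (· ∈ θ) := Finset.mem_filter.mpr ⟨hj0, hj0θ⟩
    have hlt : ∀ j ∈ Finset.Ico (i : ℕ) l, j + 1 < n := fun j hj => by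
      rw [Finset.mem_Ico] at hj
      have := l.2
      omega
    have hYL : cn S ≤ Y := by
      rw [hY]
      refine (ht j0 hj0θ (hlt j0 hj0)).trans
        (Finset.single_le_sum (f := t) (fun j hj => ?_) hj0m)
      rw [Finset.mem_filter] at hj
      exact (cn_nonneg hS hn).trans (ht j hj.2 (hlt j hj.1))
    have h4 := la_left_ge hS hA i.2
    rw [cn_eq hS hn] at hYL
    calc ‖rr A S (S * A) i l‖ ≤ nr S := rr_le_nr _ _ _ _ _
      _ = Real.exp (Real.log (nr S)) := (Real.exp_log (nr_pos hS hn)).symm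
      _ ≤ _ := Real.exp_le_exp.2 (by linarith)

/-- **Exact left equivariance.** -/
theorem gf_left {θ : Finset ℕ} {t : ℕ → ℝ} {S A : Matrix (Fin n) (Fin n) k}
    (hn : 0 < n) (hS : S.det ≠ 0) (hA : A.det ≠ 0) (ht : ∀ j ∈ θ, j + 1 < n → 2 * cn S ≤ t j)
    (hg : ∀ j ∈ θ, j + 1 < n → t j ≤ gap j A) (b : Matrix (Fin n) (Fin n) k) :
    gf θ (fun j => t j + (gap j (S * A) - gap j A)) (S * A) (S * b) =
      Real.exp (la (S * A) 0 - la A 0) * gf θ t A b := by
  have hc := cn_nonneg hS hn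
  have hSA := mul_det_ne hS hA
  refine le_antisymm (gf_left_le hS hA (fun j hj hj2 => ?_) hg b) ?_
  · linarith [ht j hj hj2]
  have h := gf_left_le (θ := θ) (t := fun j => t j + (gap j (S * A) - gap j A))
    (inv_det_ne hS) hSA (fun j hj hj2 => by
      rw [cn_inv hS]
      have := (abs_le.1 (abs_gap_left hS hA hn j)).1
      linarith [ht j hj hj2]) (fun j hj hj2 => by linarith [hg j hj hj2]) (S * b)
  have e1 : S⁻¹ * (S * A) = A := by rw [← Matrix.mul_assoc, inv_mul_self hS, Matrix.one_mul]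
  have e2 : S⁻¹ * (S * b) = b := by rw [← Matrix.mul_assoc, inv_mul_self hS, Matrix.one_mul]
  have e3 : (fun j => t j + (gap j (S * A) - gap j A) + (gap j A - gap j (S * A))) = t := by
    funext j; ring
  rw [e1, e2, e3] at h
  calc Real.exp (la (S * A) 0 - la A 0) * gf θ t A b
      ≤ Real.exp (la (S * A) 0 - la A 0) * (Real.exp (la A 0 - la (S * A) 0) *
        gf θ (fun j => t j + (gap j (S * A) - gap j A)) (S * A) (S * b)) :=
        mul_le_mul_of_nonneg_left h (Real.exp_pos _).le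
    _ = _ := by
        rw [← mul_assoc, ← Real.exp_add, show la (S * A) 0 - la A 0 + (la A 0 - la (S * A) 0) = 0
          by ring, Real.exp_zero, one_mul]

/-- The upper half of the right invariance. -/
theorem g0_right_le {θ : Finset ℕ} {t : ℕ → ℝ} {A T : Matrix (Fin n) (Fin n) k}
    (hA : A.det ≠ 0) (hT : T.det ≠ 0) (ht : ∀ j ∈ θ, j + 1 < n → 0 ≤ t j)
    (hg : ∀ j ∈ θ, j + 1 < n → t j + cn T ≤ gap j A) (b : Matrix (Fin n) (Fin n) k) :
    g0 θ t (A * T) b ≤ g0 θ t A b := by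
  unfold g0
  have e : (car (A * T)).ui * b = rr A 1 (A * T) * ((car A).ui * b) := by
    rw [← rr_mul, Matrix.one_mul]
  rw [e, ← one_mul (gau _ ((car A).ui * b))]
  refine gau_mul_le (fun i => (Real.exp_pos _).le) (fun i => (Real.exp_pos _).le)
    zero_le_one (fun i l => ?_) _
  have hn : 0 < n := by have := i.2; omega
  have hAT := mul_det_ne hA hT
  obtain ⟨x, hx⟩ : ∃ x, x = cum (u0 θ t) i := ⟨_, rfl⟩
  obtain ⟨y, hy⟩ : ∃ y, y = cum (u0 θ t) l := ⟨_, rfl⟩
  rw [← hx, ← hy, one_mul]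
  suffices H : ‖rr A 1 (A * T) i l‖ ≤ Real.exp (y - x) by
    calc Real.exp x * ‖rr A 1 (A * T) i l‖ ≤ Real.exp x * Real.exp (y - x) :=
          mul_le_mul_of_nonneg_left H (Real.exp_pos _).le
      _ = _ := by rw [← Real.exp_add]; congr 1; ring
  rcases le_or_gt x y with hxy | hxy
  · calc ‖rr A 1 (A * T) i l‖ ≤ nr (1 : Matrix (Fin n) (Fin n) k) := rr_le_nr _ _ _ _ _
      _ = 1 := nr_one hn
      _ ≤ _ := Real.one_le_exp (by linarith)
  · have hil : (l : ℕ) < i := by
      by_contra hc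
      have hli : (i : ℕ) ≤ l := not_lt.1 hc
      have h3 : 0 ≤ y - x := by
        rw [hx, hy, cum_sub hli]
        refine Finset.sum_nonneg fun j hj => ?_
        rw [Finset.mem_Ico] at hj
        have hj2 : j + 1 < n := by have := l.2; omega
        unfold u0
        split_ifs with h
        · exact ht j h hj2
        · exact le_rfl
      linarith
    have hc : x - y = ∑ j ∈ (Finset.Ico (l : ℕ) i).filter (· ∈ θ), t j := by
      rw [hx, hy, cum_sub hil.le, Finset.sum_filter]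
      exact Finset.sum_congr rfl fun l _ => rfl
    have hne : ∃ j ∈ Finset.Ico (l : ℕ) i, j ∈ θ := by
      by_contra hc'
      push Not at hc'
      have : (Finset.Ico (l : ℕ) i).filter (· ∈ θ) = ∅ :=
        Finset.filter_eq_empty_iff.2 fun j hj => hc' j hj
      rw [this, Finset.sum_empty] at hc
      linarith
    obtain ⟨j0, hj0, hj0θ⟩ := hne
    have hj0m : j0 ∈ (Finset.Ico (l : ℕ) i).filter (· ∈ θ) := Finset.mem_filter.mpr ⟨hj0, hj0θ⟩
    have hlt : ∀ j ∈ Finset.Ico (l : ℕ) i, j + 1 < n := fun j hj => by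
      rw [Finset.mem_Ico] at hj
      have := i.2
      omega
    have hcT := cn_nonneg hT hn
    have hsum : cn T ≤ (la A l - la A i) - (x - y) := by
      rw [← sum_gap A hil.le i.2, hc]
      have h5 : ∑ j ∈ (Finset.Ico (l : ℕ) i).filter (· ∈ θ), gap j A ≤
          ∑ j ∈ Finset.Ico (l : ℕ) i, gap j A :=
        Finset.sum_le_sum_of_subset_of_nonneg (Finset.filter_subset _ _)
          fun l _ _ => gap_nonneg hA l
      have h6 : cn T ≤ ∑ j ∈ (Finset.Ico (l : ℕ) i).filter (· ∈ θ), (gap j A - t j) := by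
        have h7 : ∀ j ∈ (Finset.Ico (l : ℕ) i).filter (· ∈ θ), cn T ≤ gap j A - t j :=
          fun j hj => by
            rw [Finset.mem_filter] at hj
            linarith [hg j hj.2 (hlt j hj.1)]
        exact (h7 j0 hj0m).trans (Finset.single_le_sum (f := fun j => gap j A - t j)
          (fun j hj => hcT.trans (h7 j hj)) hj0m)
      rw [Finset.sum_sub_distrib] at h6
      linarith
    have h8 := rr_le_div (S := 1) (B := A * T) hA hT (by rw [Matrix.one_mul]) i l
    rw [← exp_la hA l, ← exp_la hAT i] at h8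
    have h9 := la_right_le hA hT i.2
    calc ‖rr A 1 (A * T) i l‖ ≤ nr T⁻¹ * Real.exp (la (A * T) i) / Real.exp (la A l) := by
          rw [le_div_iff₀ (Real.exp_pos _)]; exact h8
      _ = Real.exp (Real.log (nr T⁻¹) + la (A * T) i - la A l) := by
          rw [Real.exp_sub, Real.exp_add, Real.exp_log (nr_pos (inv_det_ne hT) hn)]
      _ ≤ Real.exp (y - x) := by
          refine Real.exp_le_exp.2 ?_
          rw [cn_eq hT hn] at hsum
          linarith

/-- **Exact right invariance.** -/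
theorem g0_right {θ : Finset ℕ} {t : ℕ → ℝ} {A T : Matrix (Fin n) (Fin n) k} (hn : 0 < n)
    (hA : A.det ≠ 0) (hT : T.det ≠ 0) (ht : ∀ j ∈ θ, j + 1 < n → 0 ≤ t j)
    (hg : ∀ j ∈ θ, j + 1 < n → t j + 2 * cn T ≤ gap j A) (b : Matrix (Fin n) (Fin n) k) :
    g0 θ t (A * T) b = g0 θ t A b := by
  have hcT := cn_nonneg hT hn
  refine le_antisymm (g0_right_le hA hT ht (fun j hj hj2 => ?_) b) ?_
  · linarith [hg j hj hj2]
  have h := g0_right_le (θ := θ) (t := t) (A := A * T) (T := T⁻¹) (mul_det_ne hA hT)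
    (inv_det_ne hT) ht (fun j hj hj2 => by
      rw [cn_inv hT]
      have := (abs_le.1 (abs_gap_right hA hT hn j)).1
      linarith [hg j hj hj2]) b
  rwa [Matrix.mul_assoc, mul_inv_self hT, Matrix.mul_one] at h

end

end Vale.Agent.P092.H933
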